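import Vale.Agent.P240.R2.H458.G6

/-!
`LocG` for `L` from the corresponding property of its automorphism group.
-/

set_option linter.all false

namespace Vale.Agent.P240.R2.H458

open Finsupp hiding cons
open Subgroup Vale.Agent.P240.K Vale.Agent.P240.R2.H487 Vale.Agent.P240.R2.H979

universe u v

/-- the property `LocG` in the automorphism group, for the prime `2` -/
def AutG (𝕜 : Type v) [Field 𝕜] (Λ : Type u) [Group Λ] : Prop :=
  ∃ 𝒜 : Set (Subgroup (MulAut Λ)), 𝒜.Nonempty ∧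
    (∀ A ∈ 𝒜, A ≤ (MulAut.conj (G := Λ)).range ∧ A ∈ ApS 2 (MulAut Λ)) ∧
    ∀ E : Subgroup (MulAut Λ), (∀ x ∈ E, ∀ y ∈ E, x * y = y * x) → (∀ x ∈ E, x ^ 2 = 1) →
      (∀ y ∈ (MulAut.conj (G := Λ)).range, y ^ 2 = 1 → (∀ e ∈ E, e * y = y * e) → y ∈ E) →
      ∀ E₁ ≤ E, (∃ A ∈ 𝒜, A ≤ E₁) → E ⊓ (MulAut.conj (G := Λ)).range ≤ E₁ →
      ∃ B ≤ E, E₁ ⊔ B = E ∧ E₁ ⊓ B = ⊥ ∧
        ∃ F ≤ ((MulAut.conj (G := Λ)).range ⊔ E₁) ⊓ centralizer (B : Set (MulAut Λ)),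
          F ∈ ApS 2 (MulAut Λ) ∧ (∃ A ∈ 𝒜, A ≤ F) ∧
          (MulAut.conj (G := Λ)).range ⊔ F = (MulAut.conj (G := Λ)).range ⊔ E₁ ∧
          ∃ (α : Ch 𝕜 (Subgroup (MulAut Λ))) (φ : List (Subgroup (MulAut Λ))),
            LinkCycle 𝕜 2 (((MulAut.conj (G := Λ)).range ⊔ E₁) ⊓
              centralizer (B : Set (MulAut Λ))) F α φ

section
variable {𝕜 : Type v} [Field 𝕜] {G : Type u} [Group G]

/-- the general form -/
theorem locG_of_hom [Finite G] {L : Subgroup G} {Λ : Type*} [Group Λ]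
    (π : normalizer (L : Set G) →* MulAut Λ) (hL : im π L = (MulAut.conj (G := Λ)).range)
    (hker : ∀ x (hx : x ∈ normalizer (L : Set G)), π ⟨x, hx⟩ = 1 ↔ x ∈ centralizer (L : Set G))
    (hc : L ⊓ centralizer (L : Set G) = ⊥) (h : AutG 𝕜 Λ) : LocG 𝕜 2 L := by
  obtain ⟨𝒜, ⟨A₀, hA₀⟩, h𝒜, hmain⟩ := h
  have hLN : L ≤ normalizer (L : Set G) := le_normalizer
  have hLinj : H979.InjOn π L := fun x hx hxL h1 => by
    have h2 := mem_inf.2 ⟨hxL, (hker x hx).1 h1⟩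
    rwa [hc, mem_bot] at h2
  have hup : ∀ A ∈ 𝒜, im π (up π L A) = A := fun A hA => im_up (by rw [hL]; exact (h𝒜 A hA).1)
  refine ⟨{A | A ≤ L ∧ im π A ∈ 𝒜}, ⟨up π L A₀, up_le, by rw [hup A₀ hA₀]; exact hA₀⟩, ?_, ?_⟩
  · rintro A ⟨hAL, hA⟩
    exact ⟨hAL, (hLinj.mono hAL).ApS (hAL.trans hLN) (h𝒜 _ hA).2⟩
  intro E hE hEN hEmax E₁ hE₁ hAE hEL hEC
  obtain ⟨A, ⟨hAL, hA⟩, hAE⟩ := hAE
  have hE₁N := hE₁.trans hEN
  -- commuting elements
  have hcomL : ∀ l (hl : l ∈ L) e (he : e ∈ E),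
      π ⟨l, hLN hl⟩ * π ⟨e, hEN he⟩ = π ⟨e, hEN he⟩ * π ⟨l, hLN hl⟩ → e * l = l * e := by
    intro l hl e he h1
    have h2 : e * l * e⁻¹ * l⁻¹ = 1 := by
      refine hLinj _ ?_ ?_ ?_
      · exact mul_mem (mul_mem (mul_mem (hEN he) (hLN hl)) (inv_mem (hEN he))) (inv_mem (hLN hl))
      · exact mul_mem ((mem_normalizer_iff.1 (hEN he) l).1 hl) (inv_mem hl)
      · have h3 : (⟨e * l * e⁻¹ * l⁻¹, mul_mem (mul_mem (mul_mem (hEN he) (hLN hl))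
            (inv_mem (hEN he))) (inv_mem (hLN hl))⟩ : normalizer (L : Set G)) =
            ⟨e, hEN he⟩ * ⟨l, hLN hl⟩ * ⟨e, hEN he⟩⁻¹ * ⟨l, hLN hl⟩⁻¹ := rfl
        rw [h3, map_mul, map_mul, map_mul, map_inv, map_inv, ← h1, mul_inv_cancel_right,
          mul_inv_cancel]
    have h3 : e * l * e⁻¹ = l := by rw [← mul_inv_eq_one]; exact h2
    rwa [mul_inv_eq_iff_eq_mul] at h3
  -- the images
  have hcomm : ∀ x ∈ im π E, ∀ y ∈ im π E, x * y = y * x := by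
    intro x hx y hy
    obtain ⟨a, ha, haE, rfl⟩ := mem_im.1 hx
    obtain ⟨b, hb, hbE, rfl⟩ := mem_im.1 hy
    rw [← map_mul, ← map_mul]
    exact congrArg π (Subtype.ext (hE.2.1 a haE b hbE))
  have hexp : ∀ x ∈ im π E, x ^ 2 = 1 := by
    intro x hx
    obtain ⟨a, ha, haE, rfl⟩ := mem_im.1 hx
    rw [← map_pow]
    have h1 : (⟨a, ha⟩ : normalizer (L : Set G)) ^ 2 = 1 := Subtype.ext (hE.2.2 a haE)
    rw [h1, map_one]
  -- an element of `L` whose image commutes with `im π E` and is an involution is in `E`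
  have hLE : ∀ l (hl : l ∈ L), π ⟨l, hLN hl⟩ ^ 2 = 1 →
      (∀ q ∈ im π E, q * π ⟨l, hLN hl⟩ = π ⟨l, hLN hl⟩ * q) → l ∈ E := by
    intro l hl h1 h2
    refine hEmax l hl ?_ fun e he => ?_
    · refine hLinj _ (pow_mem (hLN hl) 2) (pow_mem hl 2) ?_
      have h3 : (⟨l ^ 2, pow_mem (hLN hl) 2⟩ : normalizer (L : Set G)) = ⟨l, hLN hl⟩ ^ 2 := rfl
      rw [h3, map_pow, h1]
    · exact hcomL l hl e he (h2 _ (mem_im.2 ⟨e, hEN he, he, rfl⟩)).symm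
  have hmax' : ∀ y ∈ (MulAut.conj (G := Λ)).range, y ^ 2 = 1 →
      (∀ e ∈ im π E, e * y = y * e) → y ∈ im π E := by
    intro y hy hy2 hyc
    rw [← hL] at hy
    obtain ⟨l, hlN, hl, rfl⟩ := mem_im.1 hy
    exact mem_im.2 ⟨l, hlN, hLE l hl hy2 hyc, rfl⟩
  have hEL' : im π E ⊓ (MulAut.conj (G := Λ)).range ≤ im π E₁ := by
    intro q hq
    obtain ⟨hq1, hq2⟩ := mem_inf.1 hq
    rw [← hL] at hq2
    obtain ⟨l, hlN, hl, rfl⟩ := mem_im.1 hq2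
    have h1 : l ∈ E := hLE l hl (hexp _ hq1) fun q hq => hcomm q hq _ hq1
    exact mem_im.2 ⟨l, hlN, hEL (mem_inf.2 ⟨h1, hl⟩), rfl⟩
  obtain ⟨Bb, hBbE, hB1, hB2, E'b, hE'le, hE'S, ⟨A', hA', hA'E⟩, hE'L, α, φ, hT⟩ :=
    hmain (im π E) hcomm hexp hmax' (im π E₁) (im_mono hE₁) ⟨im π A, hA, im_mono hAE⟩ hEL'
  rw [← hL] at hE'le hE'L hT
  -- `B`
  have hBim : im π (up π E Bb) = Bb := im_up hBbE
  have hBE : up π E Bb ≤ E := up_le
  have hnorm : ∀ b ∈ E₁, ∀ a ∈ L, b * a * b⁻¹ ∈ L := fun b hb a ha =>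
    (mem_normalizer_iff.1 (hE₁N hb) a).1 ha
  have hinj : H979.InjOn π (L ⊔ E₁) := by
    intro x hx hxK hx1
    have hxC := (hker x hx).1 hx1
    obtain ⟨l, hl, e, he, rfl⟩ := H487.mem_sup_norm hnorm hxK
    have h1 : l ∈ E₁ := by
      have h3 : π ⟨l, hLN hl⟩ = (π ⟨e, hE₁N he⟩)⁻¹ := by
        rw [← mul_eq_one_iff_eq_inv, ← map_mul]
        exact hx1
      have h4 : (π ⟨e, hE₁N he⟩)⁻¹ ∈ im π E := inv_mem (mem_im.2 ⟨e, hE₁N he, hE₁ he, rfl⟩)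
      have h5 : l ∈ E := hLE l hl (by rw [h3]; exact hexp _ h4) fun q hq => by
        rw [h3]
        exact hcomm q hq _ h4
      exact hEL (mem_inf.2 ⟨h5, hl⟩)
    have h2 : l * e ∈ E₁ ⊓ centralizer (L : Set G) := mem_inf.2 ⟨mul_mem h1 he, hxC⟩
    rwa [hEC, mem_bot] at h2
  have hKN : L ⊔ E₁ ≤ normalizer (L : Set G) := sup_le hLN hE₁N
  have hMN : (L ⊔ E₁) ⊓ centralizer ((up π E Bb : Subgroup G) : Set G) ≤
      normalizer (L : Set G) := inf_le_left.trans hKN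
  have hMinj := hinj.mono (K' := (L ⊔ E₁) ⊓ centralizer ((up π E Bb : Subgroup G) : Set G))
    inf_le_left
  -- the image of `M`
  have hM : im π ((L ⊔ E₁) ⊓ centralizer ((up π E Bb : Subgroup G) : Set G)) =
      (im π L ⊔ im π E₁) ⊓ centralizer (Bb : Set (MulAut Λ)) := by
    refine le_antisymm (fun q hq => ?_) fun q hq => ?_
    · obtain ⟨x, hx, hxM, rfl⟩ := mem_im.1 hq
      obtain ⟨hx1, hx2⟩ := mem_inf.1 hxM
      refine mem_inf.2 ⟨?_, mem_centralizer_iff.2 fun b hb => ?_⟩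
      · rw [← im_sup hLN hE₁N]
        exact mem_im.2 ⟨x, hx, hx1, rfl⟩
      · have hb' : b ∈ im π (up π E Bb) := by rw [hBim]; exact hb
        obtain ⟨y, hy, hyB, rfl⟩ := mem_im.1 hb'
        rw [← map_mul, ← map_mul]
        exact congrArg π (Subtype.ext (mem_centralizer_iff.1 hx2 y hyB))
    · obtain ⟨hq1, hq2⟩ := mem_inf.1 hq
      rw [← im_sup hLN hE₁N] at hq1
      obtain ⟨x, hx, hxK, rfl⟩ := mem_im.1 hq1
      refine mem_im.2 ⟨x, hx, mem_inf.2 ⟨hxK, mem_centralizer_iff.2 fun b hb => ?_⟩, rfl⟩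
      obtain ⟨hbN, hbE, hbB⟩ := mem_up.1 hb
      obtain ⟨l, hl, e, he, rfl⟩ := H487.mem_sup_norm hnorm hxK
      have h1 : b * (l * e) * b⁻¹ * (l * e)⁻¹ = 1 := by
        refine hLinj _ ?_ ?_ ?_
        · exact mul_mem (mul_mem (mul_mem hbN hx) (inv_mem hbN)) (inv_mem hx)
        · have h2 : b * e = e * b := hE.2.1 b hbE e (hE₁ he)
          have h3 : b * (l * e) * b⁻¹ * (l * e)⁻¹ = (b * l * b⁻¹) * l⁻¹ := by
            have h4 : e * b⁻¹ * e⁻¹ = b⁻¹ := by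
              rw [mul_inv_eq_iff_eq_mul, eq_inv_mul_iff_mul_eq, ← mul_assoc, h2,
                mul_inv_cancel_right]
            calc b * (l * e) * b⁻¹ * (l * e)⁻¹ = b * l * (e * b⁻¹ * e⁻¹) * l⁻¹ := by group
              _ = (b * l * b⁻¹) * l⁻¹ := by rw [h4]
          rw [h3]
          exact mul_mem ((mem_normalizer_iff.1 hbN l).1 hl) (inv_mem hl)
        · have h2 : (⟨b * (l * e) * b⁻¹ * (l * e)⁻¹,
              mul_mem (mul_mem (mul_mem hbN hx) (inv_mem hbN)) (inv_mem hx)⟩ :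
                normalizer (L : Set G)) = ⟨b, hbN⟩ * ⟨l * e, hx⟩ * ⟨b, hbN⟩⁻¹ * ⟨l * e, hx⟩⁻¹ := rfl
          rw [h2, map_mul, map_mul, map_mul, map_inv, map_inv,
            mem_centralizer_iff.1 hq2 _ hbB, mul_inv_cancel_right, mul_inv_cancel]
      have h2 : b * (l * e) * b⁻¹ = l * e := by
        rw [← mul_inv_eq_one]
        exact h1
      rwa [mul_inv_eq_iff_eq_mul] at h2
  rw [← hM] at hE'le hT
  have hE'im : im π (up π ((L ⊔ E₁) ⊓ centralizer ((up π E Bb : Subgroup G) : Set G)) E'b) = E'b :=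
    im_up hE'le
  refine ⟨up π E Bb, hBE, ?_, ?_, ?_, up π ((L ⊔ E₁) ⊓
    centralizer ((up π E Bb : Subgroup G) : Set G)) E'b, up_le, ?_, ?_, ?_,
    linkCycle_up hMN hMinj hT hE'le⟩
  · -- `E₁ ⊔ B = E`
    refine le_antisymm (sup_le hE₁ hBE) fun g hg => ?_
    have h1 : π ⟨g, hEN hg⟩ ∈ im π E₁ ⊔ Bb := by
      rw [hB1]
      exact mem_im.2 ⟨g, hEN hg, hg, rfl⟩
    obtain ⟨a, ha, b, hb, hab⟩ := H487.mem_sup_norm (fun b hb a ha => by
      rw [hcomm b (hBbE hb) a (im_mono hE₁ ha), mul_inv_cancel_right]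
      exact ha) h1
    obtain ⟨e, he, heE, rfl⟩ := mem_im.1 ha
    have h2 : e⁻¹ * g ∈ up π E Bb := by
      refine mem_up.2 ⟨mul_mem (inv_mem he) (hEN hg), mul_mem (inv_mem (hE₁ heE)) hg, ?_⟩
      have h3 : (⟨e⁻¹ * g, mul_mem (inv_mem he) (hEN hg)⟩ : normalizer (L : Set G)) =
        ⟨e, he⟩⁻¹ * ⟨g, hEN hg⟩ := rfl
      rw [h3, map_mul, map_inv, ← hab, inv_mul_cancel_left]
      exact hb
    have h3 := mul_mem (le_sup_left (a := E₁) (b := up π E Bb) heE) (le_sup_right (a := E₁) h2)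
    rwa [mul_inv_cancel_left] at h3
  · -- `E₁ ⊓ B = ⊥`
    rw [eq_bot_iff, ← hEC]
    intro g hg
    obtain ⟨hg1, hg2⟩ := mem_inf.1 hg
    obtain ⟨hgN, _, hgB⟩ := mem_up.1 hg2
    refine mem_inf.2 ⟨hg1, (hker g hgN).1 ?_⟩
    have h1 : π ⟨g, hgN⟩ ∈ im π E₁ ⊓ Bb := mem_inf.2 ⟨mem_im.2 ⟨g, hgN, hg1, rfl⟩, hgB⟩
    rwa [hB2, mem_bot] at h1
  · -- `E ⊓ C(L) ≤ B`
    intro g hg
    obtain ⟨hg1, hg2⟩ := mem_inf.1 hg
    refine mem_up.2 ⟨hEN hg1, hg1, ?_⟩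
    rw [(hker g (hEN hg1)).2 hg2]
    exact one_mem _
  · -- `E' ∈ ApS`
    refine (hMinj.mono up_le).ApS (up_le.trans hMN) ?_
    rw [hE'im]
    exact hE'S
  · -- a member of the family
    have h1 := hup A' hA'
    refine ⟨up π L A', ⟨up_le, by rw [h1]; exact hA'⟩, fun a ha => ?_⟩
    obtain ⟨haN, haL, haA⟩ := mem_up.1 ha
    refine mem_up.2 ⟨haN, ?_, hA'E haA⟩
    obtain ⟨m, hm, hmM, hma⟩ := mem_im.1 (hE'le (hA'E haA))
    rw [hinj.eq haN hm (le_sup_left (a := L) haL) (mem_inf.1 hmM).1 hma.symm]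
    exact hmM
  · -- `L ⊔ E' = L ⊔ E₁`
    have h1 : up π ((L ⊔ E₁) ⊓ centralizer ((up π E Bb : Subgroup G) : Set G)) E'b ≤ L ⊔ E₁ :=
      up_le.trans inf_le_left
    have h2 : im π (L ⊔ up π ((L ⊔ E₁) ⊓ centralizer ((up π E Bb : Subgroup G) : Set G)) E'b) =
        im π (L ⊔ E₁) := by
      rw [im_sup hLN up_le_N, im_sup hLN hE₁N, hE'im, hE'L]
    exact le_antisymm (hinj.le_of_im_le hKN (sup_le le_sup_left h1) le_rfl h2.le)
      (hinj.le_of_im_le hKN le_rfl (sup_le le_sup_left h1) h2.ge)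

/-- **`LocG` from the automorphism group.** -/
theorem locG_of_autG [Finite G] {L : Subgroup G} {Λ : Type*} [Group Λ] (e : Λ ≃* L)
    (hc : ∀ x : Λ, (∀ y, x * y = y * x) → x = 1) (h : AutG 𝕜 Λ) : LocG 𝕜 2 L := by
  have hLN : L ≤ normalizer (L : Set G) := le_normalizer
  let π : normalizer (L : Set G) →* MulAut Λ :=
    (MulAut.congr e.symm).toMonoidHom.comp L.normalizerMonoidHom
  have hπ : ∀ (n : normalizer (L : Set G)) (x : Λ), ((e (π n x) : L) : G) = n * (e x : G) * (n : G)⁻¹ := by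
    intro n x
    have h1 : π n x = e.symm (L.normalizerMonoidHom n (e x)) := rfl
    rw [h1, MulEquiv.apply_symm_apply]
    rfl
  have hconj : ∀ x : Λ, π ⟨e x, hLN (e x).2⟩ = MulAut.conj x := by
    intro x
    refine MulEquiv.ext fun y => e.injective (Subtype.ext ?_)
    rw [hπ, MulAut.conj_apply, map_mul, map_mul, map_inv]
    rfl
  refine locG_of_hom π ?_ ?_ ?_ h
  · ext q
    rw [mem_im]
    constructor
    · rintro ⟨x, hx, hxL, rfl⟩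
      refine ⟨e.symm ⟨x, hxL⟩, ?_⟩
      rw [← hconj]
      refine congrArg π (Subtype.ext ?_)
      show ((e (e.symm ⟨x, hxL⟩) : L) : G) = x
      rw [MulEquiv.apply_symm_apply]
    · rintro ⟨x, rfl⟩
      exact ⟨e x, hLN (e x).2, (e x).2, hconj x⟩
  · intro x hx
    rw [mem_centralizer_iff]
    constructor
    · intro h1 l hl
      have h2 := hπ ⟨x, hx⟩ (e.symm ⟨l, hl⟩)
      rw [h1, MulAut.one_apply, MulEquiv.apply_symm_apply] at h2
      have h3 : l = x * l * x⁻¹ := h2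
      rw [eq_mul_inv_iff_mul_eq] at h3
      exact h3
    · intro h1
      refine MulEquiv.ext fun y => e.injective (Subtype.ext ?_)
      rw [hπ, MulAut.one_apply]
      have h2 := h1 (e y) (e y).2
      show x * (e y : G) * x⁻¹ = (e y : G)
      rw [← h2, mul_inv_cancel_right]
  · rw [eq_bot_iff]
    intro x hx
    obtain ⟨hx1, hx2⟩ := mem_inf.1 hx
    have h1 : e.symm ⟨x, hx1⟩ = 1 := by
      refine hc _ fun y => e.injective (Subtype.ext ?_)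
      rw [map_mul, map_mul, MulEquiv.apply_symm_apply]
      exact (mem_centralizer_iff.1 hx2 (e y) (e y).2).symm
    have h2 : (⟨x, hx1⟩ : L) = 1 := by
      rw [← e.apply_symm_apply ⟨x, hx1⟩, h1, map_one]
    exact mem_bot.2 (congrArg Subtype.val h2)

/-- `GFac` from the automorphism group. -/
theorem gFac_of_autG {L Λ : Type u} [Group L] [Group Λ] (e : Λ ≃* L)
    (hc : ∀ x : Λ, (∀ y, x * y = y * x) → x = 1) (h : AutG 𝕜 Λ) : GFac 𝕜 2 L :=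
  fun _ _ _ _ ⟨f⟩ => locG_of_autG (e.trans f) hc h

end

end Vale.Agent.P240.R2.H458
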