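import Vale.Agent.P240.R2.H406.PDefs
import Vale.Agent.P240.R2.H987.L6
import Vale.Agent.P240.R2.H487.N.D
import Vale.Agent.P240.R2.H458.G7

/-!
The group `PΩ_6^+(5) = PSL_4(5)` at the prime `2` (block P4d): the form `x_0^2 + ... + x_5^2` over
`ZMod 5`; the list of statements.
-/

set_option autoImplicit false
set_option linter.all false

namespace Vale.Agent.P240.R2.H458

open Matrix Subgroup Vale.Agent.P240.K Vale.Agent.P240.H195
open Vale.Agent.P240.R2.H145.EO (B ac OD rf rf_mem)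
open Vale.Agent.P240.R2.H401.D (POD SD0)
open Vale.Agent.P240.R2.H406 (Lam Phi sg rfl' act)
open Vale.Agent.P240.R2.H490 (ip VR)

universe u v w

noncomputable section

/-- the form `x_0^2 + ... + x_5^2` -/
abbrev a1 : Fin 6 → ZMod 5 := fun _ => 1

/-- the standard basis -/
abbrev ee (i : Fin 6) : Fin 6 → ZMod 5 := Pi.single i 1

/-- the inner automorphisms -/
abbrev Inn6 : Subgroup (MulAut (Lam a1)) := (MulAut.conj (G := Lam a1)).range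

/-- (S1) (helper306) automorphisms commuting with two elements -/
def StmtSem6 : Prop := ∀ f : MulAut (Lam a1),
  f * Phi a1 (sg a1 {0, 1}) = Phi a1 (sg a1 {0, 1}) * f →
  f * Phi a1 (sg a1 {1, 2}) = Phi a1 (sg a1 {1, 2}) * f → ∃ g : ↥(OD a1), f = Phi a1 g

/-- (S2) the kernel -/
def StmtKer6 : Prop := ∀ g : ↥(OD a1), Phi a1 g = 1 ↔ (g = 1 ∨ g = sg a1 Finset.univ)

open Classical in
/-- (S3) the two characters: `-1` on the reflections of square (nonsquare) norm, `1` on the others;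
their common kernel is the preimage of the inner automorphisms -/
def StmtChi6 : Prop := ∃ χ₁ χ₂ : ↥(OD a1) →* ℤˣ,
  (∀ x : Fin 6 → ZMod 5, B a1 x x ≠ 0 →
    χ₁ (rfl' a1 x) = (if IsSquare (B a1 x x) then -1 else 1) ∧
    χ₂ (rfl' a1 x) = (if IsSquare (B a1 x x) then 1 else -1)) ∧
  ∀ g : ↥(OD a1), Phi a1 g ∈ Inn6 ↔ χ₁ g = 1 ∧ χ₂ g = 1

/-- (S4) simultaneous diagonalization on `⟨e_3, e_4, e_5⟩`: two types of frames -/
def StmtFrame6 : Prop := ∀ S : Subgroup ↥(OD a1), (∀ g ∈ S, g * g = 1) →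
  (∀ g ∈ S, ∀ h ∈ S, g * h = h * g) →
  (∀ g ∈ S, ∀ i : Fin 6, i.val < 3 → act g (ee i) = ee i) →
  ∃ u : ↥(OD a1), (∀ i : Fin 6, i.val < 3 → act u (ee i) = ee i) ∧
    ((∀ g ∈ S, ∀ i : Fin 6, act (u⁻¹ * g * u) (ee i) = ee i ∨ act (u⁻¹ * g * u) (ee i) = -ee i) ∨
      (∀ g ∈ S, ∀ y ∈ ({ee 3, ee 4 + ee 5, ee 4 - ee 5} : Set (Fin 6 → ZMod 5)),
        act (u⁻¹ * g * u) y = y ∨ act (u⁻¹ * g * u) y = -y))

/-- (S5) a similarity with factor `2` -/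
def StmtTau6 : Prop := ∃ τ : MulAut (Lam a1), ∀ x : Fin 6 → ZMod 5, B a1 x x ≠ 0 →
  τ * Phi a1 (rfl' a1 x) * τ⁻¹ =
    Phi a1 (rfl' a1 ![x 0 + x 1, x 0 - x 1, x 2 + x 3, x 2 - x 3, x 4 + x 5, x 4 - x 5])

open Classical in
/-- the correcting element of a vector -/
def cor {N : ℕ} {a : Fin N → ZMod 5} (ρ₁ ρ₂ : ↥(OD a)) (x : Fin N → ZMod 5) : ↥(OD a) :=
  if IsSquare (B a x x) then ρ₁ else ρ₂

/-- (S6) systems of reflections on an isometrically embedded space, with corrections by two commuting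
involutions that act trivially on it -/
def StmtVR : Prop := ∀ (N : ℕ) (a : Fin N → ZMod 5), (∀ i, a i ≠ 0) →
  (∀ g : ↥(OD a), Phi a g = 1 ↔ (g = 1 ∨ g = sg a Finset.univ)) →
  ∀ (n : ℕ) (d : Fin n → ZMod 5), (∀ i, d i ≠ 0) → 3 ≤ n →
  ∀ ι : (Fin n → ZMod 5) →ₗ[ZMod 5] (Fin N → ZMod 5), (∀ x y, B a (ι x) (ι y) = ip d x y) →
  ∀ ρ₁ ρ₂ : ↥(OD a), ρ₁ * ρ₁ = 1 → ρ₂ * ρ₂ = 1 → ρ₁ * ρ₂ = ρ₂ * ρ₁ →
    (∀ x, act ρ₁ (ι x) = ι x) → (∀ x, act ρ₂ (ι x) = ι x) →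
    VR d (fun x => Phi a (rfl' a (ι x) * cor ρ₁ ρ₂ (ι x)))

/-- (S7) the group `PSL_4(5)` -/
def StmtIso6 : Prop := ∀ (L : Type u) [Group L] (F : Type) [Field F] [Finite F],
  Vale.Agent.P240.R2.H487.N.PSLn 4 F L → Nat.card F = 5 → Nonempty (Lam a1 ≃* L)

/-- the result -/
def StmtAut6 : Prop := ∀ (𝕜 : Type w) [Field 𝕜], AutG 𝕜 (Lam a1)

end

end Vale.Agent.P240.R2.H458
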