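import Vale.Agent.P240.R2.H458.P8

/-!
Block P4d: the assembly, last step.
-/

set_option autoImplicit false
set_option linter.all false

namespace Vale.Agent.P240.R2.H458

open Matrix Vale.Agent.P240.K
open Subgroup hiding closure
open Vale.Agent.P240.R2.H145.EO (B OD)
open Vale.Agent.P240.R2.H406

universe u v w

noncomputable section

lemma units_sq (a : ℤˣ) : a * a = 1 := by
  rcases Int.units_eq_one_or a with rfl | rfl <;> rfl

/-- diagonal automorphisms for a frame that contains `e_0, e_1, e_2` -/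
lemma goal_w {𝕜 : Type v} [Field 𝕜] {χ : ↥(OD a1) →* Q4} (hχ : Chi χ)
    (cZ : Cy 𝕜 χ ⊥ (Subgroup.closure {rl, rm})) (cB : Cy 𝕜 χ QB (Subgroup.closure {rl}))
    (cN : Cy 𝕜 χ QN (Subgroup.closure {rl})) (cO : Cy 𝕜 χ QO (Subgroup.closure {rm}))
    (cD : Cy 𝕜 χ ⊤ ⊥) {w : Fin 6 → V6}
    {d : Fin 6 → ZMod 5} (hw : Fr w d) {E E₁ : Subgroup (MulAut (Lam a1))} (h : Hy E E₁)
    (hEw : ∀ x ∈ E, ∃ g : ↥(OD a1), Dg w g ∧ Phi a1 g = x)
    (hsec : ∀ g : ↥(OD a1), Dg w g → Phi a1 g ∈ E → Dg w (sec (χ g))) : Goal 𝕜 E E₁ := by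
  have key := fun (C : Subgroup Q4) (Bm : Subgroup (MulAut (Lam a1))) hB hC1 hC2 hcy =>
    goal_of (𝕜 := 𝕜) (C := C) (Bm := Bm) hχ hw h.exp hEw h.max h.le h.inn hsec hB hC1 hC2 hcy
  rcases Q4_cases ((E₁.comap (Phi a1)).map χ) with h1 | h1 | h1 | h1 | h1
  · refine key ⊤ _ BC_top (by rw [h1, bot_inf_eq]) (fun q => ?_) (by rw [h1]; exact cZ)
    exact ⟨1, one_mem _, q, mem_top _, one_mul q⟩
  · refine key QO _ BC_QO ?_ (fun q => ?_) (by rw [h1]; exact cB)
    · rw [h1, eq_bot_iff]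
      rintro ⟨a, b⟩ ⟨hq1, hq2⟩
      have hq3 : a = b := hq1
      have hq4 : b = 1 := hq2
      exact mem_bot.2 (Prod.ext (hq3.trans hq4) hq4)
    · refine ⟨(q.2, q.2), by rw [h1]; exact rfl, (q.1 * q.2, 1), rfl, ?_⟩
      refine Prod.ext ?_ (mul_one _)
      show q.2 * (q.1 * q.2) = q.1
      rw [mul_comm q.1 q.2, ← mul_assoc, units_sq, one_mul]
  · refine key QO _ BC_QO ?_ (fun q => ?_) (by rw [h1]; exact cN)
    · rw [h1, eq_bot_iff]
      rintro ⟨a, b⟩ ⟨hq1, hq2⟩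
      have hq3 : a = 1 := hq1
      have hq4 : b = 1 := hq2
      exact mem_bot.2 (Prod.ext hq3 hq4)
    · exact ⟨(1, q.2), by rw [h1]; exact rfl, (q.1, 1), rfl, Prod.ext (one_mul _) (mul_one _)⟩
  · refine key QN _ BC_QN ?_ (fun q => ?_) (by rw [h1]; exact cO)
    · rw [h1, eq_bot_iff]
      rintro ⟨a, b⟩ ⟨hq1, hq2⟩
      have hq3 : b = 1 := hq1
      have hq4 : a = 1 := hq2
      exact mem_bot.2 (Prod.ext hq4 hq3)
    · exact ⟨(q.1, 1), by rw [h1]; exact rfl, (1, q.2), rfl, Prod.ext (mul_one _) (one_mul _)⟩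
  · refine key ⊥ _ BC_bot (by rw [inf_bot_eq]) (fun q => ?_) (by rw [h1]; exact cD)
    exact ⟨q, by rw [h1]; exact mem_top _, 1, one_mem _, mul_one q⟩

lemma x_A0 : Phi a1 (sg a1 {0, 2}) ∈ A0 := Subgroup.subset_closure (Or.inl rfl)

lemma y_A0 : Phi a1 (sg a1 {1, 2}) ∈ A0 := Subgroup.subset_closure (Or.inr rfl)

lemma A0_inn {χ : ↥(OD a1) →* Q4} (hχ : Chi χ) : A0 ≤ Inn6 := by
  rw [A0, Subgroup.closure_le]
  rintro _ (rfl | rfl)
  · exact (hχ.inn _).2 (chi_sg hχ (by decide))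
  · exact (hχ.inn _).2 (chi_sg hχ (by decide))

lemma A0_ApS (hK : StmtKer6) : A0 ∈ ApS 2 (MulAut (Lam a1)) := by
  have hx2 : Phi a1 (sg a1 {0, 2}) * Phi a1 (sg a1 {0, 2}) = 1 := by
    rw [← map_mul, sg_mul_self, map_one]
  have hy2 : Phi a1 (sg a1 {1, 2}) * Phi a1 (sg a1 {1, 2}) = 1 := by
    rw [← map_mul, sg_mul_self, map_one]
  have hxy2 : Phi a1 (sg a1 {0, 2}) * Phi a1 (sg a1 {1, 2}) =
      Phi a1 (sg a1 {1, 2}) * Phi a1 (sg a1 {0, 2}) := by
    rw [← map_mul, ← map_mul, sg_comm]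
  have h1 : A0 ≤ (DgS ee).map (Phi a1) := by
    rw [A0, Subgroup.closure_le]
    rintro _ (rfl | rfl)
    · exact ⟨_, AB_dg frS (fun _ _ => rfl) AB_x, rfl⟩
    · exact ⟨_, AB_dg frS (fun _ _ => rfl) AB_y, rfl⟩
  refine ⟨fun h0 => ?_, fun x hx y hy => ?_, fun x hx => ?_⟩
  · have mx := x_A0
    rw [h0, mem_bot, hK] at mx
    have h2 : act (sg a1 {0, 2}) (ee 0) = -ee 0 := by
      rw [sg_e, if_pos (by decide)]
    have h3 : act (sg a1 {0, 2}) (ee 1) = ee 1 := by
      rw [sg_e, if_neg (by decide)]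
    rcases mx with h4 | h4
    · rw [h4] at h2
      have h5 : act (1 : ↥(OD a1)) (ee 0) = ee 0 := H406.act_one _
      rw [h5] at h2
      exact neg_ne frS h2.symm
    · rw [h4, sgu_act] at h3
      exact neg_ne frS h3
  · obtain ⟨g, hg, rfl⟩ := h1 hx
    obtain ⟨g', hg', rfl⟩ := h1 hy
    rw [← map_mul, ← map_mul, frS.dg_comm hg hg']
  · rcases mem_cl2 hx2 hy2 hxy2 hx with rfl | rfl | rfl | rfl
    · exact one_pow 2
    · rw [pow_two, hx2]
    · rw [pow_two, hy2]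
    · rw [pow_two, mul_assoc, ← mul_assoc (Phi a1 (sg a1 {1, 2})), ← hxy2,
        mul_assoc (Phi a1 (sg a1 {0, 2})) (Phi a1 (sg a1 {1, 2})), hy2, mul_one, hx2]

/-- **The assembly.** -/
theorem stmtAsm6 (𝕜 : Type v) [Field 𝕜] : StmtAsm6 𝕜 := by
  intro hS hK hF χ hχ cZ cB cN cO cD
  have hxy : sg a1 {0, 1} = sg a1 {0, 2} * sg a1 {1, 2} := by
    rw [sg_mul]
    congr 1
  have mx := x_A0
  have my := y_A0
  -- the case `A = A₀`
  have main : ∀ E E₁ : Subgroup (MulAut (Lam a1)), Hy E E₁ → A0 ≤ E₁ → Goal 𝕜 E E₁ := by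
    intro E E₁ h hA
    have hA' := hA.trans h.le
    have hPhi : ∀ f ∈ E, ∃ g : ↥(OD a1), f = Phi a1 g := by
      intro f hf
      refine hS f ?_ ?_
      · rw [hxy]
        exact h.comm f hf _ (by rw [map_mul]; exact mul_mem (hA' mx) (hA' my))
      · exact h.comm f hf _ (hA' my)
    have hlin : ∀ g : ↥(OD a1), Phi a1 g ∈ E → ∀ i : Fin 6, i.val < 3 →
        act g (ee i) = ee i ∨ act g (ee i) = -ee i := fun g hg =>
      lines hK (h.comm _ hg _ (hA' mx)) (h.comm _ hg _ (hA' my))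
    -- the elements that fix `e_0, e_1, e_2`
    let S : Subgroup ↥(OD a1) :=
      { carrier := {g | Phi a1 g ∈ E ∧ F3 g}
        mul_mem' := fun {a b} ha hb => ⟨by rw [map_mul]; exact mul_mem ha.1 hb.1, fun i hi => by
          rw [H406.act_mul, hb.2 i hi, ha.2 i hi]⟩
        one_mem' := ⟨by rw [map_one]; exact one_mem _, fun i _ => H406.act_one _⟩
        inv_mem' := fun {a} ha => ⟨by rw [map_inv]; exact inv_mem ha.1, fun i hi => by
          conv_lhs => rw [← ha.2 i hi]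
          exact act_inv _ _⟩ }
    have e0 : (ee 0 : V6) ≠ -ee 0 := fun h0 => neg_ne frS h0.symm
    have hS1 : ∀ g ∈ S, g * g = 1 := by
      intro g hg
      have h1 : Phi a1 (g * g) = 1 := by
        rw [map_mul, ← pow_two]
        exact h.exp _ hg.1
      rcases (hK _).1 h1 with h2 | h2
      · exact h2
      · exfalso
        have h3 : act (g * g) (ee 0) = ee 0 := by
          rw [H406.act_mul, hg.2 0 (by decide), hg.2 0 (by decide)]
        rw [h2, sgu_act] at h3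
        exact e0 h3.symm
    have hS2 : ∀ g ∈ S, ∀ g' ∈ S, g * g' = g' * g := by
      intro g hg g' hg'
      have h1 : Phi a1 (g * g' * g⁻¹ * g'⁻¹) = 1 := by
        rw [map_mul, map_mul, map_mul, map_inv, map_inv, h.comm _ hg.1 _ hg'.1,
          mul_inv_cancel_right, mul_inv_cancel]
      rcases (hK _).1 h1 with h2 | h2
      · rw [mul_inv_eq_one, mul_inv_eq_iff_eq_mul] at h2
        exact h2
      · exfalso
        have h3 : g * g' * g⁻¹ * g'⁻¹ ∈ S := S.mul_mem (S.mul_mem (S.mul_mem hg hg') (S.inv_mem hg))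
          (S.inv_mem hg')
        have h4 := h3.2 0 (by decide)
        rw [h2, sgu_act] at h4
        exact e0 h4.symm
    obtain ⟨u, hu, hu'⟩ := hF S hS1 hS2 (fun g hg => hg.2)
    have hu3 : F3 u := hu
    have hui : F3 u⁻¹ := fun i hi => by
      conv_lhs => rw [← hu i hi]
      exact act_inv _ _
    -- the frame
    obtain ⟨w, d, hw, hw3, hwS, hwsec⟩ : ∃ (w : Fin 6 → V6) (d : Fin 6 → ZMod 5), Fr w d ∧
        (∀ i : Fin 6, i.val < 3 → w i = ee i) ∧ (∀ g ∈ S, Dg w (u⁻¹ * g * u)) ∧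
        ∀ g : ↥(OD a1), Dg w g → Dg w (sec (χ g)) := by
      rcases hu' with h1 | h1
      · refine ⟨ee, _, frS, fun i _ => rfl, h1, fun g hg => ?_⟩
        have h2 : χ g ∈ QO := by
          have h3 : Subgroup.closure (Set.range fun i => rfl' a1 (ee i)) ≤ QO.comap χ := by
            rw [Subgroup.closure_le]
            rintro _ ⟨i, rfl⟩
            show χ (rfl' a1 (ee i)) ∈ QO
            rw [chi_ee hχ]
            exact rfl
          exact h3 (frS.dg_mem hg)
        rw [mem_QO] at h2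
        have h3 : (if (χ g).2 = -1 then rfl' a1 (ee 4 + ee 5) else 1) = 1 :=
          if_neg (by rw [h2]; decide)
        rw [sec, h3, mul_one]
        split_ifs
        · exact frS.r_dg 2
        · exact dg_one _
      · refine ⟨wI, _, frI, ?_, fun g hg i => ?_, fun g hg => ?_⟩
        · intro i hi
          have : i = 0 ∨ i = 1 ∨ i = 2 := by
            revert i
            decide
          rcases this with rfl | rfl | rfl <;> rfl
        · have h2 := h1 g hg
          have h3 : ∀ i : Fin 6, i.val < 3 → act (u⁻¹ * g * u) (ee i) = ee i := by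
            intro i hi
            rw [H406.act_mul, H406.act_mul, hu i hi, hg.2 i hi, hui i hi]
          have h4 : i = 0 ∨ i = 1 ∨ i = 2 ∨ i = 3 ∨ i = 4 ∨ i = 5 := by
            revert i
            decide
          rcases h4 with rfl | rfl | rfl | rfl | rfl | rfl
          · exact Or.inl (h3 0 (by decide))
          · exact Or.inl (h3 1 (by decide))
          · exact Or.inl (h3 2 (by decide))
          · exact h2 _ (Or.inl rfl)
          · exact h2 _ (Or.inr (Or.inl rfl))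
          · exact h2 _ (Or.inr (Or.inr rfl))
        · rw [sec]
          refine (DgS wI).mul_mem ?_ ?_
          · split_ifs
            · exact frI.r_dg 2
            · exact dg_one _
          · split_ifs
            · exact frI.r_dg 4
            · exact dg_one _
    refine goal_cj (Phi a1 u)⁻¹ ?_
    refine goal_w hχ cZ cB cN cO cD hw (h.cj _) ?_ (fun g hg _ => hwsec g hg)
    intro x hx
    rw [H487.mem_cj, inv_inv] at hx
    obtain ⟨g, hg⟩ := hPhi _ hx
    rw [hg] at hx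
    obtain ⟨a, ha, hag⟩ := exists_AB (hlin g hx)
    have haE : Phi a1 a ∈ E := hA' (AB_A0 hK ha)
    have h1 : a⁻¹ * g ∈ S := ⟨by rw [map_mul, map_inv]; exact mul_mem (inv_mem haE) hx,
      fun i hi => by rw [H406.act_mul, ← hag i hi]; exact act_inv _ _⟩
    refine ⟨u⁻¹ * g * u, ?_, ?_⟩
    · have h2 : u⁻¹ * g * u = a * (u⁻¹ * (a⁻¹ * g) * u) := by
        have h3 := hui.comm ha
        calc u⁻¹ * g * u = (u⁻¹ * a) * (a⁻¹ * g) * u := by group
          _ = (a * u⁻¹) * (a⁻¹ * g) * u := by rw [h3]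
          _ = a * (u⁻¹ * (a⁻¹ * g) * u) := by group
      rw [h2]
      exact (DgS w).mul_mem (AB_dg hw hw3 ha) (hwS _ h1)
    · rw [map_mul, map_mul, map_inv, ← hg]
      group
  -- the family
  have hA0I := A0_inn hχ
  have hA0S := A0_ApS hK
  refine ⟨fam, ⟨A0, 1, ?_⟩, ?_, ?_⟩
  · show A0 = H487.cj 1 A0
    rw [H487.cj_one]
  · rintro _ ⟨t, rfl⟩
    refine ⟨?_, H487.cj_ApS (y := t) hA0S⟩
    have h1 := H487.cj_mono (y := t) hA0I
    rwa [cj_inn] at h1
  · rintro E hE1 hE2 hmax E₁ hE₁ ⟨_, ⟨t, rfl⟩, hA⟩ hEL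
    have h : Hy E E₁ := ⟨hE1, hE2, hmax, hE₁, hEL⟩
    have h1 : A0 ≤ H487.cj t⁻¹ E₁ := by
      have h2 : H487.cj t A0 ≤ E₁ := hA
      have h3 := H487.cj_mono (y := t⁻¹) h2
      rwa [H487.cj_inv] at h3
    exact goal_cj t⁻¹ (main _ _ (h.cj t⁻¹) h1)

end

end Vale.Agent.P240.R2.H458
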