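import Vale.Agent.P240.H195.RLink

/-!
Coefficients of shuffle products at the lists that end with a given list.
-/

set_option linter.all false

namespace Vale.Agent.P240.R2.H458

open Finsupp hiding cons
open Subgroup Vale.Agent.P240.K Vale.Agent.P240.H195

universe u v

variable {𝕜 : Type v} [Field 𝕜]

section lists
variable {α : Type*} [SemilatticeSup α]

lemma shL_nil_left (t : List α) : (shL [] t : Ch 𝕜 α) = single t 1 := by rw [shL]

lemma shL_nil_right (s : List α) : (shL s [] : Ch 𝕜 α) = single s 1 := by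
  cases s with
  | nil => rw [shL]
  | cons a s => rw [shL]

lemma shL_cons_cons (a b : α) (s t : List α) : (shL (a :: s) (b :: t) : Ch 𝕜 α) =
    cons (a ⊔ b) (shL s (b :: t) + (-1 : 𝕜) ^ (s.length + 1) • shL (a :: s) t) := by rw [shL]

/-- the flag in the second argument -/
lemma cf_shL_right {T : Set α} {F : α} {φ' : List α}
    (hφ : ∀ x ∈ F :: φ', ∀ b ∈ T, ¬ b ≤ x) : ∀ n : ℕ, ∀ s t : List α, s.length + t.length = n →
      (∀ b ∈ s, b ∈ T) →
      (∀ t'', t = t'' ++ (F :: φ') → (∀ a ∈ t'', F ≤ a) →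
        cf (F :: φ') (shL s t : Ch 𝕜 α) = shL (s.map (fun x => F ⊔ x)) t'') ∧
      ((∀ t'', t ≠ t'' ++ (F :: φ')) → cf (F :: φ') (shL s t : Ch 𝕜 α) = 0) := by
  intro n
  induction n using Nat.strong_induction_on with
  | _ n ih =>
    intro s t hn hs
    rcases s with _ | ⟨a, s⟩
    · refine ⟨fun t'' ht _ => ?_, fun ht => ?_⟩
      · rw [shL_nil_left, ht, r1_cf_append, List.map_nil, shL_nil_left]
      · rw [shL_nil_left]
        exact r1_cf_zero _ _ _ ht
    have haT := hs a (by simp)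
    have hs' : ∀ b ∈ s, b ∈ T := fun b hb => hs b (by simp [hb])
    rcases t with _ | ⟨b, t⟩
    · refine ⟨fun t'' ht _ => ?_, fun _ => ?_⟩
      · exact absurd ht.symm (by simp)
      · rw [shL_nil_right]
        refine r1_cf_zero _ _ _ fun l hl => ?_
        have h1 : F ∈ a :: s := by rw [hl]; simp
        exact hφ F (by simp) F (hs F h1) le_rfl
    have hab : a ⊔ b ∉ F :: φ' := fun h => hφ _ h a haT le_sup_left
    have i1 := ih (s.length + (b :: t).length) (by simp only [List.length_cons] at hn ⊢; omega)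
      s (b :: t) rfl hs'
    have i2 := ih ((a :: s).length + t.length) (by simp only [List.length_cons] at hn ⊢; omega)
      (a :: s) t rfl hs
    refine ⟨fun t'' ht hF => ?_, fun ht => ?_⟩
    · rw [shL_cons_cons, r3_cf_cons hab, map_add, map_smul]
      rcases t'' with _ | ⟨c, t''⟩
      · rw [List.nil_append] at ht
        obtain ⟨rfl, rfl⟩ := List.cons.inj ht
        rw [i1.1 [] rfl (by simp), i2.2 (fun t'' h => by
          have := congrArg List.length h
          simp only [List.length_append, List.length_cons] at this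
          omega), smul_zero, add_zero, shL_nil_right, shL_nil_right, cons_single, List.map_cons,
          sup_comm]
      · rw [List.cons_append] at ht
        obtain ⟨rfl, rfl⟩ := List.cons.inj ht
        have hFb : F ≤ b := hF b (by simp)
        rw [i1.1 (b :: t'') rfl hF, i2.1 t'' rfl (fun a ha => hF a (by simp [ha])), List.map_cons,
          shL_cons_cons, List.length_map]
        have e : F ⊔ a ⊔ b = a ⊔ b := by
          rw [sup_assoc]
          exact sup_eq_right.2 (hFb.trans le_sup_right)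
        rw [e]
    · rw [shL_cons_cons, r3_cf_cons hab, map_add, map_smul, i1.2 ht, i2.2 (fun t'' h =>
        ht (b :: t'') (by rw [h, List.cons_append])), smul_zero, add_zero, map_zero]

/-- the flag in the first argument -/
lemma cf_shL_left {T : Set α} {F : α} {φ' : List α}
    (hφ : ∀ x ∈ F :: φ', ∀ b ∈ T, ¬ b ≤ x) : ∀ n : ℕ, ∀ s t : List α, s.length + t.length = n →
      (∀ b ∈ t, b ∈ T) →
      (∀ s'', s = s'' ++ (F :: φ') → (∀ a ∈ s'', F ≤ a) →
        cf (F :: φ') (shL s t : Ch 𝕜 α) =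
          (-1 : 𝕜) ^ ((φ'.length + 1) * t.length) • shL s'' (t.map (fun x => F ⊔ x))) ∧
      ((∀ s'', s ≠ s'' ++ (F :: φ')) → cf (F :: φ') (shL s t : Ch 𝕜 α) = 0) := by
  intro n
  induction n using Nat.strong_induction_on with
  | _ n ih =>
    intro s t hn ht
    rcases t with _ | ⟨b, t⟩
    · refine ⟨fun s'' hs _ => ?_, fun hs => ?_⟩
      · rw [shL_nil_right, hs, r1_cf_append, List.map_nil, shL_nil_right]
        simp
      · rw [shL_nil_right]
        exact r1_cf_zero _ _ _ hs
    have hbT := ht b (by simp)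
    have ht' : ∀ b ∈ t, b ∈ T := fun b hb => ht b (by simp [hb])
    rcases s with _ | ⟨a, s⟩
    · refine ⟨fun s'' hs _ => ?_, fun _ => ?_⟩
      · exact absurd hs.symm (by simp)
      · rw [shL_nil_left]
        refine r1_cf_zero _ _ _ fun l hl => ?_
        have h1 : F ∈ b :: t := by rw [hl]; simp
        exact hφ F (by simp) F (ht F h1) le_rfl
    have hab : a ⊔ b ∉ F :: φ' := fun h => hφ _ h b hbT le_sup_right
    have i1 := ih (s.length + (b :: t).length) (by simp only [List.length_cons] at hn ⊢; omega)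
      s (b :: t) rfl ht
    have i2 := ih ((a :: s).length + t.length) (by simp only [List.length_cons] at hn ⊢; omega)
      (a :: s) t rfl ht'
    refine ⟨fun s'' hs hF => ?_, fun hs => ?_⟩
    · rw [shL_cons_cons, r3_cf_cons hab, map_add, map_smul]
      rcases s'' with _ | ⟨c, s''⟩
      · rw [List.nil_append] at hs
        obtain ⟨rfl, rfl⟩ := List.cons.inj hs
        rw [i1.2 (fun t'' h => by
          have := congrArg List.length h
          simp only [List.length_append, List.length_cons] at this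
          omega), i2.1 [] rfl (by simp), zero_add, shL_nil_left, shL_nil_left, List.map_cons,
          map_smul, map_smul, cons_single, smul_smul, ← pow_add, List.length_cons]
        congr 2
        ring
      · rw [List.cons_append] at hs
        obtain ⟨rfl, rfl⟩ := List.cons.inj hs
        have hFa : F ≤ a := hF a (by simp)
        rw [i1.1 s'' rfl (fun a ha => hF a (by simp [ha])), i2.1 (a :: s'') rfl hF, List.map_cons,
          shL_cons_cons, List.length_cons, List.length_append, List.length_cons]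
        have e : a ⊔ (F ⊔ b) = a ⊔ b := by
          rw [← sup_assoc, sup_eq_left.2 hFa]
        rw [e, ← map_smul, smul_add, smul_smul, smul_smul, ← pow_add, ← pow_add]
        congr 3
        have : (-1 : 𝕜) ^ (s''.length + (φ'.length + 1) + 1 + (φ'.length + 1) * t.length) =
            (-1 : 𝕜) ^ ((φ'.length + 1) * (t.length + 1) + (s''.length + 1)) := by
          congr 1
          ring
        rw [this]
    · rw [shL_cons_cons, r3_cf_cons hab, map_add, map_smul, i1.2 (fun s'' h =>
        hs (a :: s'') (by rw [h, List.cons_append])), i2.2 hs, smul_zero, add_zero, map_zero]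

lemma cf_nil (c : Ch 𝕜 α) : cf [] c = c := by
  ext l
  rw [cf_apply, List.append_nil]

lemma mp_id' {f : α → α} (hf : ∀ x, f x = x) (c : Ch 𝕜 α) : mp f c = c := by
  have : f = id := funext hf
  subst this
  have := lin_ext_apply (f := mp (𝕜 := 𝕜) (id : α → α)) (g := LinearMap.id) (fun l => by simp) c
  simpa using this

end lists

section
variable {G : Type u} [Group G]

/-- the lists that end with `φ` continue with subgroups that contain `F` -/
def Abv (φ : List (Subgroup G)) (F : Subgroup G) (l : List (Subgroup G)) : Prop :=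
  ∀ l', l = l' ++ φ → ∀ a ∈ l', F ≤ a

lemma cf_sh_right {T : Set (Subgroup G)} {F : Subgroup G} {φ : List (Subgroup G)}
    (htop : (φ = [] ∧ F = ⊥) ∨ ∃ φ', φ = F :: φ')
    (hφ : ∀ x ∈ φ, ∀ b ∈ T, ¬ b ≤ x) {x y : Ch 𝕜 (Subgroup G)}
    (hx : x ∈ Sp 𝕜 (fun l => ∀ b ∈ l, b ∈ T)) (hy : y ∈ Sp 𝕜 (Abv φ F)) :
    cf φ (sh x y) = sh (mp (fun B => F ⊔ B) x) (cf φ y) := by
  rcases htop with ⟨rfl, rfl⟩ | ⟨φ', rfl⟩
  · rw [cf_nil, cf_nil, mp_id' (fun x => bot_sup_eq x)]
  have key : ∀ s : List (Subgroup G), (∀ b ∈ s, b ∈ T) → ∀ {y : Ch 𝕜 (Subgroup G)},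
      y ∈ Sp 𝕜 (Abv (F :: φ') F) → cf (F :: φ') (sh (single s (1 : 𝕜)) y) =
        sh (single (s.map (fun B => F ⊔ B)) 1) (cf (F :: φ') y) := by
    intro s hs y hy
    refine eq_of_Sp (𝕜 := 𝕜) (P := Abv (F :: φ') F)
      (F := (cf (F :: φ')).comp (sh (single s (1 : 𝕜))))
      (G := (sh (single (s.map (fun B => F ⊔ B)) (1 : 𝕜))).comp (cf (F :: φ')))
      (fun t ht => ?_) hy
    simp only [LinearMap.comp_apply]
    rw [sh_single]
    by_cases h : ∃ t'', t = t'' ++ (F :: φ')
    · obtain ⟨t'', rfl⟩ := h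
      rw [(cf_shL_right hφ _ s _ rfl hs).1 t'' rfl (ht t'' rfl), r1_cf_append, sh_single]
    · push Not at h
      rw [(cf_shL_right hφ _ s _ rfl hs).2 h, r1_cf_zero _ _ _ h, map_zero]
  refine eq_of_Sp (𝕜 := 𝕜) (P := fun l => ∀ b ∈ l, b ∈ T)
    (F := (cf (F :: φ')).comp ((sh (𝕜 := 𝕜) (α := Subgroup G)).flip y))
    (G := ((sh (𝕜 := 𝕜) (α := Subgroup G)).flip (cf (F :: φ') y)).comp (mp (fun B => F ⊔ B)))
    (fun s hs => ?_) hx
  simp only [LinearMap.comp_apply, LinearMap.flip_apply, mp_single]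
  exact key s hs hy

lemma cf_sh_left {T : Set (Subgroup G)} {F : Subgroup G} {φ : List (Subgroup G)}
    (htop : (φ = [] ∧ F = ⊥) ∨ ∃ φ', φ = F :: φ')
    (hφ : ∀ x ∈ φ, ∀ b ∈ T, ¬ b ≤ x) {x y : Ch 𝕜 (Subgroup G)}
    (hx : x ∈ Sp 𝕜 (Abv φ F)) (hy : y ∈ Sp 𝕜 (fun l => ∀ b ∈ l, b ∈ T)) :
    cf φ (sh x ((⇑(sg (𝕜 := 𝕜) (α := Subgroup G)))^[φ.length] y)) =
      sh (cf φ x) (mp (fun B => F ⊔ B) y) := by
  rcases htop with ⟨rfl, rfl⟩ | ⟨φ', rfl⟩
  · rw [cf_nil, cf_nil, mp_id' (fun x => bot_sup_eq x)]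
    rfl
  have key : ∀ t : List (Subgroup G), (∀ b ∈ t, b ∈ T) → ∀ {x : Ch 𝕜 (Subgroup G)},
      x ∈ Sp 𝕜 (Abv (F :: φ') F) → cf (F :: φ') (sh x
        ((⇑(sg (𝕜 := 𝕜) (α := Subgroup G)))^[(F :: φ').length] (single t (1 : 𝕜)))) =
        sh (cf (F :: φ') x) (single (t.map (fun B => F ⊔ B)) 1) := by
    intro t ht x hx
    refine eq_of_Sp (𝕜 := 𝕜) (P := Abv (F :: φ') F)
      (F := (cf (F :: φ')).comp ((sh (𝕜 := 𝕜) (α := Subgroup G)).flip
        ((⇑(sg (𝕜 := 𝕜) (α := Subgroup G)))^[(F :: φ').length] (single t (1 : 𝕜)))))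
      (G := ((sh (𝕜 := 𝕜) (α := Subgroup G)).flip
        (single (t.map (fun B => F ⊔ B)) (1 : 𝕜))).comp (cf (F :: φ')))
      (fun s hs => ?_) hx
    simp only [LinearMap.comp_apply, LinearMap.flip_apply]
    rw [r3_sg_iter, map_smul, map_smul, sh_single]
    by_cases h : ∃ s'', s = s'' ++ (F :: φ')
    · obtain ⟨s'', rfl⟩ := h
      rw [(cf_shL_left hφ _ _ t rfl ht).1 s'' rfl (hs s'' rfl), r1_cf_append, sh_single,
        smul_smul, ← pow_add, List.length_cons, ← two_mul, pow_mul, neg_one_sq, one_pow, one_smul]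
    · push Not at h
      rw [(cf_shL_left hφ _ _ t rfl ht).2 h, r1_cf_zero _ _ _ h, map_zero, smul_zero,
        LinearMap.zero_apply]
  refine eq_of_Sp (𝕜 := 𝕜) (P := fun l => ∀ b ∈ l, b ∈ T)
    (F := (cf (F :: φ')).comp ((sh x).comp
      ((sg (𝕜 := 𝕜) (α := Subgroup G) : Module.End 𝕜 (Ch 𝕜 (Subgroup G))) ^ (F :: φ').length)))
    (G := (sh (cf (F :: φ') x)).comp (mp (fun B => F ⊔ B)))
    (fun t ht => ?_) hy |> fun h => by
      simpa only [LinearMap.comp_apply, Module.End.pow_apply] using h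
  simp only [LinearMap.comp_apply, mp_single, Module.End.pow_apply]
  exact key t ht hx

lemma cf_append (φ ψ : List (Subgroup G)) (c : Ch 𝕜 (Subgroup G)) :
    cf (φ ++ ψ) c = cf φ (cf ψ c) := by
  ext l
  rw [cf_apply, cf_apply, cf_apply, List.append_assoc]

/-- `cf` and `pi` -/
lemma cf_pi {φ : List (Subgroup G)} (hφ : φ.Pairwise (· > ·)) {c : Ch 𝕜 (Subgroup G)}
    (hc : cf φ c ∈ Sp 𝕜 (fun l => ∀ a ∈ l, ∀ x ∈ φ, x < a)) : cf φ (pi c) = pi (cf φ c) := by
  classical
  ext l
  rw [cf_apply, r3_pi_apply, r3_pi_apply, cf_apply]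
  by_cases h : c (l ++ φ) = 0
  · rw [h, ite_self, ite_self]
  have h1 := mem_Sp.1 hc l (Finsupp.mem_support_iff.2 (by rwa [cf_apply]))
  have h2 : (l ++ φ).Pairwise (· > ·) ↔ l.Pairwise (· > ·) := by
    rw [List.pairwise_append]
    exact ⟨fun h => h.1, fun h => ⟨h, hφ, h1⟩⟩
  by_cases h3 : l.Pairwise (· > ·)
  · rw [if_pos h3, if_pos (h2.2 h3)]
  · rw [if_neg h3, if_neg (fun h => h3 (h2.1 h))]

lemma list_append_inj {α : Type*} {a b c : List α} (h : a ++ c = b ++ c) : a = b :=
  List.append_cancel_right h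

/-- images under a map which is injective on a set -/
lemma cf_mp {U : Set (Subgroup G)} {f : Subgroup G → Subgroup G} (hf : Set.InjOn f U)
    {φ : List (Subgroup G)} (hφ : ∀ x ∈ φ, x ∈ U) {c : Ch 𝕜 (Subgroup G)}
    (hc : c ∈ Sp 𝕜 (fun l => ∀ a ∈ l, a ∈ U)) : cf (φ.map f) (mp f c) = mp f (cf φ c) := by
  refine eq_of_Sp (𝕜 := 𝕜) (P := fun l => ∀ a ∈ l, a ∈ U) (F := (cf (φ.map f)).comp (mp f))
    (G := (mp f).comp (cf φ)) (fun l hl => ?_) hc
  simp only [LinearMap.comp_apply, mp_single]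
  by_cases h : ∃ l', l = l' ++ φ
  · obtain ⟨l', rfl⟩ := h
    rw [List.map_append, r1_cf_append, r1_cf_append, mp_single]
  · push Not at h
    rw [r1_cf_zero _ _ _ h, map_zero]
    refine r1_cf_zero _ _ _ fun l' hl' => ?_
    have hinj : ∀ (a b : List (Subgroup G)), (∀ x ∈ a, x ∈ U) → (∀ x ∈ b, x ∈ U) →
        a.map f = b.map f → a = b := by
      intro a
      induction a with
      | nil =>
        intro b _ _ h
        rcases b with _ | ⟨y, b⟩
        · rfl
        · simp at h
      | cons x a ih =>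
        intro b ha hb h
        rcases b with _ | ⟨y, b⟩
        · simp at h
        · rw [List.map_cons, List.map_cons, List.cons.injEq] at h
          rw [hf (ha x (by simp)) (hb y (by simp)) h.1,
            ih b (fun x hx => ha x (by simp [hx])) (fun x hx => hb x (by simp [hx])) h.2]
    have hlen := congrArg List.length hl'
    simp only [List.length_map, List.length_append] at hlen
    refine h (l.take l'.length) ?_
    have h1 : (l.drop l'.length).map f = φ.map f := by
      rw [List.map_drop, hl', List.drop_left']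
      rfl
    have h2 : l.drop l'.length = φ :=
      hinj _ _ (fun x hx => hl x (List.mem_of_mem_drop hx)) hφ h1
    conv_lhs => rw [← List.take_append_drop l'.length l, h2]

end

end Vale.Agent.P240.R2.H458
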