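import Vale.Agent.P240.R2.H458.G1

/-!
Cycles with a nonzero slice at a flag, and the join with a cycle of the centralizer.
-/

set_option linter.all false

namespace Vale.Agent.P240.R2.H458

open Finsupp hiding cons
open Subgroup Vale.Agent.P240.K Vale.Agent.P240.H195

universe u v

/-- a cycle `α` of `𝒜ₚ(H)` and a full flag `φ` of `F` such that the slice of `α` at `φ` is not a
boundary in the set of the subgroups larger than `F` -/
structure LinkCycle (𝕜 : Type v) [Field 𝕜] {G : Type u} [Group G] (p : ℕ) (H F : Subgroup G)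
    (α : Ch 𝕜 (Subgroup G)) (φ : List (Subgroup G)) : Prop where
  mem : α ∈ Sp 𝕜 (st (Ain p H))
  cyc : bd α = 0
  top : (φ = [] ∧ F = ⊥) ∨ ∃ φ', φ = F :: φ'
  card : Nat.card F = p ^ φ.length
  ne : ∀ c ∈ Sp 𝕜 (st {T | T ∈ Ain p H ∧ F < T}), bd c ≠ cf φ α

section
variable {𝕜 : Type v} [Field 𝕜]

/-- extension of functionals -/
lemma exists_ext {V : Type*} [AddCommGroup V] [Module 𝕜 V] (P N : Submodule 𝕜 V) (m : V →ₗ[𝕜] 𝕜)
    (h : ∀ x ∈ P, x ∈ N → m x = 0) :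
    ∃ m' : V →ₗ[𝕜] 𝕜, (∀ x ∈ P, m' x = m x) ∧ ∀ x ∈ N, m' x = 0 := by
  by_cases h0 : ∀ x ∈ P, m x = 0
  · exact ⟨0, fun x hx => by rw [h0 x hx]; rfl, fun x _ => rfl⟩
  push Not at h0
  obtain ⟨x₀, hx₀, hm⟩ := h0
  have hnot : x₀ ∉ (P ⊓ LinearMap.ker m) ⊔ N := by
    intro hx
    obtain ⟨a, ha, b, hb, hab⟩ := Submodule.mem_sup.1 hx
    have h1 : m a = 0 := LinearMap.mem_ker.1 ha.2
    have h2 : b ∈ P := by
      have : b = x₀ - a := by rw [← hab]; abel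
      rw [this]
      exact P.sub_mem hx₀ ha.1
    apply hm
    rw [← hab, map_add, h1, h b h2 hb, add_zero]
  obtain ⟨mu, h1, h2⟩ := exists_functional _ _ hnot
  refine ⟨(m x₀ / mu x₀) • mu, fun x hx => ?_, fun x hx => ?_⟩
  · have h3 : x - (m x / m x₀) • x₀ ∈ P ⊓ LinearMap.ker m := by
      refine ⟨P.sub_mem hx (P.smul_mem _ hx₀), ?_⟩
      show m (x - (m x / m x₀) • x₀) = 0
      rw [map_sub, map_smul, smul_eq_mul, div_mul_cancel₀ _ hm, sub_self]
    have h4 := h1 _ (Submodule.mem_sup_left h3)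
    rw [map_sub, map_smul, smul_eq_mul, sub_eq_zero] at h4
    rw [LinearMap.smul_apply, smul_eq_mul, h4]
    field_simp
  · rw [LinearMap.smul_apply, h1 x (Submodule.mem_sup_right hx), smul_zero]

variable {G : Type u} [Group G] {p : ℕ}

lemma LinkCycle.slice_ne {H F : Subgroup G} {α : Ch 𝕜 (Subgroup G)} {φ : List (Subgroup G)}
    (h : LinkCycle 𝕜 p H F α φ) : cf φ α ≠ 0 := fun h0 =>
  h.ne 0 (Submodule.zero_mem _) (by rw [map_zero, h0])

lemma LinkCycle.flag {H F : Subgroup G} {α : Ch 𝕜 (Subgroup G)} {φ : List (Subgroup G)}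
    (h : LinkCycle 𝕜 p H F α φ) : st (Ain p H) φ := by
  have h1 := h.slice_ne
  obtain ⟨l, hl⟩ := Finsupp.ne_iff.1 h1
  rw [cf_apply, Finsupp.zero_apply] at hl
  have h2 := mem_Sp.1 h.mem (l ++ φ) (Finsupp.mem_support_iff.2 hl)
  exact st_sub _ _ (List.sublist_append_right _ _) h2

lemma LinkCycle.le {H F : Subgroup G} {α : Ch 𝕜 (Subgroup G)} {φ : List (Subgroup G)}
    (h : LinkCycle 𝕜 p H F α φ) : ∀ f ∈ φ, f ≤ F := by
  rcases h.top with ⟨h1, -⟩ | ⟨φ', h1⟩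
  · intro f hf
    rw [h1] at hf
    exact absurd hf (by simp)
  · intro f hf
    have hst := h.flag
    rw [h1] at hf hst
    rcases List.mem_cons.1 hf with h2 | h2
    · rw [h2]
    · exact le_of_lt ((List.pairwise_cons.1 hst.1).1 f h2)

lemma LinkCycle.memF {H F : Subgroup G} {α : Ch 𝕜 (Subgroup G)} {φ : List (Subgroup G)}
    (h : LinkCycle 𝕜 p H F α φ) : F = ⊥ ∨ F ∈ Ain p H := by
  rcases h.top with ⟨-, h1⟩ | ⟨φ', h1⟩
  · exact Or.inl h1
  · exact Or.inr (h.flag.2 F (by rw [h1]; simp))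

lemma LinkCycle.leH {H F : Subgroup G} {α : Ch 𝕜 (Subgroup G)} {φ : List (Subgroup G)}
    (h : LinkCycle 𝕜 p H F α φ) : F ≤ H := by
  rcases h.memF with h1 | h1
  · rw [h1]; exact bot_le
  · exact h1.2

lemma LinkCycle.len [hp : Fact p.Prime] [Finite G] {H F : Subgroup G} {α : Ch 𝕜 (Subgroup G)}
    {φ : List (Subgroup G)} (h : LinkCycle 𝕜 p H F α φ) {𝒮 : Set (Subgroup G)}
    (hS : 𝒮 ⊆ ApS p G) (m : List (Subgroup G)) (hm : st 𝒮 m)
    (hmφ : ∀ y ∈ m, ∃ f ∈ φ, y ≤ f) : m.length ≤ φ.length := by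
  refine len_le m ⟨hm.1, fun a ha => hS (hm.2 a ha)⟩ F φ.length h.card fun y hy => ?_
  obtain ⟨f, hf, hyf⟩ := hmφ y hy
  exact hyf.trans (h.le f hf)

/-- chains above a full flag -/
lemma LinkCycle.cf_mem' {H F : Subgroup G} {α : Ch 𝕜 (Subgroup G)}
    {φ : List (Subgroup G)} (h : LinkCycle 𝕜 p H F α φ) {𝒮 : Set (Subgroup G)}
    (hS : 𝒮 ⊆ ApS p G) {γ : Ch 𝕜 (Subgroup G)} (hγ : γ ∈ Sp 𝕜 (st 𝒮)) :
    cf φ γ ∈ Sp 𝕜 (st {X | X ∈ 𝒮 ∧ F < X}) := by
  refine Sp_mono (fun l hl => st_mono ?_ l hl) (cf_mem φ hγ)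
  rintro x ⟨hx1, hx2⟩
  refine ⟨hx1, ?_⟩
  rcases h.top with ⟨-, h1⟩ | ⟨φ', h1⟩
  · rw [h1]
    exact bot_lt_iff_ne_bot.2 (hS hx1).1
  · exact hx2 F (by rw [h1]; simp)

lemma abv_of_st {S : Set (Subgroup G)} {F : Subgroup G} {φ : List (Subgroup G)}
    (htop : (φ = [] ∧ F = ⊥) ∨ ∃ φ', φ = F :: φ') {l : List (Subgroup G)} (hl : st S l) :
    Abv φ F l := by
  intro l' h a ha
  rcases htop with ⟨-, h1⟩ | ⟨φ', h1⟩
  · rw [h1]; exact bot_le
  · subst h
    exact le_of_lt ((List.pairwise_append.1 hl.1).2.2 a ha F (by rw [h1]; simp))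

/-- change of the functional on the upper part -/
lemma PhiL_congr {D U : Set (Subgroup G)} {f : Subgroup G → Subgroup G}
    {lW lW' lD : Ch 𝕜 (Subgroup G) →ₗ[𝕜] 𝕜} (hUD : ∀ a ∈ U, a ∉ D)
    (h : ∀ q : List (Subgroup G), q.Pairwise (· ≥ ·) → (∀ a ∈ q, a ∈ U) →
      lW (single q 1) = lW' (single (q.map f) 1)) :
    ∀ l : List (Subgroup G), (∀ a ∈ l, a ∈ D ∨ a ∈ U) → ∀ q : List (Subgroup G),
      (∀ a ∈ q, a ∈ U) → (q ++ l).Pairwise (· ≥ ·) →
      PhiL D id lW lD l (single q 1) = PhiL D f lW' lD l (single (q.map f) 1) := by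
  intro l
  induction l with
  | nil =>
    intro _ q hq hw
    rw [List.append_nil] at hw
    rw [PhiL, PhiL, LinearMap.smul_apply, LinearMap.smul_apply, h q hw hq]
  | cons x l ih =>
    intro hl q hq hw
    by_cases hx : x ∈ D
    · rw [PhiL_cons_mem hx, PhiL_cons_mem hx, LinearMap.smul_apply, LinearMap.smul_apply,
        h q (List.pairwise_append.1 hw).1 hq]
    · have hxU : x ∈ U := (hl x (by simp)).resolve_left hx
      rw [PhiL_cons_not hx, PhiL_cons_not hx, LinearMap.comp_apply, LinearMap.comp_apply,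
        ap_single, ap_single, id]
      have h1 := ih (fun a ha => hl a (by simp [ha])) (q ++ [x]) (fun a ha => by
        rcases List.mem_append.1 ha with ha | ha
        · exact hq a ha
        · rw [List.mem_singleton] at ha
          rw [ha]; exact hxU) (by rw [List.append_assoc]; exact hw)
      rw [h1, List.map_append]
      rfl

/-- The join of a cycle with a nonzero slice and a cycle of `C ∩ C(F)` that is not a boundary. -/
theorem join_cycleG [hp : Fact p.Prime] [Finite G] {X C R F : Subgroup G} (hRX : R ≤ X)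
    (hCX : C ≤ X) (hRC : R ⊓ C = ⊥)
    (hcomm : ∀ x ∈ R, ∀ y ∈ C ⊓ centralizer (F : Set G), x * y = y * x)
    (hmax : ∀ T ∈ Ain p X, F < T → ¬ T ≤ R → T ⊓ C = ⊥ →
      ¬ NA 𝕜 (Ain p (C ⊓ centralizer (T : Set G))))
    {α : Ch 𝕜 (Subgroup G)} {φ : List (Subgroup G)} (hT : LinkCycle 𝕜 p R F α φ)
    (hna : NA 𝕜 (Ain p (C ⊓ centralizer (F : Set G)))) : NA 𝕜 (Ain p X) := by
  obtain ⟨b, hb, hbd, hbne⟩ := hna
  set K : Subgroup G := C ⊓ centralizer (F : Set G) with hK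
  have hXS : Ain p X ⊆ ApS p G := fun E hE => hE.1
  have hKC : K ≤ C := inf_le_left
  have hF : F = ⊥ ∨ F ∈ Ain p X := hT.memF.imp id fun h => ⟨h.1, h.2.trans hRX⟩
  have hFB : F ∈ ApB p G := hF.imp id fun h => h.1
  have hFM : F ⊓ C = ⊥ := by
    rw [eq_bot_iff, ← hRC]
    exact inf_le_inf_right _ hT.leH
  have hRK : ∀ B ∈ Ain p K, ¬ B ≤ R := fun B hB h =>
    hB.1.1 (by rw [eq_bot_iff, ← hRC]; exact le_inf h (hB.2.trans hKC))
  set SF : Set (Subgroup G) := {T | T ∈ Ain p X ∧ F < T} with hSF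
  set D : Set (Subgroup G) := {T | T ≤ R} with hD
  set Z : Set (Subgroup G) := {T | T ∈ SF ∧ ¬ T ≤ R} with hZ
  set U : Set (Subgroup G) := {T | T ∈ SF ∧ T ⊓ C ≠ ⊥} with hU
  have hUZ : U ⊆ Z := fun T hT => ⟨hT.1, fun h => hT.2 (by
    rw [eq_bot_iff, ← hRC]; exact inf_le_inf_right _ h)⟩
  -- the functionals
  obtain ⟨mu, hmu1, hmu2⟩ := exists_functional ((Sp 𝕜 (st (Ain p K))).map bd) b (by
    rintro ⟨c, hc, hcb⟩
    exact hbne c hc hcb)
  obtain ⟨la, hla1, hla2⟩ := exists_functional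
    ((Sp 𝕜 (st {T | T ∈ Ain p R ∧ F < T})).map bd) (cf φ α) (by
    rintro ⟨c, hc, hcb⟩
    exact hT.ne c hc hcb)
  have hSu : ∀ F' : Subgroup G, F' = ⊥ ∨ F' ∈ Ain p X →
      ∀ B ∈ Ain p (C ⊓ centralizer (F' : Set G)), F' ⊔ B ∈ Ain p X := by
    intro F' hF' B hB
    have hBX : B ≤ X := hB.2.trans (inf_le_left.trans hCX)
    rcases hF' with h0 | hF'
    · rw [h0, bot_sup_eq]
      exact ⟨hB.1, hBX⟩
    · exact ⟨sup_mem_ApS hF'.1 hB.1 (r2_comm hB), sup_le hF'.2 hBX⟩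
  have hlk : ∀ T : Subgroup G, T ∈ Ain p X → F < T → ¬ T ≤ R → T ⊓ C = ⊥ →
      ¬ NA 𝕜 {Y | Y ∈ Ain p X ∧ T < Y} := by
    intro T
    induction T using WellFoundedGT.induction with
    | ind T ih =>
      intro hT hFT hTR hTM
      exact link_acyclic' C hXS hSu (Or.inr hT) hTM (fun T' hT' hTT' hT'M =>
        ih T' hTT' hT' (hFT.trans hTT') (fun h => hTR (hTT'.le.trans h)) hT'M)
        (hmax T hT hFT hTR hTM)
  set m : Ch 𝕜 (Subgroup G) →ₗ[𝕜] 𝕜 := (mu.comp pi).comp (mp (fun T => T ⊓ C)) with hm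
  have hUK : ∀ T ∈ U, T ⊓ C ∈ Ain p K := fun T hT => r2_inf_mem hT.1.1.1 hT.1.2.le hT.2
  obtain ⟨lW, hlW1, hlW2⟩ := exists_ext (Sp 𝕜 (st U)) ((Sp 𝕜 (st Z)).map bd) m (by
    rintro x hx ⟨c, hc, rfl⟩
    obtain ⟨d, hd, hdb⟩ := up_lift (Set.toFinite Z) hUZ (by
      intro x hx y hy hxy
      refine ⟨hy.1, fun h => hx.2 ?_⟩
      rw [← le_bot_iff, ← h]
      exact inf_le_inf_right _ hxy) (by
      intro T hT hTU
      have hTC : T ⊓ C = ⊥ := by
        by_contra h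
        exact hTU ⟨hT.1, h⟩
      have : {x | x ∈ Z ∧ T < x} = {Y | Y ∈ Ain p X ∧ T < Y} := by
        ext x
        constructor
        · rintro ⟨h1, h2⟩
          exact ⟨h1.1.1, h2⟩
        · rintro ⟨h1, h2⟩
          exact ⟨⟨⟨h1, hT.1.2.trans h2⟩, fun h => hT.2 (h2.le.trans h)⟩, h2⟩
      rw [this]
      exact hlk T hT.1.1 hT.1.2 hT.2 hTC) hc hx
    rw [← hdb, hm, LinearMap.comp_apply, LinearMap.comp_apply, ← bd_mp]
    have h1 : mp (fun T => T ⊓ C) d ∈ Sp 𝕜 (wk (Ain p K)) :=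
      mp_wk hUK (fun x _ y _ hxy => inf_le_inf_right _ hxy) hd
    rw [← bd_pi h1]
    exact hmu1 _ ⟨_, pi_mem h1, rfl⟩)
  set lW' : Ch 𝕜 (Subgroup G) →ₗ[𝕜] 𝕜 := lW.comp pi with hlW'
  set lD : Ch 𝕜 (Subgroup G) →ₗ[𝕜] 𝕜 := la.comp pi with hlD
  have hCW : Coc Z lW' := by
    intro c hc
    rw [hlW', LinearMap.comp_apply, ← bd_pi hc]
    exact hlW2 _ ⟨_, pi_mem hc, rfl⟩
  have hCD : Coc (SF ∩ D) lD := by
    intro c hc
    rw [hlD, LinearMap.comp_apply, ← bd_pi hc]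
    refine hla1 _ ⟨_, Sp_mono (fun l hl => st_mono ?_ l hl) (pi_mem hc), rfl⟩
    rintro x ⟨h1, h2⟩
    exact ⟨⟨h1.1.1, h2⟩, h1.2⟩
  have hnW : Nrm lW' := fun l hl => by
    rw [hlW', LinearMap.comp_apply, pi_single, if_neg hl, map_zero]
  have hnD : Nrm lD := fun l hl => by
    rw [hlD, LinearMap.comp_apply, pi_single, if_neg hl, map_zero]
  set La := phi D id lW' lD with hLa
  have hcoc : Coc SF La := phi_coc (S := SF) (SW := Z)
    (fun x _ y _ hxy hy => hxy.trans hy) (fun x hx hxD => ⟨hx, hxD⟩)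
    (fun x _ _ y _ _ hxy => hxy) hCW hCD
  -- the cycle
  set γ := cf φ α with hγ
  have hφst := hT.flag
  have hγm : γ ∈ Sp 𝕜 (st {T | T ∈ Ain p R ∧ F < T}) := hT.cf_mem' (fun E hE => hE.1) hT.mem
  set z := sh (mp (fun B => F ⊔ B) b) γ with hz
  have hE1 : cf φ (sh b α) = z := by
    refine cf_sh_right hT.top (T := Ain p K) ?_ (Sp_mono (fun l hl => hl.2) hb)
      (Sp_mono (fun l hl => abv_of_st hT.top hl) hT.mem)
    intro x hx B hB hBx
    exact hRK B hB (hBx.trans ((hT.le x hx).trans hT.leH))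
  set AA : Set (Subgroup G) := {T | ∃ B ∈ Ain p K, T = F ⊔ B} with hAA
  set BB : Set (Subgroup G) := {T | T ∈ Ain p R ∧ F < T} with hBB
  have hAU : AA ⊆ U := by
    rintro _ ⟨B, hB, rfl⟩
    have h1 := r2_sup_mem hFB hFM hB
    exact ⟨⟨hSu F hF B hB, h1.1.2⟩, h1.2⟩
  have hBS : BB ⊆ SF := fun T hT => ⟨⟨hT.1.1, hT.1.2.trans hRX⟩, hT.2⟩
  have hABe : ∀ B ∈ Ain p K, ∀ T ∈ BB, F ⊔ B ⊔ T = T ⊔ B := by
    intro B hB T hT
    rw [sup_right_comm, sup_eq_right.2 hT.2.le]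
  have hBT : ∀ B ∈ Ain p K, ∀ T ∈ BB, B ∈ Ain p (C ⊓ centralizer (T : Set G)) := by
    intro B hB T hT
    refine ⟨hB.1, le_inf (hB.2.trans hKC) fun x hx => ?_⟩
    rw [mem_centralizer_iff]
    exact fun t ht => hcomm t (hT.1.2 ht) x (hB.2 hx)
  have hTC : ∀ T ∈ BB, T ⊓ C = ⊥ := by
    intro T hT
    rw [eq_bot_iff, ← hRC]
    exact inf_le_inf_right _ hT.1.2
  have hABU : ∀ a ∈ AA, ∀ t ∈ BB, a ⊔ t ∈ U := by
    rintro _ ⟨B, hB, rfl⟩ T hT
    rw [hABe B hB T hT]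
    have h1 := hBT B hB T hT
    have h2 := r2_sup_mem (Or.inr hT.1.1) (hTC T hT) h1
    exact ⟨⟨hSu T (Or.inr (hBS hT).1) B h1, hT.2.trans h2.1.2⟩, h2.2⟩
  have hmpb : mp (fun B => F ⊔ B) b ∈ Sp 𝕜 (st AA) :=
    mp_mem (st_map (S := Ain p K) (T := AA) (f := fun B => F ⊔ B) (fun B hB => ⟨B, hB, rfl⟩)
      fun B hB B' hB' h => (r2_lt hFM hB hB').1 h) hb
  have hzw : z ∈ Sp 𝕜 (wk (U ∪ BB)) :=
    sh_mem (A := AA) (B := BB) (fun T hT => Or.inl (hAU hT)) (fun T hT => Or.inr hT)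
      (fun a ha t ht => Or.inl (hABU a ha t ht)) (Sp_mono (fun l hl => st_wk l hl) hmpb)
      (Sp_mono (fun l hl => st_wk l hl) hγm)
  have hzS : z ∈ Sp 𝕜 (wk SF) := by
    refine Sp_mono (fun l hl => wk_mono ?_ l hl) hzw
    rintro T (hT | hT)
    · exact hT.1
    · exact hBS hT
  have hUD : ∀ a ∈ U, a ∉ D := fun a ha h => (hUZ ha).2 h
  have hevl : La z = mu b * la γ := by
    have e1 : La z = phi D (fun T => T ⊓ C) (mu.comp pi) lD z := by
      refine eq_of_Sp (𝕜 := 𝕜) (P := wk (U ∪ BB)) (F := La)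
        (G := phi D (fun T => T ⊓ C) (mu.comp pi) lD) (fun l hl => ?_) hzw
      rw [hLa, phi_single, phi_single]
      refine PhiL_congr (U := U) hUD (fun q hq hqU => ?_) l (fun a ha => ?_) [] (by simp) hl.1
      · rw [hlW', LinearMap.comp_apply, LinearMap.comp_apply]
        by_cases h : q.Pairwise (· > ·)
        · rw [pi_single, if_pos h, hlW1 _ (single_mem_Sp ⟨h, hqU⟩ _), hm, LinearMap.comp_apply,
            LinearMap.comp_apply, mp_single]
        · rw [pi_single, if_neg h, map_zero]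
          -- a repetition
          have hrep : ¬ (q.map (fun T => T ⊓ C)).Pairwise (· > ·) := by
            intro h1
            apply h
            rw [List.pairwise_map] at h1
            refine (hq.and h1).imp ?_
            rintro a b ⟨h2, h3⟩
            refine lt_of_le_of_ne h2 ?_
            rintro rfl
            exact lt_irrefl _ h3
          rw [pi_single, if_neg hrep, map_zero]
      · rcases hl.2 a ha with h | h
        · exact Or.inr h
        · exact Or.inl h.1.2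
    rw [e1, hz, phi_shuffle (A := AA) (B := BB) (fun a ha => hUD a (hAU ha))
      (fun t ht => ht.1.2) ?_ ?_ (Sp_mono (fun l hl => hl.2) hmpb)
      (Sp_mono (fun l hl => hl.2) hγm)]
    · congr 1
      · have h2 : mp ((fun T => T ⊓ C) ∘ fun B => F ⊔ B) b = b :=
          mp_eq_self (P := st (Ain p K)) (fun l hl a ha => r2_sup hFM (hl.2 a ha)) hb
        rw [mp_mp, h2, LinearMap.comp_apply, pi_of_st hb]
      · rw [hlD, LinearMap.comp_apply, pi_of_st hγm]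
    · rintro _ ⟨B, hB, rfl⟩ T hT
      refine ⟨hUD _ (hABU _ ⟨B, hB, rfl⟩ T hT), ?_⟩
      show (F ⊔ B ⊔ T) ⊓ C = (F ⊔ B) ⊓ C
      rw [hABe B hB T hT, r2_sup (hTC T hT) (hBT B hB T hT), r2_sup hFM hB]
    · intro l hl
      rw [LinearMap.comp_apply, pi_single, if_neg hl, map_zero]
  -- the cycle in `X`
  have hyw : sh b α ∈ Sp 𝕜 (wk (Ain p X)) := by
    refine sh_mem_N (hKC.trans hCX) hRX (fun x hx y hy => (hcomm y hy x hx).symm)
      (Sp_mono (fun l hl => st_wk l hl) hb) (Sp_mono (fun l hl => st_wk l hl) hT.mem)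
  have hyb : bd (sh b α) = 0 := by
    rw [bd_sh, hbd, hT.cyc, map_zero, map_zero, LinearMap.zero_apply, add_zero]
  refine ⟨pi (sh b α), pi_mem hyw, by rw [bd_pi hyw, hyb, map_zero], fun c hc hcy => ?_⟩
  have h3 : bd (cf φ c) = pi z := by
    rw [bd_cf φ (hT.len hXS) hc, hcy, cf_pi hφst.1, hE1]
    rw [hE1]
    refine Sp_mono (fun l hl a ha x hx => ?_) hzS
    exact lt_of_le_of_lt (hT.le x hx) (hl.2 a ha).2
  have h4 : cf φ c ∈ Sp 𝕜 (st SF) := hT.cf_mem' hXS hc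
  have h5 : La (pi z) = 0 := by
    rw [← h3]
    exact hcoc _ (Sp_mono (fun l hl => st_wk l hl) h4)
  have h6 : La (pi z) = La z := by
    have := eq_of_Sp (𝕜 := 𝕜) (P := wk SF) (F := La.comp Vale.Agent.P240.K.pi) (G := La)
      (fun l hl => by
        rw [LinearMap.comp_apply, pi_single]
        split_ifs with h
        · rfl
        · rw [map_zero, hLa, phi_single, PhiL_nrm (S := SF) hnW hnD l hl h]) hzS
    simpa using this
  rw [h6, hevl] at h5
  exact (mul_ne_zero hmu2 hla2) h5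

end

end Vale.Agent.P240.R2.H458
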