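import Vale.Agent.P240.R2.H458.G2
import Vale.Agent.P240.R2.H938.FamF

/-!
The join of two cycles with nonzero slices.
-/

set_option linter.all false

namespace Vale.Agent.P240.R2.H458

open Finsupp hiding cons
open Subgroup Vale.Agent.P240.K Vale.Agent.P240.H195

universe u v

section
variable {G : Type u} [Group G] {p : ℕ}

/-- projection along `N` -/
def pr (N H T : Subgroup G) : Subgroup G := (T ⊔ N) ⊓ H

lemma pr_mono (N H : Subgroup G) {T T' : Subgroup G} (h : T ≤ T') : pr N H T ≤ pr N H T' :=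
  inf_le_inf_right _ (sup_le_sup_right h _)

lemma mem_sup_norm {N T : Subgroup G} (hT : ∀ t ∈ T, ∀ n ∈ N, t * n * t⁻¹ ∈ N) {x : G} :
    x ∈ T ⊔ N ↔ ∃ t ∈ T, ∃ n ∈ N, x = t * n := by
  constructor
  · intro hx
    let P : Subgroup G :=
      { carrier := {x | ∃ t ∈ T, ∃ n ∈ N, x = t * n}
        one_mem' := ⟨1, one_mem _, 1, one_mem _, by simp⟩
        mul_mem' := by
          rintro _ _ ⟨t, ht, n, hn, rfl⟩ ⟨t', ht', n', hn', rfl⟩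
          refine ⟨t * t', mul_mem ht ht', t'⁻¹ * n * t' * n', mul_mem ?_ hn', by group⟩
          have := hT t'⁻¹ (inv_mem ht') n hn
          rwa [inv_inv] at this
        inv_mem' := by
          rintro _ ⟨t, ht, n, hn, rfl⟩
          exact ⟨t⁻¹, inv_mem ht, t * n⁻¹ * t⁻¹, hT t ht _ (inv_mem hn), by group⟩ }
    have h : T ⊔ N ≤ P := sup_le (fun t ht => ⟨t, ht, 1, one_mem _, by simp⟩)
      (fun n hn => ⟨1, one_mem _, n, hn, by simp⟩)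
    exact h hx
  · rintro ⟨t, ht, n, hn, rfl⟩
    exact mul_mem ((le_sup_left : T ≤ T ⊔ N) ht) ((le_sup_right : N ≤ T ⊔ N) hn)

lemma pr_apb {N H T : Subgroup G} (hT : ∀ t ∈ T, ∀ n ∈ N, t * n * t⁻¹ ∈ N) (hNH : N ⊓ H = ⊥)
    (hTA : T ∈ ApS p G) (h0 : pr N H T ≠ ⊥) : pr N H T ∈ Ain p H := by
  refine ⟨⟨h0, ?_, ?_⟩, inf_le_right⟩
  · rintro x ⟨hx, hxH⟩ y ⟨hy, hyH⟩
    obtain ⟨t, ht, n, hn, rfl⟩ := (mem_sup_norm hT).1 hx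
    obtain ⟨s, hs, m, hm, rfl⟩ := (mem_sup_norm hT).1 hy
    have h1 : (t * n) * (s * m) * (t * n)⁻¹ * (s * m)⁻¹ ∈ N ⊓ H := by
      refine ⟨?_, H.mul_mem (H.mul_mem (H.mul_mem hxH hyH) (H.inv_mem hxH)) (H.inv_mem hyH)⟩
      have e : (t * n) * (s * m) * (t * n)⁻¹ * (s * m)⁻¹ =
          (t * n * t⁻¹) * ((t * s) * (m * n⁻¹) * (t * s)⁻¹) * (t * s * t⁻¹ * s⁻¹) *
            (s * m⁻¹ * s⁻¹) := by group
      rw [e, hTA.2.1 t ht s hs]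
      have e2 : s * t * t⁻¹ * s⁻¹ = 1 := by group
      rw [e2, mul_one]
      refine mul_mem (mul_mem (hT t ht n hn) ?_) (hT s hs _ (inv_mem hm))
      exact hT (s * t) (mul_mem hs ht) _ (mul_mem hm (inv_mem hn))
    rw [hNH, mem_bot] at h1
    calc t * n * (s * m) = ((t * n) * (s * m) * (t * n)⁻¹ * (s * m)⁻¹) * (s * m * (t * n)) := by
          group
      _ = s * m * (t * n) := by rw [h1, one_mul]
  · rintro x ⟨hx, hxH⟩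
    obtain ⟨t, ht, n, hn, rfl⟩ := (mem_sup_norm hT).1 hx
    have h2 : ∀ k : ℕ, ∃ m ∈ N, (t * n) ^ k = t ^ k * m := by
      intro k
      induction k with
      | zero => exact ⟨1, one_mem _, by simp⟩
      | succ k ih =>
        obtain ⟨m, hm, h3⟩ := ih
        refine ⟨t⁻¹ * m * t * n, mul_mem ?_ hn, by rw [pow_succ, h3, pow_succ]; group⟩
        have := hT t⁻¹ (inv_mem ht) m hm
        rwa [inv_inv] at this
    obtain ⟨m, hm, h3⟩ := h2 p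
    rw [hTA.2.2 t ht, one_mul] at h3
    have h4 : (t * n) ^ p ∈ N ⊓ H := ⟨by rw [h3]; exact hm, pow_mem hxH p⟩
    rwa [hNH, mem_bot] at h4

end

section
variable {𝕜 : Type v} [Field 𝕜] {G : Type u} [Group G] {p : ℕ}

lemma mp_eq_mp {f g : Subgroup G → Subgroup G} {P : List (Subgroup G) → Prop}
    (h : ∀ l, P l → ∀ a ∈ l, f a = g a) {c : Ch 𝕜 (Subgroup G)} (hc : c ∈ Sp 𝕜 P) :
    mp f c = mp g c :=
  eq_of_Sp (𝕜 := 𝕜) (P := P) (F := mp f) (G := mp g) (fun l hl => by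
    rw [mp_single, mp_single, List.map_congr_left (h l hl)]) hc

/-- **The join of two cycles with nonzero slices.** -/
theorem LinkCycle.join [hp : Fact p.Prime] [Finite G] {N₁ H₁ H₂ F₁ F₂ H : Subgroup G}
    {α₁ α₂ : Ch 𝕜 (Subgroup G)} {φ₁ φ₂ : List (Subgroup G)}
    (h1 : LinkCycle 𝕜 p H₁ F₁ α₁ φ₁) (h2 : LinkCycle 𝕜 p H₂ F₂ α₂ φ₂)
    (hH₁ : H₁ ≤ N₁) (hcen : ∀ x ∈ N₁, (∀ y ∈ F₂, x * y = y * x) → x ∈ H₁)
    (hcomm : ∀ x ∈ H₁, ∀ y ∈ H₂, x * y = y * x) (hdis : N₁ ⊓ H₂ = ⊥)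
    (hnorm : ∀ h ∈ H₂, ∀ n ∈ N₁, h * n * h⁻¹ ∈ N₁) (hH : H = N₁ ⊔ H₂) :
    ∃ (α : Ch 𝕜 (Subgroup G)) (φ : List (Subgroup G)), LinkCycle 𝕜 p H (F₁ ⊔ F₂) α φ := by
  have hN₁H : N₁ ≤ H := by rw [hH]; exact le_sup_left
  have hH₂H : H₂ ≤ H := by rw [hH]; exact le_sup_right
  have hF₁ : F₁ ≤ H₁ := h1.leH
  have hF₂ : F₂ ≤ H₂ := h2.leH
  have hF₁N : F₁ ≤ N₁ := hF₁.trans hH₁
  have hmemH : ∀ {x : G}, x ∈ H ↔ ∃ n ∈ N₁, ∃ y ∈ H₂, x = y * n := by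
    intro x
    rw [hH, sup_comm, mem_sup_norm hnorm]
    exact ⟨fun ⟨y, hy, n, hn, h⟩ => ⟨n, hn, y, hy, h⟩, fun ⟨n, hn, y, hy, h⟩ => ⟨y, hy, n, hn, h⟩⟩
  have hHN : ∀ h ∈ H, ∀ n ∈ N₁, h * n * h⁻¹ ∈ N₁ := by
    intro h hh n hn
    obtain ⟨m, hm, y, hy, rfl⟩ := hmemH.1 hh
    have e : y * m * n * (y * m)⁻¹ = y * (m * n * m⁻¹) * y⁻¹ := by group
    rw [e]
    exact hnorm y hy _ (mul_mem (mul_mem hm hn) (inv_mem hm))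
  set F : Subgroup G := F₁ ⊔ F₂ with hFdef
  have hFH : F ≤ H := sup_le (hF₁N.trans hN₁H) (hF₂.trans hH₂H)
  -- products
  have hsup : ∀ {A B : Subgroup G}, A ≤ H₁ → B ≤ H₂ → ∀ {x : G}, x ∈ A ⊔ B →
      ∃ a ∈ A, ∃ b ∈ B, x = a * b := fun {A B} hA hB {x} hx =>
    H487.mem_sup_comm (fun a ha b hb => hcomm a (hA ha) b (hB hb)) hx |> fun ⟨a, ha, b, hb, h⟩ =>
      ⟨a, ha, b, hb, by rw [h]⟩
  have hinf : ∀ {A B : Subgroup G}, A ≤ H₁ → B ≤ H₂ → (A ⊔ B) ⊓ N₁ = A := by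
    intro A B hA hB
    refine le_antisymm ?_ (le_inf le_sup_left (hA.trans hH₁))
    rintro x ⟨hx, hxN⟩
    obtain ⟨a, ha, b, hb, rfl⟩ := hsup hA hB hx
    have h3 : b ∈ N₁ ⊓ H₂ := by
      refine ⟨?_, hB hb⟩
      have := mul_mem (inv_mem (hH₁ (hA ha))) hxN
      rwa [inv_mul_cancel_left] at this
    rw [hdis, mem_bot] at h3
    rw [h3, mul_one]
    exact ha
  have hpr : ∀ {A B : Subgroup G}, A ≤ H₁ → B ≤ H₂ → pr N₁ H₂ (A ⊔ B) = B := by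
    intro A B hA hB
    refine le_antisymm ?_ (le_inf (le_sup_right.trans le_sup_left) hB)
    rintro x ⟨hx, hxH⟩
    obtain ⟨t, ht, n, hn, rfl⟩ := (mem_sup_norm fun t ht n hn => hHN t
      ((sup_le (hA.trans (hH₁.trans hN₁H)) (hB.trans hH₂H)) ht) n hn).1 hx
    obtain ⟨a, ha, b, hb, rfl⟩ := hsup hA hB ht
    have h3 : a * b * n * b⁻¹ ∈ N₁ ⊓ H₂ := by
      refine ⟨?_, H₂.mul_mem hxH (H₂.inv_mem (hB hb))⟩
      have e : a * b * n * b⁻¹ = a * (b * n * b⁻¹) := by group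
      rw [e]
      exact mul_mem (hH₁ (hA ha)) (hnorm b (hB hb) n hn)
    rw [hdis, mem_bot, mul_inv_eq_one] at h3
    rw [h3]
    exact hb
  have hApS : ∀ {A B : Subgroup G}, A ∈ Ain p H₁ → B ∈ Ain p H₂ → A ⊔ B ∈ Ain p H :=
    fun {A B} hA hB => ⟨sup_mem_ApS hA.1 hB.1 fun a ha b hb => hcomm a (hA.2 ha) b (hB.2 hb),
      sup_le (hA.2.trans (hH₁.trans hN₁H)) (hB.2.trans hH₂H)⟩
  have hAin₁ : Ain p H₁ ⊆ Ain p H := fun E hE => ⟨hE.1, hE.2.trans (hH₁.trans hN₁H)⟩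
  have hAin₂ : Ain p H₂ ⊆ Ain p H := fun E hE => ⟨hE.1, hE.2.trans hH₂H⟩
  have hXS : Ain p H ⊆ ApS p G := fun E hE => hE.1
  -- `F₁ ⊔ ·`
  have hF₁B : F₁ = ⊥ ∨ F₁ ∈ Ain p H₁ := h1.memF
  have hF₂B : F₂ = ⊥ ∨ F₂ ∈ Ain p H₂ := h2.memF
  have hup : ∀ B ∈ Ain p H₂, F₁ ⊔ B ∈ Ain p H := by
    intro B hB
    rcases hF₁B with h | h
    · rw [h, bot_sup_eq]; exact hAin₂ hB
    · exact hApS h hB
  have hlt₂ : ∀ B ∈ Ain p H₂, ∀ B' ∈ Ain p H₂, B < B' → F₁ ⊔ B < F₁ ⊔ B' := by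
    intro B hB B' hB' h
    refine lt_of_le_of_ne (sup_le_sup_left h.le _) fun h' => h.ne ?_
    rw [← hpr hF₁ hB.2, ← hpr hF₁ hB'.2, h']
  have hinj : Set.InjOn (fun B => F₁ ⊔ B) (Ain p H₂) := by
    intro B hB B' hB' h
    have h' : F₁ ⊔ B = F₁ ⊔ B' := h
    rw [← hpr hF₁ hB.2, ← hpr hF₁ hB'.2, h']
  set φ' : List (Subgroup G) := φ₂.map (fun B => F₁ ⊔ B) with hφ'
  set γ₁ := cf φ₁ α₁ with hγ₁
  set γ₂ := cf φ₂ α₂ with hγ₂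
  set S₁ : Set (Subgroup G) := {T | T ∈ Ain p H₁ ∧ F₁ < T} with hS₁
  set S₂ : Set (Subgroup G) := {T | T ∈ Ain p H₂ ∧ F₂ < T} with hS₂
  set SF : Set (Subgroup G) := {T | T ∈ Ain p H ∧ F < T} with hSF
  have hγ₁m : γ₁ ∈ Sp 𝕜 (st S₁) := h1.cf_mem' (fun E hE => hE.1) h1.mem
  have hγ₂m : γ₂ ∈ Sp 𝕜 (st S₂) := h2.cf_mem' (fun E hE => hE.1) h2.mem
  obtain ⟨la₁, hla₁, hla₁'⟩ := exists_functional ((Sp 𝕜 (st S₁)).map bd) γ₁ (by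
    rintro ⟨c, hc, hcb⟩
    exact h1.ne c hc hcb)
  obtain ⟨la₂, hla₂, hla₂'⟩ := exists_functional ((Sp 𝕜 (st S₂)).map bd) γ₂ (by
    rintro ⟨c, hc, hcb⟩
    exact h2.ne c hc hcb)
  -- the flag
  have hφ'st : st (Ain p H) φ' :=
    st_map (S := Ain p H₂) (T := Ain p H) hup hlt₂ φ₂ h2.flag
  have hφst : (φ' ++ φ₁).Pairwise (· > ·) := by
    rw [List.pairwise_append]
    refine ⟨hφ'st.1, h1.flag.1, fun a ha b hb => ?_⟩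
    obtain ⟨B, hB, rfl⟩ := List.mem_map.1 ha
    refine lt_of_le_of_lt (h1.le b hb) (lt_of_le_of_ne le_sup_left fun h => ?_)
    have h3 := h2.flag.2 B hB
    apply h3.1.1
    rw [eq_bot_iff, ← hdis]
    exact le_inf (by rw [h] at hF₁N; exact le_sup_right.trans hF₁N) h3.2
  have htop' : φ₂ = [] ∧ F₂ = ⊥ ∨ ∃ ψ, φ' = F :: ψ := by
    rcases h2.top with h | ⟨ψ, h⟩
    · exact Or.inl h
    · exact Or.inr ⟨_, by rw [hφ', h]; rfl⟩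
  have htop : ((φ' ++ φ₁) = [] ∧ F = ⊥) ∨ ∃ ψ, φ' ++ φ₁ = F :: ψ := by
    rcases htop' with ⟨h3, h4⟩ | ⟨ψ, h3⟩
    · rcases h1.top with ⟨h5, h6⟩ | ⟨ψ, h5⟩
      · exact Or.inl ⟨by rw [hφ', h3, h5]; rfl, by rw [hFdef, h4, h6, bot_sup_eq]⟩
      · exact Or.inr ⟨ψ, by rw [hφ', h3, h5, hFdef, h4, sup_bot_eq]; rfl⟩
    · exact Or.inr ⟨ψ ++ φ₁, by rw [h3]; rfl⟩
  have hle : ∀ x ∈ φ' ++ φ₁, x ≤ F := by
    intro x hx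
    rcases List.mem_append.1 hx with hx | hx
    · obtain ⟨B, hB, rfl⟩ := List.mem_map.1 hx
      exact sup_le_sup_left (h2.le B hB) _
    · exact (h1.le x hx).trans le_sup_left
  have hcard : Nat.card F = p ^ (φ' ++ φ₁).length := by
    rw [List.length_append, hφ', List.length_map, add_comm, pow_add, ← h1.card, ← h2.card]
    refine le_antisymm (H938.card_sup_le_comm fun a ha b hb => hcomm a (hF₁ ha) b (hF₂ hb))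
      (H938.card_sup_comm ?_)
    rw [eq_bot_iff, ← hdis]
    exact inf_le_inf hF₁N hF₂
  -- the cycle
  set r := φ₁.length with hr
  set β := (⇑(sg (𝕜 := 𝕜) (α := Subgroup G)))^[r] α₂ with hβ
  have hβ' : ∀ k : ℕ, (⇑(sg (𝕜 := 𝕜) (α := Subgroup G)))^[k] α₂ ∈ Sp 𝕜 (st (Ain p H₂)) ∧
      bd ((⇑(sg (𝕜 := 𝕜) (α := Subgroup G)))^[k] α₂) = 0 := by
    intro k
    induction k with
    | zero => exact ⟨h2.mem, h2.cyc⟩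
    | succ k ih =>
      rw [Function.iterate_succ_apply']
      exact ⟨sg_mem ih.1, by rw [bd_sg, ih.2, map_zero, neg_zero]⟩
  have hyw : sh α₁ β ∈ Sp 𝕜 (wk (Ain p H)) :=
    sh_mem_N (hH₁.trans hN₁H) hH₂H hcomm (Sp_mono (fun l hl => st_wk l hl) h1.mem)
      (Sp_mono (fun l hl => st_wk l hl) (hβ' r).1)
  have hyb : bd (sh α₁ β) = 0 := by
    rw [bd_sh, h1.cyc, (hβ' r).2, map_zero, map_zero, LinearMap.zero_apply, add_zero]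
  -- the slice
  set AA : Set (Subgroup G) := {T | ∃ T₁ ∈ S₁, T = F ⊔ T₁} with hAA
  set BB : Set (Subgroup G) := {T | ∃ T₂ ∈ S₂, T = F₁ ⊔ T₂} with hBB
  have eA : ∀ T₁ ∈ S₁, F ⊔ T₁ = T₁ ⊔ F₂ := by
    intro T₁ hT₁
    rw [hFdef, sup_right_comm, sup_eq_right.2 hT₁.2.le]
  have eAB : ∀ T₁ ∈ S₁, ∀ T₂ ∈ S₂, F ⊔ T₁ ⊔ (F₁ ⊔ T₂) = T₁ ⊔ T₂ := by
    intro T₁ hT₁ T₂ hT₂
    rw [eA T₁ hT₁, ← sup_assoc, sup_assoc T₁ F₂ F₁, sup_comm F₂ F₁, ← sup_assoc,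
      sup_eq_left.2 hT₁.2.le, sup_assoc, sup_eq_right.2 hT₂.2.le]
  have hltF : ∀ T₁ ∈ S₁, F < F ⊔ T₁ := by
    intro T₁ hT₁
    refine lt_of_le_of_ne le_sup_left fun h => ?_
    have h3 : F ⊓ N₁ = F₁ := hinf hF₁ hF₂
    have h4 : (F ⊔ T₁) ⊓ N₁ = T₁ := by
      rw [eA T₁ hT₁]
      exact hinf hT₁.1.2 hF₂
    rw [← h, h3] at h4
    exact hT₁.2.ne h4
  have hltF' : ∀ T₂ ∈ S₂, F < F₁ ⊔ T₂ := by
    intro T₂ hT₂
    refine lt_of_le_of_ne (sup_le_sup_left hT₂.2.le _) fun h => hT₂.2.ne ?_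
    rw [← hpr hF₁ hF₂, ← hpr hF₁ hT₂.1.2, ← h]
  have hAAS : ∀ T₁ ∈ S₁, F ⊔ T₁ ∈ SF := by
    intro T₁ hT₁
    refine ⟨?_, hltF T₁ hT₁⟩
    rw [eA T₁ hT₁]
    rcases hF₂B with h | h
    · rw [h, sup_bot_eq]; exact hAin₁ hT₁.1
    · exact hApS hT₁.1 h
  have hBBS : ∀ T₂ ∈ S₂, F₁ ⊔ T₂ ∈ SF := fun T₂ hT₂ => ⟨hup T₂ hT₂.1, hltF' T₂ hT₂⟩
  have hABS : ∀ T₁ ∈ S₁, ∀ T₂ ∈ S₂, F ⊔ T₁ ⊔ (F₁ ⊔ T₂) ∈ SF := by
    intro T₁ hT₁ T₂ hT₂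
    refine ⟨?_, lt_of_lt_of_le (hltF T₁ hT₁) le_sup_left⟩
    rw [eAB T₁ hT₁ T₂ hT₂]
    exact hApS hT₁.1 hT₂.1
  have hAAm : mp (fun B => F ⊔ B) γ₁ ∈ Sp 𝕜 (wk AA) :=
    mp_wk (S := S₁) (R := AA) (ρ := fun B => F ⊔ B) (fun T hT => ⟨T, hT, rfl⟩)
      (fun x _ y _ hxy => sup_le_sup_left hxy _) hγ₁m
  have hBBm : mp (fun B => F₁ ⊔ B) γ₂ ∈ Sp 𝕜 (wk BB) :=
    mp_wk (S := S₂) (R := BB) (ρ := fun B => F₁ ⊔ B) (fun T hT => ⟨T, hT, rfl⟩)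
      (fun x _ y _ hxy => sup_le_sup_left hxy _) hγ₂m
  set z := sh (mp (fun B => F ⊔ B) γ₁) (mp (fun B => F₁ ⊔ B) γ₂) with hz
  have hzS : z ∈ Sp 𝕜 (wk SF) := by
    refine sh_mem (A := AA) (B := BB) ?_ ?_ ?_ hAAm hBBm
    · rintro _ ⟨T₁, hT₁, rfl⟩; exact hAAS T₁ hT₁
    · rintro _ ⟨T₂, hT₂, rfl⟩; exact hBBS T₂ hT₂
    · rintro _ ⟨T₁, hT₁, rfl⟩ _ ⟨T₂, hT₂, rfl⟩; exact hABS T₁ hT₁ T₂ hT₂
  have hE1 : cf φ₁ (sh α₁ β) = sh γ₁ (mp (fun B => F₁ ⊔ B) α₂) := by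
    refine cf_sh_left h1.top (T := Ain p H₂) ?_
      (Sp_mono (fun l hl => abv_of_st h1.top hl) h1.mem) (Sp_mono (fun l hl => hl.2) h2.mem)
    intro x hx B hB hBx
    apply hB.1.1
    rw [eq_bot_iff, ← hdis]
    exact le_inf (hBx.trans ((h1.le x hx).trans hF₁N)) hB.2
  have hα₂' : mp (fun B => F₁ ⊔ B) α₂ ∈ Sp 𝕜 (st (Ain p H)) :=
    mp_mem (st_map (S := Ain p H₂) (T := Ain p H) hup hlt₂) h2.mem
  have hE2 : cf φ' (mp (fun B => F₁ ⊔ B) α₂) = mp (fun B => F₁ ⊔ B) γ₂ :=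
    cf_mp (U := Ain p H₂) hinj (fun x hx => h2.flag.2 x hx) (Sp_mono (fun l hl => hl.2) h2.mem)
  have hE3 : cf (φ' ++ φ₁) (sh α₁ β) = z := by
    rw [cf_append, hE1]
    rcases htop' with ⟨h3, h4⟩ | ⟨ψ, h3⟩
    · have h5 : φ' = [] := by rw [hφ', h3]; rfl
      have h6 : γ₂ = α₂ := by rw [hγ₂, h3, cf_nil]
      have h7 : mp (fun B => F ⊔ B) γ₁ = γ₁ := by
        refine mp_eq_self (P := st S₁) (fun l hl a ha => ?_) hγ₁m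
        have := (hl.2 a ha).2.le
        rw [hFdef, h4, sup_bot_eq]
        exact sup_eq_right.2 this
      rw [h5, cf_nil, hz, h6, h7]
    · rw [hz, ← hE2]
      refine cf_sh_right (T := S₁) (Or.inr ⟨ψ, h3⟩) ?_ (Sp_mono (fun l hl => hl.2) hγ₁m)
        (Sp_mono (fun l hl => abv_of_st (Or.inr ⟨ψ, h3⟩) hl) hα₂')
      intro x hx T₁ hT₁ hle
      obtain ⟨B, hB, rfl⟩ := List.mem_map.1 hx
      have h4 : T₁ ≤ (F₁ ⊔ B) ⊓ N₁ := le_inf hle (hT₁.1.2.trans hH₁)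
      rw [hinf hF₁ (h2.flag.2 B hB).2] at h4
      exact hT₁.2.not_ge h4
  have hslice : cf (φ' ++ φ₁) (pi (sh α₁ β)) = pi z := by
    rw [cf_pi hφst, hE3]
    rw [hE3]
    refine Sp_mono (fun l hl a ha x hx => ?_) hzS
    exact lt_of_le_of_lt (hle x hx) (hl.2 a ha).2
  refine ⟨pi (sh α₁ β), φ' ++ φ₁, pi_mem hyw, by rw [bd_pi hyw, hyb, map_zero], htop, hcard,
    fun c hc hcy => ?_⟩
  -- the functional
  set D : Set (Subgroup G) := {T | T ⊓ N₁ ≤ F₁} with hD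
  set lW : Ch 𝕜 (Subgroup G) →ₗ[𝕜] 𝕜 := la₁.comp pi with hlW
  set lD : Ch 𝕜 (Subgroup G) →ₗ[𝕜] 𝕜 := ((la₂.comp pi).comp (mp (pr N₁ H₂))).comp pi with hlD
  have hprm : ∀ T ∈ SF ∩ D, pr N₁ H₂ T ∈ S₂ := by
    rintro T ⟨hT, hTD⟩
    have hTH : ∀ t ∈ T, ∀ n ∈ N₁, t * n * t⁻¹ ∈ N₁ := fun t ht => hHN t (hT.1.2 ht)
    have hlt : F₂ < pr N₁ H₂ T := by
      have hle2 : F₂ ≤ pr N₁ H₂ T :=
        le_inf ((le_sup_right.trans hT.2.le).trans le_sup_left) hF₂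
      refine lt_of_le_of_ne hle2 fun h3 => hT.2.not_ge fun t ht => ?_
      obtain ⟨n, hn, y, hy, rfl⟩ := hmemH.1 (hT.1.2 ht)
      have hyp : y ∈ pr N₁ H₂ T := by
        refine ⟨(mem_sup_norm hTH).2 ⟨y * n, ht, n⁻¹, inv_mem hn, by group⟩, hy⟩
      rw [← h3] at hyp
      have hyT : y ∈ T := hT.2.le ((le_sup_right : F₂ ≤ F) hyp)
      have hnT : n ∈ T ⊓ N₁ := by
        refine ⟨?_, hn⟩
        have := mul_mem (inv_mem hyT) ht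
        rwa [inv_mul_cancel_left] at this
      exact mul_mem ((le_sup_right : F₂ ≤ F) hyp) ((le_sup_left : F₁ ≤ F) (hTD hnT))
    exact ⟨pr_apb hTH hdis hT.1.1 (fun h => by rw [h] at hlt; exact not_lt_bot hlt), hlt⟩
  have hfm : ∀ T ∈ SF, T ∉ D → T ⊓ N₁ ∈ S₁ := by
    intro T hT hTD
    have h3 : F₁ ≤ T ⊓ N₁ := le_inf (le_sup_left.trans hT.2.le) hF₁N
    have h4 : F₁ < T ⊓ N₁ := lt_of_le_of_ne h3 fun h => hTD h.ge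
    refine ⟨⟨mem_ApS_of_le hT.1.1 inf_le_left (fun h => by rw [h] at h4; exact not_lt_bot h4),
      fun x hx => hcen x hx.2 fun y hy => ?_⟩, h4⟩
    exact hT.1.1.2.1 x hx.1 y (hT.2.le ((le_sup_right : F₂ ≤ F) hy))
  have hCW : Coc S₁ lW := by
    intro c hc
    rw [hlW, LinearMap.comp_apply, ← bd_pi hc]
    exact hla₁ _ ⟨_, pi_mem hc, rfl⟩
  have hCD : Coc (SF ∩ D) lD := by
    intro c hc
    rw [hlD, LinearMap.comp_apply, LinearMap.comp_apply, LinearMap.comp_apply, ← bd_pi hc,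
      ← bd_mp]
    have h3 : mp (pr N₁ H₂) (pi c) ∈ Sp 𝕜 (wk S₂) :=
      mp_wk hprm (fun x _ y _ hxy => pr_mono _ _ hxy) (pi_mem hc)
    rw [← bd_pi h3]
    exact hla₂ _ ⟨_, pi_mem h3, rfl⟩
  have hnW : Nrm lW := fun l hl => by
    rw [hlW, LinearMap.comp_apply, pi_single, if_neg hl, map_zero]
  have hnD : Nrm lD := fun l hl => by
    rw [hlD, LinearMap.comp_apply, pi_single, if_neg hl, map_zero]
  set La := phi D (fun T => T ⊓ N₁) lW lD with hLa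
  have hcoc : Coc SF La := phi_coc (S := SF) (SW := S₁)
    (fun x _ y _ hxy hy => (inf_le_inf_right _ hxy).trans hy) hfm
    (fun x _ _ y _ _ hxy => inf_le_inf_right _ hxy) hCW hCD
  have h5 : La (pi z) = 0 := by
    rw [← hslice, ← hcy]
    exact hcoc _ (Sp_mono (fun l hl => st_wk l hl) hc)
  have h6 : La (pi z) = La z := by
    have := eq_of_Sp (𝕜 := 𝕜) (P := wk SF) (F := La.comp Vale.Agent.P240.K.pi) (G := La)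
      (fun l hl => by
        rw [LinearMap.comp_apply, pi_single]
        split_ifs with h
        · rfl
        · rw [map_zero, hLa, phi_single, PhiL_nrm (S := SF) hnW hnD l hl h]) hzS
    simpa using this
  have hAN : ∀ T₁ ∈ S₁, (F ⊔ T₁) ⊓ N₁ = T₁ := fun T₁ hT₁ => by
    rw [eA T₁ hT₁]; exact hinf hT₁.1.2 hF₂
  have hABN : ∀ T₁ ∈ S₁, ∀ T₂ ∈ S₂, (F ⊔ T₁ ⊔ (F₁ ⊔ T₂)) ⊓ N₁ = T₁ := fun T₁ hT₁ T₂ hT₂ => by
    rw [eAB T₁ hT₁ T₂ hT₂]; exact hinf hT₁.1.2 hT₂.1.2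
  have hnotD : ∀ T₁ ∈ S₁, ¬ T₁ ≤ F₁ := fun T₁ hT₁ h => hT₁.2.not_ge h
  have hevl : La z = la₁ γ₁ * la₂ γ₂ := by
    rw [hz, hLa, phi_shuffle (A := AA) (B := BB) ?_ ?_ ?_ hnW (Sp_mono (fun l hl => hl.2) hAAm)
      (Sp_mono (fun l hl => hl.2) hBBm)]
    · congr 1
      · have h7 : mp ((fun T => T ⊓ N₁) ∘ fun B => F ⊔ B) γ₁ = γ₁ :=
          mp_eq_self (P := st S₁) (fun l hl a ha => hAN a (hl.2 a ha)) hγ₁m
        rw [mp_mp, h7, hlW, LinearMap.comp_apply, pi_of_st hγ₁m]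
      · have h8 : mp (fun B => F₁ ⊔ B) γ₂ ∈ Sp 𝕜 (st SF) :=
          mp_mem (st_map (S := S₂) (T := SF) hBBS
            fun B hB B' hB' h => hlt₂ B hB.1 B' hB'.1 h) hγ₂m
        have h7 : mp (pr N₁ H₂ ∘ fun B => F₁ ⊔ B) γ₂ = γ₂ :=
          mp_eq_self (P := st S₂) (fun l hl a ha => hpr hF₁ (hl.2 a ha).1.2) hγ₂m
        rw [hlD, LinearMap.comp_apply, pi_of_st h8, LinearMap.comp_apply, mp_mp, h7,
          LinearMap.comp_apply, pi_of_st hγ₂m]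
    · rintro _ ⟨T₁, hT₁, rfl⟩ h
      have h' : (F ⊔ T₁) ⊓ N₁ ≤ F₁ := h
      rw [hAN T₁ hT₁] at h'
      exact hnotD T₁ hT₁ h'
    · rintro _ ⟨T₂, hT₂, rfl⟩
      show (F₁ ⊔ T₂) ⊓ N₁ ≤ F₁
      rw [hinf hF₁ hT₂.1.2]
    · rintro _ ⟨T₁, hT₁, rfl⟩ _ ⟨T₂, hT₂, rfl⟩
      refine ⟨fun h => ?_, ?_⟩
      · have h' : (F ⊔ T₁ ⊔ (F₁ ⊔ T₂)) ⊓ N₁ ≤ F₁ := h
        rw [hABN T₁ hT₁ T₂ hT₂] at h'
        exact hnotD T₁ hT₁ h'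
      · show (F ⊔ T₁ ⊔ (F₁ ⊔ T₂)) ⊓ N₁ = (F ⊔ T₁) ⊓ N₁
        rw [hABN T₁ hT₁ T₂ hT₂, hAN T₁ hT₁]
  rw [h6, hevl] at h5
  exact (mul_ne_zero hla₁' hla₂') h5

end

end Vale.Agent.P240.R2.H458
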