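import Vale.Agent.P240.R2.H458.G3

/-!
Elimination of a family of commuting subgroups with the property `LocG`.
-/

set_option linter.all false

namespace Vale.Agent.P240.R2.H458

open Finsupp hiding cons
open Subgroup Vale.Agent.P240.K Vale.Agent.P240.H195 Vale.Agent.P240.R2.H487

universe u v

section
variable {G : Type u} [Group G] {p : ℕ}

/-- a subgroup `L` with a family of elementary abelian subgroups such that the maximal elementary
abelian groups (in their class modulo `L`) containing a member of the family have cycles with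
a nonzero slice -/
def LocG (𝕜 : Type v) [Field 𝕜] (p : ℕ) (L : Subgroup G) : Prop :=
  ∃ 𝒜 : Set (Subgroup G), 𝒜.Nonempty ∧ (∀ A ∈ 𝒜, A ≤ L ∧ A ∈ ApS p G) ∧
    ∀ E ∈ ApS p G, E ≤ normalizer (L : Set G) →
      (∀ y ∈ L, y ^ p = 1 → (∀ e ∈ E, e * y = y * e) → y ∈ E) →
      ∀ E₁ ≤ E, (∃ A ∈ 𝒜, A ≤ E₁) → E ⊓ L ≤ E₁ →
      E₁ ⊓ centralizer (L : Set G) = ⊥ → ∃ B ≤ E, E₁ ⊔ B = E ∧ E₁ ⊓ B = ⊥ ∧
        E ⊓ centralizer (L : Set G) ≤ B ∧ ∃ F ≤ (L ⊔ E₁) ⊓ centralizer (B : Set G),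
          F ∈ ApS p G ∧ (∃ A ∈ 𝒜, A ≤ F) ∧ L ⊔ F = L ⊔ E₁ ∧
          ∃ (α : Ch 𝕜 (Subgroup G)) (φ : List (Subgroup G)),
            LinkCycle 𝕜 p ((L ⊔ E₁) ⊓ centralizer (B : Set G)) F α φ

lemma not_NA_central {𝕜 : Type v} [Field 𝕜] [hp : Fact p.Prime] {K : Subgroup G} {c : G}
    (hc : c ∈ K) (hc1 : c ≠ 1) (hcp : c ^ p = 1) (hcen : ∀ y ∈ K, c * y = y * c) :
    ¬ NA 𝕜 (Ain p K) := by
  have hz : zpowers c ∈ ApS p G := by
    refine ⟨?_, ?_, ?_⟩
    · rw [Ne, zpowers_eq_bot]; exact hc1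
    · rintro _ ⟨i, rfl⟩ _ ⟨j, rfl⟩
      show c ^ i * c ^ j = c ^ j * c ^ i
      rw [← zpow_add, ← zpow_add, add_comm]
    · rintro _ ⟨i, rfl⟩
      show (c ^ i) ^ p = 1
      rw [← zpow_natCast, ← zpow_mul, mul_comm, zpow_mul, zpow_natCast, hcp, one_zpow]
  have hzK : zpowers c ≤ K := by rwa [zpowers_le]
  have hcom : ∀ x ∈ zpowers c, ∀ y ∈ K, x * y = y * x := by
    rintro _ ⟨i, rfl⟩ y hy
    exact (Commute.zpow_left (show Commute c y from hcen y hy) i)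
  refine ac_cone (φ := fun T => T ⊔ zpowers c) (F := zpowers c) ⟨hz, hzK⟩ (fun T hT => ?_)
    (fun T _ => le_sup_right) (fun T _ => le_sup_left) (fun T _ T' _ h => sup_le_sup_right h _)
  exact ⟨sup_mem_ApS hT.1 hz fun x hx y hy => (hcom y hy x (hT.2 hx)).symm, sup_le hT.2 hzK⟩

end

section
variable {𝕜 : Type v} [Field 𝕜] {G : Type u} [Group G] {p : ℕ}

/-- **Local elimination** with cycles with nonzero slices. -/
theorem local_topG [hp : Fact p.Prime] [Finite G] {X C N A : Subgroup G} (hCX : C ≤ X)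
    (hNX : N ≤ X) (hNC : ∀ x ∈ N, ∀ y ∈ C, x * y = y * x) (hdis : N ⊓ C = ⊥)
    (hnN : ∀ x ∈ X, ∀ n ∈ N, x * n * x⁻¹ ∈ N) (hnC : ∀ x ∈ X, ∀ c ∈ C, x * c * x⁻¹ ∈ C)
    (Q : Subgroup G → Prop) (hQ : ∀ F F', Q F → F ≤ F' → Q F')
    (hAX : A ≤ X) (hQA : Q A) (hA : A ∈ ApB p G) (hAC : A ⊓ C = ⊥)
    (hcen : C ≤ centralizer (A : Set G))
    (hα : ∀ E ∈ ApB p G, E ≤ X → Q E → E ⊓ C = ⊥ →
      (∀ y ∈ N, y ^ p = 1 → (∀ e ∈ E, e * y = y * e) → y ∈ E) →
      ∃ (F : Subgroup G) (α : Ch 𝕜 (Subgroup G)) (φ : List (Subgroup G)),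
        Q F ∧ N ⊔ F = N ⊔ E ∧ LinkCycle 𝕜 p (N ⊔ E) F α φ)
    (h : NA 𝕜 (Ain p C)) : NA 𝕜 (Ain p X) := by
  set S : Set (Subgroup G) := {F : Subgroup G | F ∈ ApB p G ∧ F ≤ X ∧ Q F ∧ F ⊓ C = ⊥ ∧
      NA 𝕜 (Ain p (C ⊓ centralizer (F : Set G)))} with hS
  have hne : A ∈ S := by
    refine ⟨hA, hAX, hQA, hAC, ?_⟩
    rwa [inf_eq_left.2 hcen]
  have hpos : p ≠ 0 := hp.out.ne_zero
  have hab : ∀ {E : Subgroup G}, E ∈ ApB p G → ∀ x ∈ E, ∀ y ∈ E, x * y = y * x := by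
    intro E hE x hx y hy
    rcases hE with h | h
    · rw [h, mem_bot] at hx hy
      rw [hx, hy]
    · exact h.2.1 x hx y hy
  have hpw : ∀ {E : Subgroup G}, E ∈ ApB p G → ∀ x ∈ E, x ^ p = 1 := by
    intro E hE x hx
    rcases hE with h | h
    · rw [h, mem_bot] at hx
      rw [hx, one_pow]
    · exact h.2.2 x hx
  -- saturation
  have hsat : ∀ E ∈ S, ∀ n ∈ N, ∀ c ∈ C, n * c ∈ E → c = 1 := by
    rintro E ⟨hEB, hEX, -, -, hNA⟩ n hn c hc hnc
    by_contra hc1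
    refine not_NA_central (𝕜 := 𝕜) (K := C ⊓ centralizer (E : Set G)) (c := c) ?_ hc1 ?_ ?_ hNA
    · refine ⟨hc, mem_centralizer_iff.2 fun e he => ?_⟩
      have h1 := hab hEB e he _ hnc
      have h2 : n⁻¹ * (e * n * e⁻¹) = c * (e * c * e⁻¹)⁻¹ := by
        rw [eq_mul_inv_iff_mul_eq]
        calc n⁻¹ * (e * n * e⁻¹) * (e * c * e⁻¹) = n⁻¹ * (e * (n * c)) * e⁻¹ := by group
          _ = n⁻¹ * (n * c * e) * e⁻¹ := by rw [h1]
          _ = c := by group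
      have h3 : n⁻¹ * (e * n * e⁻¹) ∈ N ⊓ C := by
        refine ⟨N.mul_mem (N.inv_mem hn) (hnN e (hEX he) n hn), ?_⟩
        rw [h2]
        exact C.mul_mem hc (C.inv_mem (hnC e (hEX he) c hc))
      rw [h2, hdis, mem_bot, mul_inv_eq_one] at h3
      rw [eq_mul_inv_iff_mul_eq] at h3
      exact h3.symm
    · have h1 := hpw hEB _ hnc
      rw [(show Commute n c from hNC n hn c hc).mul_pow] at h1
      have h2 : c ^ p ∈ N ⊓ C := by
        refine ⟨?_, pow_mem hc p⟩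
        have h3 : c ^ p = (n ^ p)⁻¹ := eq_inv_of_mul_eq_one_right h1
        rw [h3]
        exact N.inv_mem (N.pow_mem hn p)
      rwa [hdis, mem_bot] at h2
    · rintro y ⟨hyC, hyE⟩
      have h1 := mem_centralizer_iff.1 hyE _ hnc
      have h2 := hNC n hn y hyC
      have h3 : n * (c * y) = n * (y * c) := by
        calc n * (c * y) = n * c * y := by group
          _ = y * (n * c) := h1
          _ = y * n * c := by group
          _ = n * y * c := by rw [h2]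
          _ = n * (y * c) := by group
      exact mul_left_cancel h3
  -- the choice of `E`
  obtain ⟨E₀, hE₀, hmax₀⟩ := Set.exists_max_image S
    (fun F => Nat.card (F ⊔ (N ⊔ C) : Subgroup G)) (Set.toFinite S) ⟨A, hne⟩
  set S' : Set (Subgroup G) := {E | E ∈ S ∧ E ⊔ (N ⊔ C) = E₀ ⊔ (N ⊔ C)} with hS'
  obtain ⟨E, hE', hmax⟩ := Set.exists_max_image S' (fun F => Nat.card F) (Set.toFinite S')
    ⟨E₀, hE₀, rfl⟩
  obtain ⟨hE, hEo⟩ := hE'
  have hE2 := hE
  obtain ⟨hEB, hEX, hEQ, hEC, hNA⟩ := hE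
  have hNE : ∀ {x : G}, x ∈ N ⊔ E ↔ ∃ e ∈ E, ∃ n ∈ N, x = e * n := by
    intro x
    rw [sup_comm, mem_sup_norm fun t ht n hn => hnN t (hEX ht) n hn]
  have hRC : (N ⊔ E) ⊓ C = ⊥ := by
    rw [eq_bot_iff]
    rintro x ⟨hx, hxC⟩
    obtain ⟨e, he, n, hn, rfl⟩ := hNE.1 hx
    have h1 : (e * n * e⁻¹)⁻¹ * (e * n) = e := by group
    have h2 := hsat E hE2 (e * n * e⁻¹)⁻¹ (inv_mem (hnN e (hEX he) n hn)) (e * n) hxC
      (by rw [h1]; exact he)
    rw [mem_bot]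
    exact h2
  have hcE : ∀ {E' : Subgroup G}, N ⊔ E' = N ⊔ E →
      C ⊓ centralizer (E' : Set G) = C ⊓ centralizer (E : Set G) := by
    have key : ∀ {E₁ E₂ : Subgroup G}, E₂ ≤ N ⊔ E₁ →
        C ⊓ centralizer (E₁ : Set G) ≤ C ⊓ centralizer (E₂ : Set G) := by
      rintro E₁ E₂ hle y ⟨hyC, hyE⟩
      refine ⟨hyC, mem_centralizer_iff.2 fun x hx => ?_⟩
      have h1 : N ⊔ E₁ ≤ centralizer {y} := by
        refine sup_le (fun n hn => ?_) fun e he => ?_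
        · rw [mem_centralizer_singleton_iff]
          exact hNC n hn y hyC
        · rw [mem_centralizer_singleton_iff]
          exact mem_centralizer_iff.1 hyE e he
      exact mem_centralizer_singleton_iff.1 (h1 (hle hx))
    intro E' h
    exact le_antisymm (key (by rw [h]; exact le_sup_right)) (key (by rw [← h]; exact le_sup_right))
  have hMax : ∀ y ∈ N, y ^ p = 1 → (∀ e ∈ E, e * y = y * e) → y ∈ E := by
    intro y hy hyp hyE
    by_cases hy1 : y = 1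
    · rw [hy1]; exact one_mem _
    have hz : zpowers y ∈ ApS p G := by
      refine ⟨?_, ?_, ?_⟩
      · rw [Ne, zpowers_eq_bot]; exact hy1
      · rintro _ ⟨i, rfl⟩ _ ⟨j, rfl⟩
        show y ^ i * y ^ j = y ^ j * y ^ i
        rw [← zpow_add, ← zpow_add, add_comm]
      · rintro _ ⟨i, rfl⟩
        show (y ^ i) ^ p = 1
        rw [← zpow_natCast, ← zpow_mul, mul_comm, zpow_mul, zpow_natCast, hyp, one_zpow]
    have hzN : zpowers y ≤ N := by rwa [zpowers_le]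
    have hE'B : E ⊔ zpowers y ∈ ApB p G := by
      rcases hEB with h0 | h0
      · rw [h0, bot_sup_eq]; exact Or.inr hz
      · refine Or.inr (sup_mem_ApS h0 hz fun a ha b hb => ?_)
        obtain ⟨i, rfl⟩ := hb
        exact (Commute.zpow_right (show Commute a y from hyE a ha) i)
    have hNe : N ⊔ (E ⊔ zpowers y) = N ⊔ E := by
      rw [sup_comm E, ← sup_assoc, sup_eq_left.2 hzN]
    have hmem : E ⊔ zpowers y ∈ S' := by
      refine ⟨⟨hE'B, sup_le hEX (hzN.trans hNX), hQ _ _ hEQ le_sup_left, ?_, ?_⟩, ?_⟩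
      · rw [eq_bot_iff, ← hRC, ← hNe]
        exact inf_le_inf_right _ le_sup_right
      · rwa [hcE hNe]
      · rw [← hEo, sup_assoc]
        congr 1
        exact sup_eq_right.2 (hzN.trans le_sup_left)
    have h1 := hmax _ hmem
    have h2 : E = E ⊔ zpowers y := Subgroup.eq_of_le_of_card_ge le_sup_left h1
    rw [h2]
    exact (le_sup_right : zpowers y ≤ _) (mem_zpowers y)
  obtain ⟨F, α, φ, hFQ, hFN, hT⟩ := hα E hEB hEX hEQ hEC hMax
  have hRX : N ⊔ E ≤ X := sup_le hNX hEX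
  have hCF := hcE hFN
  refine join_cycleG (C := C) (R := N ⊔ E) (F := F) hRX hCX hRC (fun x hx y hy => ?_)
    (fun T hTX hFT hTR hTC hNT => ?_) hT (by rwa [hCF])
  · rw [hCF] at hy
    have h1 : N ⊔ E ≤ centralizer {y} := by
      refine sup_le (fun n hn => ?_) fun e he => ?_
      · rw [mem_centralizer_singleton_iff]
        exact hNC n hn y hy.1
      · rw [mem_centralizer_singleton_iff]
        exact mem_centralizer_iff.1 hy.2 e he
    exact mem_centralizer_singleton_iff.1 (h1 hx)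
  · have hTS : T ∈ S := ⟨Or.inr hTX.1, hTX.2, hQ F T hFQ hFT.le, hTC, hNT⟩
    have h1 : E₀ ⊔ (N ⊔ C) ≤ T ⊔ (N ⊔ C) := by
      rw [← hEo, ← sup_assoc, sup_comm E N, ← hFN]
      refine sup_le (sup_le (le_sup_left.trans le_sup_right) (hFT.le.trans le_sup_left))
        (le_sup_right.trans le_sup_right)
    have h2 : E₀ ⊔ (N ⊔ C) = T ⊔ (N ⊔ C) :=
      Subgroup.eq_of_le_of_card_ge h1 (hmax₀ T hTS)
    apply hTR
    intro t ht
    have h3 : t ∈ E ⊔ (N ⊔ C) := by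
      rw [hEo, h2]
      exact (le_sup_left : T ≤ _) ht
    have hFX : F ≤ X := (by rw [← hFN] at hRX; exact le_sup_right.trans hRX)
    have h4 : t ∈ F ⊔ (N ⊔ C) := by
      have e1 : E ⊔ (N ⊔ C) = F ⊔ (N ⊔ C) := by
        rw [← sup_assoc, ← sup_assoc, sup_comm E N, ← hFN, sup_comm N F]
      rwa [← e1]
    have hnNC : ∀ x ∈ X, ∀ n ∈ N ⊔ C, x * n * x⁻¹ ∈ N ⊔ C := by
      intro x hx n hn
      obtain ⟨a, ha, b, hb, rfl⟩ := H487.mem_sup_comm hNC hn
      have e1 : x * (a * b) * x⁻¹ = (x * a * x⁻¹) * (x * b * x⁻¹) := by group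
      rw [e1]
      exact mul_mem ((le_sup_left : N ≤ N ⊔ C) (hnN x hx a ha))
        ((le_sup_right : C ≤ N ⊔ C) (hnC x hx b hb))
    obtain ⟨f, hf, w, hw, rfl⟩ := (mem_sup_norm fun t ht n hn => hnNC t (hFX ht) n hn).1 h4
    obtain ⟨a, ha, b, hb, rfl⟩ := H487.mem_sup_comm hNC hw
    have h5 : a * b ∈ T := by
      have := mul_mem (inv_mem (hFT.le hf)) ht
      rwa [inv_mul_cancel_left] at this
    have h6 := hsat T hTS a ha b hb h5
    rw [h6, mul_one]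
    have h7 : f ∈ N ⊔ E := by rw [← hFN]; exact (le_sup_right : F ≤ _) hf
    exact mul_mem h7 ((le_sup_left : N ≤ N ⊔ E) ha)

lemma linkCycle_bot [hp : Fact p.Prime] :
    LinkCycle 𝕜 p (⊥ : Subgroup G) ⊥ (single [] 1) [] := by
  refine ⟨single_mem_Sp ⟨List.Pairwise.nil, by simp⟩ _, bd_single_nil _, Or.inl ⟨rfl, rfl⟩,
    by simp, fun c hc hcb => ?_⟩
  rw [cf_nil] at hcb
  have h1 : c ∈ Sp 𝕜 (fun l : List (Subgroup G) => l = []) := by
    refine Sp_mono (fun l hl => ?_) hc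
    rcases l with _ | ⟨a, l⟩
    · rfl
    · exfalso
      have h2 := hl.2 a (by simp)
      exact h2.1.1.1 (eq_bot_iff.2 h2.1.2)
  have h2 : bd c = 0 := by
    have := eq_of_Sp (𝕜 := 𝕜) (P := fun l : List (Subgroup G) => l = []) (F := bd)
      (G := (0 : Ch 𝕜 (Subgroup G) →ₗ[𝕜] Ch 𝕜 (Subgroup G))) (fun l hl => by
        subst hl
        rw [bd_single_nil]
        rfl) h1
    simpa using this
  rw [h2] at hcb
  have h3 := congrArg (fun f => f []) hcb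
  simp at h3

/-- **Cycles with nonzero slices** for commuting subgroups satisfying `LocG`. -/
theorem fam_topG [hp : Fact p.Prime] [Finite G] {D : Set (Subgroup G)}
    (hcomm : ∀ L ∈ D, ∀ M ∈ D, L ≠ M → ∀ x ∈ L, ∀ y ∈ M, x * y = y * x)
    (hc : ∀ L ∈ D, L ⊓ centralizer (L : Set G) = ⊥)
    {𝒜 : Subgroup G → Set (Subgroup G)} (hAL : ∀ L ∈ D, ∀ A ∈ 𝒜 L, A ≤ L ∧ A ∈ ApS p G)
    (hA : ∀ L ∈ D, ∀ E ∈ ApS p G, E ≤ normalizer (L : Set G) →
      (∀ y ∈ L, y ^ p = 1 → (∀ e ∈ E, e * y = y * e) → y ∈ E) → ∀ E₁ ≤ E,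
      (∃ A ∈ 𝒜 L, A ≤ E₁) → E ⊓ L ≤ E₁ → E₁ ⊓ centralizer (L : Set G) = ⊥ → ∃ B ≤ E,
        E₁ ⊔ B = E ∧ E₁ ⊓ B = ⊥ ∧ E ⊓ centralizer (L : Set G) ≤ B ∧
        ∃ F ≤ (L ⊔ E₁) ⊓ centralizer (B : Set G),
          F ∈ ApS p G ∧ (∃ A ∈ 𝒜 L, A ≤ F) ∧ L ⊔ F = L ⊔ E₁ ∧
          ∃ (α : Ch 𝕜 (Subgroup G)) (φ : List (Subgroup G)),
            LinkCycle 𝕜 p ((L ⊔ E₁) ⊓ centralizer (B : Set G)) F α φ) :
    ∀ E ∈ ApB p G, (∀ L ∈ D, E ≤ normalizer (L : Set G)) → (∀ L ∈ D, ∃ A ∈ 𝒜 L, A ≤ E) →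
      E ⊓ Cen D = ⊥ →
      (∀ L ∈ D, ∀ y ∈ L, y ^ p = 1 → (∀ e ∈ E, e * y = y * e) → y ∈ E) →
      ∃ F : Subgroup G, (∀ L ∈ D, ∃ A ∈ 𝒜 L, A ≤ F) ∧
        (⨆ L ∈ D, L) ⊔ F = (⨆ L ∈ D, L) ⊔ E ∧
        ∃ (α : Ch 𝕜 (Subgroup G)) (φ : List (Subgroup G)),
          LinkCycle 𝕜 p ((⨆ L ∈ D, L) ⊔ E) F α φ := by
  have key : ∀ s : Set (Subgroup G), s.Finite → s ⊆ D → ∀ E ∈ ApB p G,
      (∀ L ∈ s, E ≤ normalizer (L : Set G)) → (∀ L ∈ s, ∃ A ∈ 𝒜 L, A ≤ E) →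
      E ⊓ Cen s = ⊥ →
      (∀ L ∈ s, ∀ y ∈ L, y ^ p = 1 → (∀ e ∈ E, e * y = y * e) → y ∈ E) →
      ∃ F : Subgroup G, (∀ L ∈ s, ∃ A ∈ 𝒜 L, A ≤ F) ∧
        (⨆ L ∈ s, L) ⊔ F = (⨆ L ∈ s, L) ⊔ E ∧
        ∃ (α : Ch 𝕜 (Subgroup G)) (φ : List (Subgroup G)),
          LinkCycle 𝕜 p ((⨆ L ∈ s, L) ⊔ E) F α φ := by
    intro s hs'
    induction s, hs' using Set.Finite.induction_on with
    | empty =>
      intro _ E hEB _ _ hE _
      rw [Cen_empty, inf_top_eq] at hE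
      subst hE
      refine ⟨⊥, by simp, rfl, single [] 1, [], ?_⟩
      have : (⨆ L ∈ (∅ : Set (Subgroup G)), L) ⊔ (⊥ : Subgroup G) = ⊥ := by simp
      rw [this]
      exact linkCycle_bot
    | @insert L s hL _ ih =>
      intro hsD E hEB hEN hAE hEC hEM
      have hLD := hsD (Set.mem_insert L s)
      have hsD' : s ⊆ D := fun M hM => hsD (Set.mem_insert_of_mem L hM)
      obtain ⟨A, hAm, hAL'⟩ := hAE L (Set.mem_insert L s)
      have hE : E ∈ ApS p G := by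
        rcases hEB with h0 | h0
        · exfalso
          rw [h0, le_bot_iff] at hAL'
          exact (hAL L hLD A hAm).2.1 hAL'
        · exact h0
      have hne : ∀ M ∈ s, M ≠ L := fun M hM h0 => hL (h0 ▸ hM)
      have hLCs : L ≤ Cen s := by
        intro x hx
        rw [mem_Cen]
        intro M hM
        rw [mem_centralizer_iff]
        intro y hy
        exact hcomm M (hsD' hM) L hLD (hne M hM) y hy x hx
      have hsCL : ⨆ M ∈ s, M ≤ centralizer (L : Set G) := by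
        refine iSup₂_le fun M hM x hx => ?_
        rw [mem_centralizer_iff]
        intro y hy
        exact (hcomm M (hsD' hM) L hLD (hne M hM) x hx y hy).symm
      have hALs : A ≤ Cen s := (hAL L hLD A hAm).1.trans hLCs
      have hENL := hEN L (Set.mem_insert L s)
      obtain ⟨B, hBE, hB1, hB2, hB3, F₁, hF₁le, hF₁S, hF₁A, hF₁L, α₁, φ₁, hT₁⟩ :=
        hA L hLD E hE hENL (hEM L (Set.mem_insert L s)) (E ⊓ Cen s) inf_le_left
        ⟨A, hAm, le_inf hAL' hALs⟩ (inf_le_inf_left _ hLCs)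
        (by rw [inf_assoc, ← Cen_insert, hEC])
      have hBB : B ∈ ApB p G := by
        by_cases h0 : B = ⊥
        · exact Or.inl h0
        · exact Or.inr (mem_ApS_of_le hE hBE h0)
      obtain ⟨F₂, hF₂A, hF₂s, α₂, φ₂, hT₂⟩ := ih hsD' B hBB
        (fun M hM => hBE.trans (hEN M (Set.mem_insert_of_mem L hM))) (fun M hM => by
          obtain ⟨A', hA'm, hA'E⟩ := hAE M (Set.mem_insert_of_mem L hM)
          refine ⟨A', hA'm, le_trans (le_inf hA'E fun x hx => ?_) hB3⟩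
          rw [mem_centralizer_iff]
          intro y hy
          exact (hcomm M (hsD' hM) L hLD (hne M hM) x ((hAL M (hsD' hM) A' hA'm).1 hx)
            y hy).symm) (by
          rw [← hB2]
          refine le_antisymm (fun x hx => ?_) fun x hx => ?_
          · exact mem_inf.2 ⟨mem_inf.2 ⟨hBE hx.1, hx.2⟩, hx.1⟩
          · exact mem_inf.2 ⟨hx.2, hx.1.2⟩) (by
          intro M hM y hy hyp hyB
          have h1 : E ≤ centralizer {y} := by
            rw [← hB1]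
            refine sup_le (fun e he => ?_) fun b hb => ?_
            · rw [mem_centralizer_singleton_iff]
              exact (mem_centralizer_iff.1 (mem_Cen.1 he.2 M hM) y hy).symm
            · rw [mem_centralizer_singleton_iff]
              exact hyB b hb
          have h2 : y ∈ E := hEM M (Set.mem_insert_of_mem L hM) y hy hyp fun e he =>
            mem_centralizer_singleton_iff.1 (h1 he)
          exact hB3 ⟨h2, mem_centralizer_iff.2 fun x hx =>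
            (hcomm M (hsD' hM) L hLD (hne M hM) y hy x hx).symm⟩)
      have hLs : ∀ x ∈ L ⊔ (E ⊓ Cen s), ∀ y ∈ ⨆ M ∈ s, M, x * y = y * x := by
        intro x hx y hy
        have h1 : ⨆ M ∈ s, M ≤ centralizer ((L ⊔ (E ⊓ Cen s) : Subgroup G) : Set G) := by
          refine iSup₂_le fun M hM => ?_
          rw [le_centralizer_iff]
          refine sup_le (fun z hz => ?_) fun z hz => mem_Cen.1 hz.2 M hM
          rw [mem_centralizer_iff]
          exact fun w hw => hcomm M (hsD' hM) L hLD (hne M hM) w hw z hz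
        exact (mem_centralizer_iff.1 (h1 hy)) x hx
      have hcom2 : ∀ x ∈ (L ⊔ (E ⊓ Cen s)) ⊓ centralizer (B : Set G),
          ∀ y ∈ (⨆ M ∈ s, M) ⊔ B, x * y = y * x := by
        intro x hx y hy
        have h1 : (⨆ M ∈ s, M) ⊔ B ≤ centralizer {x} := by
          refine sup_le (fun z hz => ?_) fun z hz => ?_
          · rw [mem_centralizer_singleton_iff]
            exact (hLs x hx.1 z hz).symm
          · rw [mem_centralizer_singleton_iff]
            exact (mem_centralizer_iff.1 hx.2) z hz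
        exact (mem_centralizer_singleton_iff.1 (h1 hy)).symm
      have hEL : ∀ e ∈ E, ∀ l ∈ L, e * l * e⁻¹ ∈ L := fun e he l hl =>
        (mem_normalizer_iff.1 (hENL he) l).1 hl
      have hEs : ∀ e ∈ E, ∀ m ∈ ⨆ M ∈ s, M, e * m * e⁻¹ ∈ ⨆ M ∈ s, M := by
        intro e he m hm
        have h1 : (⨆ M ∈ s, M) ≤ (⨆ M ∈ s, M).comap (MulAut.conj e).toMonoidHom := by
          refine iSup₂_le fun M hM x hx => ?_
          show e * x * e⁻¹ ∈ ⨆ M ∈ s, M
          exact (le_biSup (fun M : Subgroup G => M) hM)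
            ((mem_normalizer_iff.1 (hEN M (Set.mem_insert_of_mem L hM) he) x).1 hx)
        exact h1 hm
      have hLE1 : ∀ b ∈ B, ∀ n ∈ L ⊔ (E ⊓ Cen s), b * n * b⁻¹ ∈ L ⊔ (E ⊓ Cen s) := by
        intro b hb n hn
        have h1 : L ⊔ (E ⊓ Cen s) ≤
            (L ⊔ (E ⊓ Cen s)).comap (MulAut.conj b).toMonoidHom := by
          refine sup_le (fun x hx => ?_) fun x hx => ?_
          · show b * x * b⁻¹ ∈ L ⊔ (E ⊓ Cen s)
            exact (le_sup_left : L ≤ _) (hEL b (hBE hb) x hx)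
          · show b * x * b⁻¹ ∈ L ⊔ (E ⊓ Cen s)
            have h2 : b * x * b⁻¹ = x := by
              rw [hE.2.1 b (hBE hb) x hx.1, mul_inv_cancel_right]
            rw [h2]
            exact (le_sup_right : E ⊓ Cen s ≤ _) hx
        exact h1 hn
      have hnorm : ∀ h ∈ (⨆ M ∈ s, M) ⊔ B, ∀ n ∈ L ⊔ (E ⊓ Cen s),
          h * n * h⁻¹ ∈ L ⊔ (E ⊓ Cen s) := by
        intro h hh n hn
        have hmem : h ∈ B ⊔ ⨆ M ∈ s, M := by rwa [sup_comm]
        obtain ⟨b, hb, m, hm, rfl⟩ := (mem_sup_norm fun t ht n hn => hEs t (hBE ht) n hn).1 hmem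
        have e1 : b * m * n * (b * m)⁻¹ = b * (m * n * m⁻¹) * b⁻¹ := by group
        have e2 : m * n * m⁻¹ = n := by rw [← hLs n hn m hm, mul_inv_cancel_right]
        rw [e1, e2]
        exact hLE1 b hb n hn
      have hLLs : L ⊓ (⨆ M ∈ s, M) = ⊥ := by
        rw [eq_bot_iff, ← hc L hLD]
        exact inf_le_inf_left _ hsCL
      have hdis : (L ⊔ (E ⊓ Cen s)) ⊓ ((⨆ M ∈ s, M) ⊔ B) = ⊥ := by
        rw [eq_bot_iff]
        rintro x ⟨hx, hx'⟩
        have hx1 : x ∈ (E ⊓ Cen s) ⊔ L := by rwa [sup_comm]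
        obtain ⟨e, he, l, hl, hxe⟩ := (mem_sup_norm (T := E ⊓ Cen s) (N := L)
          fun t ht n hn => hEL t ht.1 n hn).1 hx1
        have hx2 : x ∈ B ⊔ ⨆ M ∈ s, M := by rwa [sup_comm]
        obtain ⟨b, hb, m, hm, hxb⟩ := (mem_sup_norm fun t ht n hn => hEs t (hBE ht) n hn).1 hx2
        -- `b⁻¹ e = m l⁻¹`
        have hw : b⁻¹ * e = m * l⁻¹ := by
          have : e * l = b * m := by rw [← hxe, hxb]
          calc b⁻¹ * e = b⁻¹ * (e * l) * l⁻¹ := by group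
            _ = b⁻¹ * (b * m) * l⁻¹ := by rw [this]
            _ = m * l⁻¹ := by group
        have hwE : m * l⁻¹ ∈ E := by
          rw [← hw]
          exact mul_mem (inv_mem (hBE hb)) he.1
        have hml : ∀ a ∈ L, ∀ c ∈ ⨆ M ∈ s, M, a * c = c * a := fun a ha c hc =>
          hLs a ((le_sup_left : L ≤ _) ha) c hc
        have hlE : l⁻¹ ∈ E := by
          refine hEM L (Set.mem_insert L s) _ (inv_mem hl) ?_ fun a ha => ?_
          · have h1 := hE.2.2 _ hwE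
            rw [(show Commute m l⁻¹ from (hml _ (inv_mem hl) m hm).symm).mul_pow] at h1
            have h2 : l⁻¹ ^ p ∈ L ⊓ ⨆ M ∈ s, M := by
              refine ⟨L.pow_mem (L.inv_mem hl) p, ?_⟩
              rw [eq_inv_of_mul_eq_one_right h1]
              exact Subgroup.inv_mem _ (Subgroup.pow_mem _ hm p)
            rwa [hLLs, mem_bot] at h2
          · have h1 := hE.2.1 a ha _ hwE
            have h2 : m⁻¹ * (a * m * a⁻¹) = l⁻¹ * (a * l⁻¹ * a⁻¹)⁻¹ := by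
              rw [eq_mul_inv_iff_mul_eq]
              calc m⁻¹ * (a * m * a⁻¹) * (a * l⁻¹ * a⁻¹) = m⁻¹ * (a * (m * l⁻¹)) * a⁻¹ := by
                    group
                _ = m⁻¹ * (m * l⁻¹ * a) * a⁻¹ := by rw [h1]
                _ = l⁻¹ := by group
            have h3 : m⁻¹ * (a * m * a⁻¹) ∈ L ⊓ ⨆ M ∈ s, M := by
              refine ⟨?_, Subgroup.mul_mem _ (Subgroup.inv_mem _ hm) (hEs a ha m hm)⟩
              rw [h2]
              exact L.mul_mem (L.inv_mem hl) (L.inv_mem (hEL a ha _ (L.inv_mem hl)))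
            rw [h2, hLLs, mem_bot, mul_inv_eq_one, eq_mul_inv_iff_mul_eq] at h3
            exact h3.symm
        have hl' : l ∈ E := by
          have := inv_mem hlE
          rwa [inv_inv] at this
        have hmE : m ∈ E := by
          have := mul_mem hwE hl'
          rwa [inv_mul_cancel_right] at this
        have hlE1 : l ∈ E ⊓ Cen s := ⟨hl', hLCs hl⟩
        have hmB : m ∈ B := hB3 ⟨hmE, hsCL hm⟩
        have h4 : x ∈ (E ⊓ Cen s) ⊓ B := by
          refine ⟨?_, ?_⟩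
          · rw [hxe]; exact (E ⊓ Cen s).mul_mem he hlE1
          · rw [hxb]; exact B.mul_mem hb hmB
        rwa [hB2] at h4
      have hcen' : ∀ x ∈ L ⊔ (E ⊓ Cen s), (∀ y ∈ F₂, x * y = y * x) →
          x ∈ (L ⊔ (E ⊓ Cen s)) ⊓ centralizer (B : Set G) := by
        intro x hx hxF
        refine mem_inf.2 ⟨hx, ?_⟩
        rw [mem_centralizer_iff]
        intro b hb
        have h1 : (⨆ M ∈ s, M) ⊔ F₂ ≤ centralizer {x} := by
          refine sup_le (fun z hz => ?_) fun z hz => ?_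
          · rw [mem_centralizer_singleton_iff]
            exact (hLs x hx z hz).symm
          · rw [mem_centralizer_singleton_iff]
            exact (hxF z hz).symm
        rw [hF₂s] at h1
        exact mem_centralizer_singleton_iff.1 (h1 ((le_sup_right : B ≤ _) hb))
      have hHeq : (⨆ M ∈ insert L s, M) ⊔ E = (L ⊔ (E ⊓ Cen s)) ⊔ ((⨆ M ∈ s, M) ⊔ B) := by
        rw [iSup_insert]
        calc L ⊔ (⨆ M ∈ s, M) ⊔ E = L ⊔ (⨆ M ∈ s, M) ⊔ ((E ⊓ Cen s) ⊔ B) := by rw [hB1]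
          _ = (L ⊔ (E ⊓ Cen s)) ⊔ ((⨆ M ∈ s, M) ⊔ B) := by rw [sup_sup_sup_comm]
      obtain ⟨α, φ, hT⟩ := hT₁.join (N₁ := L ⊔ (E ⊓ Cen s)) (H := (⨆ M ∈ insert L s, M) ⊔ E)
        hT₂ inf_le_left hcen' hcom2 hdis hnorm hHeq
      refine ⟨F₁ ⊔ F₂, ?_, ?_, α, φ, hT⟩
      · intro M hM
        rcases Set.mem_insert_iff.1 hM with rfl | hM
        · obtain ⟨A', hA'm, hA'⟩ := hF₁A
          exact ⟨A', hA'm, hA'.trans le_sup_left⟩
        · obtain ⟨A', hA'm, hA'⟩ := hF₂A M hM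
          exact ⟨A', hA'm, hA'.trans le_sup_right⟩
      · rw [iSup_insert]
        calc L ⊔ (⨆ M ∈ s, M) ⊔ (F₁ ⊔ F₂) = (L ⊔ F₁) ⊔ ((⨆ M ∈ s, M) ⊔ F₂) := by
              rw [sup_sup_sup_comm]
          _ = (L ⊔ (E ⊓ Cen s)) ⊔ ((⨆ M ∈ s, M) ⊔ B) := by rw [hF₁L, hF₂s]
          _ = L ⊔ (⨆ M ∈ s, M) ⊔ ((E ⊓ Cen s) ⊔ B) := by rw [sup_sup_sup_comm]
          _ = L ⊔ (⨆ M ∈ s, M) ⊔ E := by rw [hB1]
  exact key D (Set.toFinite D) subset_rfl

/-- **Elimination** of a set `D` of commuting subgroups of `X` satisfying `LocG`. -/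
theorem top_stepG [hp : Fact p.Prime] [Finite G] {X : Subgroup G} {D : Set (Subgroup G)}
    (hDX : ∀ L ∈ D, L ≤ X) (hconj : ∀ g ∈ X, ∀ L ∈ D, K.cj g L ∈ D)
    (hcomm : ∀ L ∈ D, ∀ M ∈ D, L ≠ M → ∀ x ∈ L, ∀ y ∈ M, x * y = y * x)
    (hc : ∀ L ∈ D, L ⊓ centralizer (L : Set G) = ⊥) (hloc : ∀ L ∈ D, LocG 𝕜 p L)
    (hC : NA 𝕜 (Ain p (X ⊓ Cen D))) : NA 𝕜 (Ain p X) := by
  choose! 𝒜 h𝒜ne hAL hAW using hloc
  choose! A hAm using h𝒜ne
  have hAD : ⨆ L ∈ D, A L ≤ ⨆ L ∈ D, L := iSup₂_mono fun L hL => (hAL L hL _ (hAm L hL)).1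
  have hDX' : ⨆ L ∈ D, L ≤ X := iSup₂_le hDX
  have hcen : ∀ x ∈ ⨆ L ∈ D, L, ∀ y ∈ Cen D, x * y = y * x := by
    intro x hx y hy
    have h1 : ⨆ L ∈ D, L ≤ centralizer {y} := by
      refine iSup₂_le fun L hL z hz => ?_
      rw [mem_centralizer_singleton_iff]
      exact (mem_centralizer_iff.1 (mem_Cen.1 hy L hL)) z hz
    exact mem_centralizer_singleton_iff.1 (h1 hx)
  have hApB : (⨆ L ∈ D, A L) ∈ ApB p G := by
    refine fam_induction (P := fun B => B ∈ ApB p G) (Or.inl rfl) ?_ hcomm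
      (fun L hL => ⟨(hAL L hL _ (hAm L hL)).1, Or.inr (hAL L hL _ (hAm L hL)).2⟩)
    intro B B' h hB hB'
    rcases hB with hB | hB
    · rwa [hB, bot_sup_eq]
    · rcases hB' with hB' | hB'
      · rw [hB', sup_bot_eq]
        exact Or.inr hB
      · exact Or.inr (sup_mem_ApS hB hB' h)
  have hNdis : (⨆ L ∈ D, L) ⊓ (X ⊓ Cen D) = ⊥ := by
    rw [eq_bot_iff]
    intro x hx
    obtain ⟨h1, h2⟩ := mem_inf.1 hx
    exact mem_bot.2 (fam_centre hcomm hc h1 fun L hL => mem_Cen.1 (mem_inf.1 h2).2 L hL)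
  refine local_topG (C := X ⊓ Cen D) (N := ⨆ L ∈ D, L) (A := ⨆ L ∈ D, A L) inf_le_left hDX'
    (fun x hx y hy => hcen x hx y (mem_inf.1 hy).2) hNdis ?_ ?_
    (fun F => ∀ L ∈ D, ∃ A ∈ 𝒜 L, A ≤ F) (fun F F' hF hFF' L hL => by
      obtain ⟨A', hA', hA'F⟩ := hF L hL
      exact ⟨A', hA', hA'F.trans hFF'⟩) (hAD.trans hDX')
    (fun L hL => ⟨A L, hAm L hL, le_biSup A hL⟩) hApB ?_ ?_
    (fun E hE hEX hQE hEC hEM => ?_) hC
  · intro x hx n hn
    have h1 : (⨆ L ∈ D, L) ≤ (⨆ L ∈ D, L).comap (MulAut.conj x).toMonoidHom := by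
      refine iSup₂_le fun L hL y hy => ?_
      show x * y * x⁻¹ ∈ ⨆ L ∈ D, L
      refine (le_biSup (fun M : Subgroup G => M) (hconj x hx L hL)) ?_
      rw [K.mem_cj]
      have : x⁻¹ * (x * y * x⁻¹) * x = y := by group
      rwa [this]
    exact h1 hn
  · rintro x hx c ⟨hcX, hcD⟩
    refine mem_inf.2 ⟨X.mul_mem (X.mul_mem hx hcX) (X.inv_mem hx), ?_⟩
    rw [mem_Cen]
    intro L hL
    rw [mem_centralizer_iff]
    intro y hy
    have h1 := hconj x⁻¹ (inv_mem hx) L hL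
    have h2 : x⁻¹ * y * x ∈ K.cj x⁻¹ L := by
      rw [K.mem_cj]
      have : x⁻¹⁻¹ * (x⁻¹ * y * x) * x⁻¹ = y := by group
      rwa [this]
    have h3 := mem_centralizer_iff.1 (mem_Cen.1 hcD _ h1) _ h2
    calc y * (x * c * x⁻¹) = x * ((x⁻¹ * y * x) * c) * x⁻¹ := by group
      _ = x * (c * (x⁻¹ * y * x)) * x⁻¹ := by rw [h3]
      _ = x * c * x⁻¹ * y := by group
  · rw [eq_bot_iff, ← hNdis]
    exact inf_le_inf_right _ hAD
  · intro y hy
    rw [mem_centralizer_iff]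
    exact fun x hx => hcen x (hAD hx) y (mem_inf.1 hy).2
  · -- `E` normalizes the members of `D`
    have hEn : ∀ L ∈ D, E ≤ normalizer (L : Set G) := by
      intro L hL x hx
      rw [← cj_eq_iff]
      by_contra hne
      have h1 := hconj x (hEX hx) L hL
      obtain ⟨A', hA', hALE⟩ := hQE L hL
      have hEab : ∀ a ∈ E, ∀ b ∈ E, a * b = b * a := by
        rcases hE with h | h
        · intro a ha b hb
          rw [h, mem_bot] at ha hb
          rw [ha, hb]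
        · exact h.2.1
      apply (hAL L hL A' hA').2.1
      rw [eq_bot_iff, ← hc L hL]
      intro a ha
      refine mem_inf.2 ⟨(hAL L hL A' hA').1 ha, mem_centralizer_iff.2 fun y hy => ?_⟩
      have h2 : a ∈ K.cj x L := by
        rw [K.mem_cj]
        have : x⁻¹ * a * x = a := by
          rw [mul_assoc, hEab a (hALE ha) x hx, inv_mul_cancel_left]
        rw [this]
        exact (hAL L hL A' hA').1 ha
      exact hcomm L hL _ h1 (Ne.symm hne) y hy a h2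
    have hEC' : E ⊓ Cen D = ⊥ := by
      rw [eq_bot_iff, ← hEC]
      exact fun x hx => mem_inf.2 ⟨hx.1, mem_inf.2 ⟨hEX hx.1, hx.2⟩⟩
    obtain ⟨F, hFA, hFs, α, φ, hT⟩ := fam_topG hcomm hc hAL hAW E hE hEn hQE hEC'
      (fun L hL y hy => hEM y ((le_biSup (fun M : Subgroup G => M) hL) hy))
    exact ⟨F, α, φ, hFA, hFs, hT⟩

end

end Vale.Agent.P240.R2.H458
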