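import Vale.Agent.P240.R2.H458.G4
import Vale.Agent.P240.R2.H487.DQ2
import Vale.Agent.P240.R2.H979.AutT

/-!
Cycles with a nonzero slice: transport along isomorphisms, conjugates.
-/

set_option linter.all false

namespace Vale.Agent.P240.R2.H458

open Finsupp hiding cons
open Subgroup Vale.Agent.P240.K Vale.Agent.P240.H195 Vale.Agent.P240.R2.H487

universe u v

section
variable {𝕜 : Type v} [Field 𝕜] {α β : Type*}

lemma list_map_inj' {U : Set α} {f : α → β} (hf : Set.InjOn f U) :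
    ∀ (a b : List α), (∀ x ∈ a, x ∈ U) → (∀ x ∈ b, x ∈ U) → a.map f = b.map f → a = b := by
  intro a
  induction a with
  | nil =>
    intro b _ _ h
    rcases b with _ | ⟨y, b⟩
    · rfl
    · simp at h
  | cons x a ih =>
    intro b ha hb h
    rcases b with _ | ⟨y, b⟩
    · simp at h
    · rw [List.map_cons, List.map_cons, List.cons.injEq] at h
      rw [hf (ha x (by simp)) (hb y (by simp)) h.1,
        ih b (fun x hx => ha x (by simp [hx])) (fun x hx => hb x (by simp [hx])) h.2]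

/-- images under a map which is injective on a set -/
lemma cf_mp' {U : Set α} {f : α → β} (hf : Set.InjOn f U)
    {φ : List α} (hφ : ∀ x ∈ φ, x ∈ U) {c : Ch 𝕜 α}
    (hc : c ∈ Sp 𝕜 (fun l => ∀ a ∈ l, a ∈ U)) : cf (φ.map f) (mp f c) = mp f (cf φ c) := by
  refine eq_of_Sp (𝕜 := 𝕜) (P := fun l => ∀ a ∈ l, a ∈ U) (F := (cf (φ.map f)).comp (mp f))
    (G := (mp f).comp (cf φ)) (fun l hl => ?_) hc
  simp only [LinearMap.comp_apply, mp_single]
  by_cases h : ∃ l', l = l' ++ φ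
  · obtain ⟨l', rfl⟩ := h
    rw [List.map_append, r1_cf_append, r1_cf_append, mp_single]
  · push Not at h
    rw [r1_cf_zero _ _ _ h, map_zero]
    refine r1_cf_zero _ _ _ fun l' hl' => ?_
    have hlen := congrArg List.length hl'
    simp only [List.length_map, List.length_append] at hlen
    refine h (l.take l'.length) ?_
    have h1 : (l.drop l'.length).map f = φ.map f := by
      rw [List.map_drop, hl', List.drop_left']
      rfl
    have h2 : l.drop l'.length = φ :=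
      list_map_inj' hf _ _ (fun x hx => hl x (List.mem_of_mem_drop hx)) hφ h1
    conv_lhs => rw [← List.take_append_drop l'.length l, h2]

lemma mp_mp_id {f : α → β} {g : β → α} {U : Set α} (h : ∀ x ∈ U, g (f x) = x) {c : Ch 𝕜 α}
    (hc : c ∈ Sp 𝕜 (fun l => ∀ a ∈ l, a ∈ U)) : mp g (mp f c) = c := by
  refine eq_of_Sp (𝕜 := 𝕜) (P := fun l => ∀ a ∈ l, a ∈ U) (F := (mp g).comp (mp f))
    (G := LinearMap.id) (fun l hl => ?_) hc
  rw [LinearMap.comp_apply, mp_single, mp_single, LinearMap.id_apply, List.map_map]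
  congr 1
  conv_rhs => rw [← List.map_id l]
  exact List.map_congr_left fun a ha => h a (hl a ha)

end

section
variable {𝕜 : Type v} [Field 𝕜] {G : Type*} [Group G] {H : Type*} [Group H] {p : ℕ}

/-- **Transport** along an isomorphism of the lattices of subgroups. -/
theorem linkCycle_tr {M F : Subgroup H} {M' : Subgroup G} {f : Subgroup H → Subgroup G}
    {g : Subgroup G → Subgroup H} (hgf : ∀ K ≤ M, g (f K) = K) (hfg : ∀ K ≤ M', f (g K) = K)
    (hfm : ∀ A B, A ≤ M → B ≤ M → A ≤ B → f A ≤ f B)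
    (hgm : ∀ A B, A ≤ M' → B ≤ M' → A ≤ B → g A ≤ g B)
    (hfA : ∀ K ∈ Ain p M, f K ∈ Ain p M') (hgA : ∀ K ∈ Ain p M', g K ∈ Ain p M)
    (hb : f ⊥ = ⊥) (hc : ∀ K ≤ M, Nat.card (f K) = Nat.card K) (hfM : f F ≤ M')
    {α : Ch 𝕜 (Subgroup H)} {φ : List (Subgroup H)} (h : LinkCycle 𝕜 p M F α φ) (hFM : F ≤ M) :
    LinkCycle 𝕜 p M' (f F) (mp f α) (φ.map f) := by
  have hflt : ∀ {A B : Subgroup H}, A ≤ M → B ≤ M → A < B → f A < f B := by
    intro A B hA hB hAB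
    refine lt_of_le_of_ne (hfm A B hA hB hAB.le) fun h0 => hAB.ne ?_
    rw [← hgf A hA, ← hgf B hB, h0]
  have hglt : ∀ {A B : Subgroup G}, A ≤ M' → B ≤ M' → A < B → g A < g B := by
    intro A B hA hB hAB
    refine lt_of_le_of_ne (hgm A B hA hB hAB.le) fun h0 => hAB.ne ?_
    rw [← hfg A hA, ← hfg B hB, h0]
  have hinj : Set.InjOn f {K | K ≤ M} := by
    intro A hA B hB hAB
    rw [← hgf A hA, ← hgf B hB, hAB]
  have hφM : ∀ K ∈ φ, K ≤ M := fun K hK => (h.flag.2 K hK).2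
  have hαM : α ∈ Sp 𝕜 (fun l => ∀ a ∈ l, a ∈ {K : Subgroup H | K ≤ M}) :=
    Sp_mono (fun l hl a ha => (hl.2 a ha).2) h.mem
  refine ⟨?_, ?_, ?_, ?_, ?_⟩
  · refine mp_mem (fun m hm => ⟨?_, ?_⟩) h.mem
    · rw [List.pairwise_map]
      have h1 := hm.2
      refine hm.1.imp_of_mem ?_
      intro a b ha hb hab
      exact hflt (h1 b hb).2 (h1 a ha).2 hab
    · intro K hK
      obtain ⟨K', hK', rfl⟩ := List.mem_map.1 hK
      exact hfA K' (hm.2 K' hK')
  · rw [bd_mp, h.cyc, map_zero]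
  · rcases h.top with ⟨h1, h2⟩ | ⟨φ', h1⟩
    · exact Or.inl ⟨by rw [h1]; rfl, by rw [h2, hb]⟩
    · exact Or.inr ⟨φ'.map f, by rw [h1]; rfl⟩
  · rw [hc F hFM, List.length_map, h.card]
  · intro c hcm hcb
    rw [cf_mp' hinj hφM hαM] at hcb
    refine h.ne (mp g c) ?_ ?_
    · refine mp_mem (fun m hm => ⟨?_, ?_⟩) hcm
      · rw [List.pairwise_map]
        have h1 := hm.2
        refine hm.1.imp_of_mem ?_
        intro a b ha hb hab
        exact hglt (h1 b hb).1.2 (h1 a ha).1.2 hab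
      · intro K hK
        obtain ⟨K', hK', rfl⟩ := List.mem_map.1 hK
        have h1 := hm.2 K' hK'
        refine ⟨hgA K' h1.1, ?_⟩
        have h2 := hglt hfM h1.1.2 h1.2
        rwa [hgf F hFM] at h2
    · rw [bd_mp, hcb]
      refine mp_mp_id (U := {K : Subgroup H | K ≤ M}) (fun x hx => hgf x hx) ?_
      exact Sp_mono (fun l hl a ha => (hl.2 a ha).1.2) (cf_mem φ h.mem)

/-- images of subgroups under a homomorphism injective on `M` -/
theorem linkCycle_map {M F : Subgroup H} {f : H →* G} (hf : ∀ x ∈ M, f x = 1 → x = 1)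
    {α : Ch 𝕜 (Subgroup H)} {φ : List (Subgroup H)} (h : LinkCycle 𝕜 p M F α φ) (hFM : F ≤ M) :
    LinkCycle 𝕜 p (M.map f) (F.map f) (mp (Subgroup.map f) α) (φ.map (Subgroup.map f)) := by
  have hgf : ∀ K ≤ M, H979.pb f M (K.map f) = K := by
    intro K hK
    ext x
    rw [H979.mem_pb]
    constructor
    · rintro ⟨⟨y, hy, hyx⟩, hx⟩
      have h2 : f (y * x⁻¹) = 1 := by rw [map_mul, map_inv, hyx, mul_inv_cancel]
      have h3 := hf _ (mul_mem (hK hy) (inv_mem hx)) h2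
      rw [← mul_inv_eq_one.1 h3]
      exact hy
    · intro hx
      exact ⟨⟨x, hx, rfl⟩, hK hx⟩
  refine linkCycle_tr (g := H979.pb f M) hgf (fun K hK => H979.map_pb hK)
    (fun A B _ _ hAB => map_mono hAB) (fun A B _ _ hAB => inf_le_inf_right _ (comap_mono hAB))
    ?_ (fun K hK => ⟨H979.pb_ApS hf hK.1 hK.2, H979.pb_le⟩) (Subgroup.map_bot f)
    (fun K hK => H979.card_map_inj hf hK) (map_mono hFM) h hFM
  rintro K ⟨⟨h1, h2, h3⟩, h4⟩
  refine ⟨⟨fun h0 => h1 ?_, ?_, ?_⟩, map_mono h4⟩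
  · rw [← hgf K h4, h0, ← Subgroup.map_bot f, hgf ⊥ bot_le]
  · rintro _ ⟨x, hx, rfl⟩ _ ⟨y, hy, rfl⟩
    rw [← map_mul, h2 x hx y hy, map_mul]
  · rintro _ ⟨x, hx, rfl⟩
    rw [← map_pow, h3 x hx, map_one]

/-- **Pull-back** -/
theorem linkCycle_comap {M : Subgroup H} {F : Subgroup G} {f : H →* G}
    (hf : ∀ x ∈ M, f x = 1 → x = 1) {α : Ch 𝕜 (Subgroup G)} {φ : List (Subgroup G)}
    (h : LinkCycle 𝕜 p (M.map f) F α φ) (hFM : F ≤ M.map f) :
    LinkCycle 𝕜 p M (H979.pb f M F) (mp (H979.pb f M) α) (φ.map (H979.pb f M)) := by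
  have hgf : ∀ K ≤ M, H979.pb f M (K.map f) = K := by
    intro K hK
    ext x
    rw [H979.mem_pb]
    constructor
    · rintro ⟨⟨y, hy, hyx⟩, hx⟩
      have h2 : f (y * x⁻¹) = 1 := by rw [map_mul, map_inv, hyx, mul_inv_cancel]
      have h3 := hf _ (mul_mem (hK hy) (inv_mem hx)) h2
      rw [← mul_inv_eq_one.1 h3]
      exact hy
    · intro hx
      exact ⟨⟨x, hx, rfl⟩, hK hx⟩
  refine linkCycle_tr (g := Subgroup.map f) (fun K hK => H979.map_pb hK) hgf
    (fun A B _ _ hAB => inf_le_inf_right _ (comap_mono hAB)) (fun A B _ _ hAB => map_mono hAB)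
    (fun K hK => ⟨H979.pb_ApS hf hK.1 hK.2, H979.pb_le⟩) ?_ ?_ ?_ H979.pb_le h hFM
  · rintro K ⟨⟨h1, h2, h3⟩, h4⟩
    refine ⟨⟨fun h0 => h1 ?_, ?_, ?_⟩, map_mono h4⟩
    · rw [← hgf K h4, h0, ← Subgroup.map_bot f, hgf ⊥ bot_le]
    · rintro _ ⟨x, hx, rfl⟩ _ ⟨y, hy, rfl⟩
      rw [← map_mul, h2 x hx y hy, map_mul]
    · rintro _ ⟨x, hx, rfl⟩
      rw [← map_pow, h3 x hx, map_one]
  · conv_lhs => rw [← Subgroup.map_bot f]
    exact hgf ⊥ bot_le
  · intro K hK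
    rw [← H979.card_map_inj hf (A := H979.pb f M K) H979.pb_le, H979.map_pb hK]

/-- top cycles pull back along homomorphisms defined on `N` -/
theorem linkCycle_up {G : Type u} [Group G] {Q : Type*} [Group Q] {N : Subgroup G} {π : N →* Q}
    {M : Subgroup G} {E : Subgroup Q} (hMN : M ≤ N) (h : H979.InjOn π M)
    {α : Ch 𝕜 (Subgroup Q)} {φ : List (Subgroup Q)}
    (hT : LinkCycle 𝕜 p (H979.im π M) E α φ) (hE : E ≤ H979.im π M) :
    ∃ (α' : Ch 𝕜 (Subgroup G)) (φ' : List (Subgroup G)),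
      LinkCycle 𝕜 p M (H979.up π M E) α' φ' := by
  have h1 := linkCycle_comap (𝕜 := 𝕜) (p := p) (M := M.subgroupOf N) (f := π)
    (fun x hx hx1 => Subtype.ext (h x x.2 hx hx1)) hT hE
  have h2 := linkCycle_map (f := N.subtype) (fun x _ hx => Subtype.ext hx) h1 H979.pb_le
  rw [subgroupOf_map_subtype, inf_eq_left.2 hMN] at h2
  exact ⟨_, _, h2⟩

/-- top cycles with nothing above the flag -/
theorem linkCycle_of_top {G : Type u} [Group G] {M F : Subgroup G} {α : Ch 𝕜 (Subgroup G)}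
    {φ : List (Subgroup G)} (h : TopCycle 𝕜 p M F α φ)
    (hmax : ∀ T ∈ Ain p M, F < T → False) : LinkCycle 𝕜 p M F α φ := by
  refine ⟨Sp_mono (fun l hl => hl.1) h.mem, h.cyc, h.top, h.card, fun c hc hcb => ?_⟩
  have h1 : bd c = 0 := by
    have h2 : c ∈ Sp 𝕜 (fun l : List (Subgroup G) => l = []) := by
      refine Sp_mono (fun l hl => ?_) hc
      rcases l with _ | ⟨a, l⟩
      · rfl
      · have h3 := hl.2 a (by simp)
        exact absurd h3.2 fun h4 => hmax a h3.1 h4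
    have h3 := eq_of_Sp (𝕜 := 𝕜) (P := fun l : List (Subgroup G) => l = []) (F := bd) (G := 0)
      (fun l hl => by
        have : l = [] := hl
        subst this
        rw [bd_single_nil, LinearMap.zero_apply]) h2
    rw [h3, LinearMap.zero_apply]
  have h2 : cf φ α [] = 0 := by rw [← hcb, h1]; rfl
  rw [cf_apply, List.nil_append] at h2
  exact h.ne h2

end

section
variable {G : Type u} [Group G]

lemma linkCycle_cj {𝕜 : Type v} [Field 𝕜] {p : ℕ} {M E : Subgroup G} {α : Ch 𝕜 (Subgroup G)}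
    {φ : List (Subgroup G)} (h : LinkCycle 𝕜 p M E α φ) (hEM : E ≤ M) (y : G) :
    ∃ (α' : Ch 𝕜 (Subgroup G)) (φ' : List (Subgroup G)),
      LinkCycle 𝕜 p (H487.cj y M) (H487.cj y E) α' φ' :=
  ⟨_, _, linkCycle_map (f := (MulAut.conj y).toMonoidHom) (fun x _ hx =>
    (MulAut.conj y).injective (by rw [map_one]; exact hx)) h hEM⟩

lemma mem_cj' {y x : G} {L : Subgroup G} : x ∈ H487.cj y L ↔ y⁻¹ * x * y ∈ L := by
  constructor
  · rintro ⟨z, hz, rfl⟩
    have : y⁻¹ * (y * z * y⁻¹) * y = z := by group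
    show y⁻¹ * (y * z * y⁻¹) * y ∈ L
    rw [this]
    exact hz
  · intro h
    refine ⟨_, h, ?_⟩
    show y * (y⁻¹ * x * y) * y⁻¹ = x
    group

theorem LocG.cj [Finite G] {𝕜 : Type v} [Field 𝕜] {p : ℕ} {L : Subgroup G}
    (h : LocG 𝕜 p L) (g : G) : LocG 𝕜 p (K.cj g L) := by
  obtain ⟨𝒜, ⟨A₀, hA₀⟩, h𝒜, hmain⟩ := h
  rw [kcj_eq]
  refine ⟨{A | ∃ B ∈ 𝒜, A = H487.cj g B}, ⟨H487.cj g A₀, A₀, hA₀, rfl⟩, ?_, ?_⟩
  · rintro _ ⟨A, hA, rfl⟩
    exact ⟨cj_mono (h𝒜 A hA).1, cj_ApS (h𝒜 A hA).2⟩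
  · rintro E hE hEN hEmax E₁ hE₁ ⟨_, ⟨A, hA, rfl⟩, hAE⟩ hEL hEC
    have hEC' : H487.cj g⁻¹ E₁ ⊓ centralizer (L : Set G) = ⊥ := by
      rw [← cj_bot g⁻¹, ← hEC, (H487.cj g⁻¹).map_inf, cj_centralizer, cj_inv]
    have hEN' : H487.cj g⁻¹ E ≤ normalizer (L : Set G) := by
      have h1 := cj_normalizer_le (y := g⁻¹) hEN
      rwa [cj_inv] at h1
    have hAE' : A ≤ H487.cj g⁻¹ E₁ := by
      have h1 := cj_mono (y := g⁻¹) hAE
      rwa [cj_inv] at h1
    have hEmax' : ∀ y ∈ L, y ^ p = 1 → (∀ e ∈ H487.cj g⁻¹ E, e * y = y * e) →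
        y ∈ H487.cj g⁻¹ E := by
      intro y hy hyp hyE
      rw [mem_cj', inv_inv]
      refine hEmax _ ?_ ?_ ?_
      · rw [mem_cj']
        have : g⁻¹ * (g * y * g⁻¹) * g = y := by group
        rw [this]
        exact hy
      · rw [conj_pow, hyp, mul_one, mul_inv_cancel]
      · intro e he
        have h1 : g⁻¹ * e * g ∈ H487.cj g⁻¹ E := by
          rw [mem_cj', inv_inv]
          have : g * (g⁻¹ * e * g) * g⁻¹ = e := by group
          rw [this]
          exact he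
        have h2 := hyE _ h1
        calc e * (g * y * g⁻¹) = g * ((g⁻¹ * e * g) * y) * g⁻¹ := by group
          _ = g * (y * (g⁻¹ * e * g)) * g⁻¹ := by rw [h2]
          _ = g * y * g⁻¹ * e := by group
    have hEL' : H487.cj g⁻¹ E ⊓ L ≤ H487.cj g⁻¹ E₁ := by
      have h1 := cj_mono (y := g⁻¹) hEL
      rwa [(H487.cj g⁻¹).map_inf, cj_inv] at h1
    obtain ⟨B, hBE, hB1, hB2, hB3, E', hE', hE'S, ⟨A', hA', hA'E⟩, hE'L, α, φ, hT⟩ :=
      hmain (H487.cj g⁻¹ E) (cj_ApS hE) hEN' hEmax' (H487.cj g⁻¹ E₁) (cj_mono hE₁) ⟨A, hA, hAE'⟩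
        hEL' hEC'
    have hM : H487.cj g ((L ⊔ H487.cj g⁻¹ E₁) ⊓ centralizer (B : Set G)) =
        (H487.cj g L ⊔ E₁) ⊓ centralizer ((H487.cj g B : Subgroup G) : Set G) := by
      rw [(H487.cj g).map_inf, (H487.cj g).map_sup, cj_inv', cj_centralizer]
    refine ⟨H487.cj g B, ?_, ?_, ?_, ?_, H487.cj g E', ?_, cj_ApS hE'S,
      ⟨H487.cj g A', ⟨A', hA', rfl⟩, cj_mono hA'E⟩, ?_, ?_⟩
    · rw [← cj_inv' g E]
      exact cj_mono hBE
    · rw [← cj_inv' g E, ← hB1, (H487.cj g).map_sup, cj_inv']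
    · rw [← cj_bot g, ← hB2, (H487.cj g).map_inf, cj_inv']
    · have h1 := cj_mono (y := g) hB3
      rwa [(H487.cj g).map_inf, cj_inv', cj_centralizer] at h1
    · rw [← hM]
      exact cj_mono hE'
    · rw [← (H487.cj g).map_sup, hE'L, (H487.cj g).map_sup, cj_inv']
    · rw [← hM]
      exact linkCycle_cj hT hE' g

lemma locG_cj_iff [Finite G] {𝕜 : Type v} [Field 𝕜] {p : ℕ} {L : Subgroup G} {g : G} :
    LocG 𝕜 p (K.cj g L) ↔ LocG 𝕜 p L := by
  refine ⟨fun h => ?_, fun h => h.cj g⟩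
  have h1 := h.cj g⁻¹
  rwa [cj_inv_cj] at h1

end

end Vale.Agent.P240.R2.H458
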