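import Vale.Agent.P240.R2.H458.PD
import Vale.Agent.P240.R2.H406.S4

/-!
Block P4d: frames, traces, elements commuting with products of one or two reflections of a frame.
-/

set_option autoImplicit false
set_option linter.all false

namespace Vale.Agent.P240.R2.H458

open Matrix Vale.Agent.P240.K
open Subgroup hiding closure
open Vale.Agent.P240.R2.H145.EO (B ac OD rf rf_mem B_comm B_add_left B_add_right B_smul_left
  B_smul_right B_sub_left B_sub_right)
open Vale.Agent.P240.R2.H401.D (POD SD0)
open Vale.Agent.P240.R2.H406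
open Vale.Agent.P240.R2.H490 (ip VR)

universe u v w

noncomputable section

/-- the space -/
abbrev V6 : Type := Fin 6 → ZMod 5

lemma five0 {c : ZMod 5} (h : 2 * c = 0) : c = 0 := by
  revert c
  decide

lemma coe_mul' (g h : ↥(OD a1)) : (g * h).1.1 = g.1.1 * h.1.1 := rfl

lemma sgu_act (x : V6) : act (sg a1 Finset.univ) x = -x := by
  rw [act_sg]
  funext k
  simp

lemma sgu_mat : (sg a1 Finset.univ).1.1 = -(1 : Matrix (Fin 6) (Fin 6) (ZMod 5)) := by
  rw [sg_coe]
  ext i j
  by_cases h : i = j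
  · subst h
    simp
  · rw [diagonal_apply_ne _ h, neg_apply, one_apply_ne h, neg_zero]

/-- **Traces.** -/
lemma comm_of_tr (hK : StmtKer6) {g s : ↥(OD a1)} (ht : s.1.1.trace ≠ 0)
    (h : Phi a1 g * Phi a1 s = Phi a1 s * Phi a1 g) : g * s = s * g := by
  have h1 : Phi a1 (g * s * g⁻¹ * s⁻¹) = 1 := by
    rw [map_mul, map_mul, map_mul, map_inv, map_inv, h, mul_inv_cancel_right, mul_inv_cancel]
  rcases (hK _).1 h1 with h2 | h2
  · rw [mul_inv_eq_one, mul_inv_eq_iff_eq_mul] at h2
    exact h2
  · exfalso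
    apply ht
    rw [mul_inv_eq_iff_eq_mul] at h2
    have h3 := congrArg (fun x : ↥(OD a1) => x.1.1.trace) h2
    simp only [coe_mul', sgu_mat] at h3
    rw [Matrix.trace_mul_comm, ← Matrix.mul_assoc, neg_mul, one_mul, Matrix.trace_neg] at h3
    have h4 : (g⁻¹).1.1 * g.1.1 = (1 : Matrix (Fin 6) (Fin 6) (ZMod 5)) := by
      rw [← coe_mul', inv_mul_cancel]
      rfl
    rw [h4, one_mul] at h3
    apply five0
    rw [two_mul]
    nth_rw 1 [h3]
    exact neg_add_cancel _

lemma act_eq (g : ↥(OD a1)) (x : V6) : act g x = g.1.1 *ᵥ x := rfl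

lemma rfl'_mat {v : V6} (hv : B a1 v v ≠ 0) :
    (rfl' a1 v).1.1 = 1 - (2 / B a1 v v) • vecMulVec v v := by
  apply Matrix.ext_of_mulVec_single
  intro i
  rw [← act_eq, act_rfl' hv, sub_mulVec, one_mulVec, smul_mulVec, vecMulVec_mulVec]
  congr 1
  have h : v ⬝ᵥ Pi.single i 1 = B a1 v (Pi.single i 1) := by
    unfold B dotProduct
    exact Finset.sum_congr rfl fun j _ => by rw [one_mul]
  rw [h, op_smul_eq_smul, smul_smul]
  congr 1
  ring

lemma tr_vmv (v u : V6) : (vecMulVec v u).trace = B a1 v u := by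
  unfold B
  rw [Matrix.trace]
  exact Finset.sum_congr rfl fun j _ => by rw [diag_apply, vecMulVec_apply, one_mul]

lemma tr_one {v : V6} (hv : B a1 v v ≠ 0) : (rfl' a1 v).1.1.trace = 4 := by
  rw [rfl'_mat hv, trace_sub, trace_one, trace_smul, tr_vmv, smul_eq_mul, div_mul_cancel₀ _ hv]
  decide

lemma tr_two {v u : V6} (hv : B a1 v v ≠ 0) (hu : B a1 u u ≠ 0) (h : B a1 v u = 0) :
    (rfl' a1 v * rfl' a1 u).1.1.trace = 2 := by
  rw [coe_mul', rfl'_mat hv, rfl'_mat hu, sub_mul, one_mul, mul_sub, mul_one,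
    smul_mul_smul_comm, vecMulVec_mul_vecMulVec]
  have h1 : v ⬝ᵥ u = 0 := by
    rw [← h]
    unfold B dotProduct
    exact Finset.sum_congr rfl fun j _ => by rw [one_mul]
  have h2 : vecMulVec v ((v ⬝ᵥ u) • u) = 0 := by
    rw [h1, zero_smul, vecMulVec_zero]
  rw [h2, smul_zero, sub_zero, trace_sub, trace_sub, trace_one, trace_smul, trace_smul, tr_vmv,
    tr_vmv, smul_eq_mul, smul_eq_mul, div_mul_cancel₀ _ hv, div_mul_cancel₀ _ hu]
  decide

/-! ### frames -/

/-- orthogonal bases -/
structure Fr (w : Fin 6 → V6) (d : Fin 6 → ZMod 5) : Prop where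
  ne : ∀ i, d i ≠ 0
  eq : ∀ i j, B a1 (w i) (w j) = if i = j then d i else 0

section
variable {w : Fin 6 → V6} {d : Fin 6 → ZMod 5} (hw : Fr w d)
include hw

lemma Fr.self (i : Fin 6) : B a1 (w i) (w i) = d i := by rw [hw.eq, if_pos rfl]

lemma Fr.ne' (i : Fin 6) : B a1 (w i) (w i) ≠ 0 := by rw [hw.self]; exact hw.ne i

lemma Fr.orth {i j : Fin 6} (h : i ≠ j) : B a1 (w i) (w j) = 0 := by rw [hw.eq, if_neg h]

/-- the vectors of a frame span -/
lemma Fr.zero {x : V6} (h : ∀ j, B a1 x (w j) = 0) : x = 0 := by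
  have hli : LinearIndependent (ZMod 5) w :=
    H490.linInd (d := a1) w (fun i => hw.ne' i) fun i j hij => hw.orth hij
  have hsp := hli.span_eq_top_of_card_eq_finrank' (by
    rw [Module.finrank_fintype_fun_eq_card])
  refine H490.ip_ext (d := a1) (fun _ => one_ne_zero) fun z => ?_
  rw [H490.ip_zero_left]
  have hz : z ∈ Submodule.span (ZMod 5) (Set.range w) := by
    rw [hsp]
    trivial
  induction hz using Submodule.span_induction with
  | mem z hz =>
    obtain ⟨i, rfl⟩ := hz
    exact h i
  | zero => exact H490.ip_zero_right a1 x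
  | add a b _ _ ha hb => rw [H490.ip_add_right, ha, hb, add_zero]
  | smul c a _ ha => rw [H490.ip_smul_right, ha, mul_zero]

lemma Fr.ext {x y : V6} (h : ∀ j, B a1 x (w j) = B a1 y (w j)) : x = y := by
  rw [← sub_eq_zero]
  refine hw.zero fun j => ?_
  rw [B_sub_left, h, sub_self]

lemma Fr.act_ext {g h : ↥(OD a1)} (H : ∀ i, act g (w i) = act h (w i)) : g = h := by
  refine H406.act_ext fun x => ?_
  rw [← sub_eq_zero]
  have h1 : act (h⁻¹ * g) x = x := by
    refine hw.ext fun j => ?_
    have h2 : act (h⁻¹ * g) (w j) = w j := by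
      rw [act_mul, H j, act_inv]
    conv_lhs => rw [← h2]
    exact act_B _ _ _
  rw [act_mul] at h1
  rw [sub_eq_zero, ← act_inv' h (act g x), h1]

/-- reflections in the vectors of a frame -/
lemma Fr.act_r (i k : Fin 6) : act (rfl' a1 (w i)) (w k) = (if k = i then -1 else 1 : ZMod 5) • w k := by
  rw [act_rfl' (hw.ne' i)]
  by_cases h : k = i
  · subst h
    rw [if_pos rfl, mul_div_assoc, div_self (hw.ne' k), mul_one, neg_one_smul, two_smul]
    abel
  · rw [if_neg h, hw.orth fun h' => h h'.symm, mul_zero, zero_div, zero_smul, sub_zero, one_smul]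

end

/-- one or two reflections of a frame -/
def pr2 (w : Fin 6 → V6) (i j : Fin 6) : ↥(OD a1) :=
  if i = j then rfl' a1 (w i) else rfl' a1 (w i) * rfl' a1 (w j)

section
variable {w : Fin 6 → V6} {d : Fin 6 → ZMod 5} (hw : Fr w d)
include hw

lemma Fr.act_pr2 (i j k : Fin 6) :
    act (pr2 w i j) (w k) = (if k = i ∨ k = j then -1 else 1 : ZMod 5) • w k := by
  rw [pr2]
  by_cases hij : i = j
  · subst hij
    rw [if_pos rfl, hw.act_r]
    simp
  · rw [if_neg hij, act_mul, hw.act_r, act_smul, hw.act_r, smul_smul]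
    congr 1
    by_cases h1 : k = i
    · subst h1
      simp [hij]
    · by_cases h2 : k = j
      · subst h2
        simp [h1]
      · simp [h1, h2]

lemma Fr.tr_pr2 (i j : Fin 6) : (pr2 w i j).1.1.trace ≠ 0 := by
  rw [pr2]
  split_ifs with h
  · rw [tr_one (hw.ne' i)]
    decide
  · rw [tr_two (hw.ne' i) (hw.ne' j) (hw.orth h)]
    decide

omit hw in
lemma B_zero_of_comm {g s : ↥(OD a1)} (h : g * s = s * g) {x y : V6} {α β : ZMod 5}
    (hx : act s x = α • x) (hy : act s y = β • y) (hαβ : α * β ≠ 1) : B a1 (act g x) y = 0 := by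
  have h1 : B a1 (act g x) y = α * β * B a1 (act g x) y := by
    conv_lhs => rw [← act_B s, ← act_mul, ← h, act_mul, hx, hy, act_smul, B_smul_left, B_smul_right]
    ring
  have h2 : (α * β - 1) * B a1 (act g x) y = 0 := by
    rw [sub_mul, ← h1, one_mul, sub_self]
  exact (mul_eq_zero.1 h2).resolve_left (sub_ne_zero.2 hαβ)

/-- diagonal isometries -/
def Dg (w : Fin 6 → V6) (g : ↥(OD a1)) : Prop := ∀ i, act g (w i) = w i ∨ act g (w i) = -w i

lemma Fr.dg_of {g : ↥(OD a1)} (h : ∀ i j, i ≠ j → B a1 (act g (w i)) (w j) = 0) : Dg w g := by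
  intro i
  set c := B a1 (act g (w i)) (w i) / d i with hc
  have h1 : act g (w i) = c • w i := by
    refine hw.ext fun j => ?_
    by_cases hij : i = j
    · subst hij
      rw [B_smul_left, hw.self, hc, div_mul_cancel₀ _ (hw.ne i)]
    · rw [h i j hij, B_smul_left, hw.orth hij, mul_zero]
  have h2 : c * c = 1 := by
    have h3 : B a1 (act g (w i)) (act g (w i)) = d i := by rw [act_B, hw.self]
    rw [h1, B_smul_left, B_smul_right, hw.self, ← mul_assoc] at h3
    exact mul_right_cancel₀ (hw.ne i) (by rw [h3, one_mul])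
  rcases mul_self_eq_one_iff.1 h2 with h3 | h3
  · left
    rw [h1, h3, one_smul]
  · right
    rw [h1, h3, neg_one_smul]

/-- **Elements commuting with separating products.** -/
lemma Fr.dg_of_comm (hK : StmtKer6) (T : Finset (Fin 6 × Fin 6))
    (hT : ∀ i j : Fin 6, i ≠ j → ∃ p ∈ T, ¬ ((i = p.1 ∨ i = p.2) ↔ (j = p.1 ∨ j = p.2)))
    {g : ↥(OD a1)}
    (h : ∀ p ∈ T, Phi a1 g * Phi a1 (pr2 w p.1 p.2) = Phi a1 (pr2 w p.1 p.2) * Phi a1 g) :
    Dg w g := by
  refine hw.dg_of fun i j hij => ?_
  obtain ⟨p, hp, hpq⟩ := hT i j hij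
  refine B_zero_of_comm (comm_of_tr hK (hw.tr_pr2 _ _) (h p hp)) (hw.act_pr2 _ _ i)
    (hw.act_pr2 _ _ j) ?_
  by_cases h1 : i = p.1 ∨ i = p.2 <;> by_cases h2 : j = p.1 ∨ j = p.2 <;>
    simp only [h1, h2, if_true, if_false, iff_self, not_true_eq_false, iff_false, iff_true] at hpq ⊢ <;>
    decide

omit hw in
lemma neg_ne {i : Fin 6} (hw : Fr w d) : -w i ≠ w i := by
  intro h
  have h1 : B a1 (w i) (w i) = 0 := by
    have h2 : B a1 (-w i) (w i) = B a1 (w i) (w i) := by rw [h]
    rw [H145.EO.B_neg_left] at h2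
    apply five0
    rw [two_mul]
    nth_rw 1 [← h2]
    exact neg_add_cancel _
  exact hw.ne' i h1

/-- diagonal isometries are products of reflections -/
lemma Fr.dg_mem {g : ↥(OD a1)} (hg : Dg w g) :
    g ∈ Subgroup.closure (Set.range fun i => rfl' a1 (w i)) := by
  have key : ∀ m : ℕ, ∀ g : ↥(OD a1), Dg w g → (∀ i : Fin 6, m ≤ i.val → act g (w i) = w i) →
      g ∈ Subgroup.closure (Set.range fun i => rfl' a1 (w i)) := by
    intro m
    induction m with
    | zero =>
      intro g hg h
      have h1 : g = 1 := hw.act_ext fun i => by rw [h i (Nat.zero_le _), act_one]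
      rw [h1]
      exact one_mem _
    | succ m ih =>
      intro g hg h
      by_cases hm : m < 6
      · rcases hg ⟨m, hm⟩ with h1 | h1
        · refine ih g hg fun i hi => ?_
          rcases Nat.eq_or_lt_of_le hi with h2 | h2
          · have : i = ⟨m, hm⟩ := Fin.ext h2.symm
            rw [this, h1]
          · exact h i h2
        · have h3 : rfl' a1 (w ⟨m, hm⟩) * g ∈ Subgroup.closure (Set.range fun i => rfl' a1 (w i)) := by
            refine ih _ (fun i => ?_) fun i hi => ?_
            · rw [act_mul]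
              rcases hg i with h2 | h2
              · rw [h2, hw.act_r]
                split_ifs
                · right; rw [neg_one_smul]
                · left; rw [one_smul]
              · rw [h2, ← neg_one_smul (ZMod 5) (w i), act_smul, hw.act_r, smul_smul]
                split_ifs
                · left; rw [neg_mul_neg, one_mul, one_smul]
                · right; rw [mul_one, neg_one_smul]
            · rw [act_mul]
              rcases Nat.eq_or_lt_of_le hi with h2 | h2
              · have h4 : i = ⟨m, hm⟩ := Fin.ext h2.symm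
                rw [h4, h1, ← neg_one_smul (ZMod 5) (w ⟨m, hm⟩), act_smul, hw.act_r, if_pos rfl,
                  smul_smul, neg_mul_neg, one_mul, one_smul]
              · have h4 : i ≠ ⟨m, hm⟩ := by
                  rintro rfl
                  exact absurd h2 (by simp)
                rw [h i h2, hw.act_r, if_neg h4, one_smul]
          have h4 : rfl' a1 (w ⟨m, hm⟩) ∈ Subgroup.closure (Set.range fun i => rfl' a1 (w i)) :=
            Subgroup.subset_closure ⟨_, rfl⟩
          have h5 := mul_mem h4 h3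
          rwa [← mul_assoc, rfl'_mul_self, one_mul] at h5
      · exact ih g hg fun i hi => by have := i.2; omega
  exact key 6 g hg fun i hi => by have := i.2; omega

end

end

end Vale.Agent.P240.R2.H458
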