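import Vale.Agent.P240.R2.H458.P9

/-!
Block P4d: the five cycles.
-/

set_option autoImplicit false
set_option linter.all false

namespace Vale.Agent.P240.R2.H458

open Matrix Vale.Agent.P240.K
open Subgroup hiding closure
open Vale.Agent.P240.R2.H145.EO (B OD)
open Vale.Agent.P240.R2.H406

universe u v w

noncomputable section

lemma Fr.dg_sq {w : Fin 6 → V6} {d : Fin 6 → ZMod 5} (hw : Fr w d) {g : ↥(OD a1)} (hg : Dg w g) :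
    g * g = 1 := by
  refine hw.act_ext fun i => ?_
  rw [H406.act_mul]
  have h0 : act (1 : ↥(OD a1)) (w i) = w i := H406.act_one _
  rw [h0]
  rcases hg i with h | h
  · rw [h, h]
  · rw [h, ← neg_one_smul (ZMod 5) (w i), act_smul, h, neg_one_smul, neg_neg]

lemma sec_dg {w : Fin 6 → V6} {d : Fin 6 → ZMod 5} (hw : Fr w d) (h2 : w 2 = ee 2)
    (h4 : w 4 = ee 4 + ee 5) (q : Q4) : Dg w (sec q) := by
  rw [sec]
  refine (DgS w).mul_mem ?_ ?_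
  · split_ifs
    · rw [← h2]; exact hw.r_dg 2
    · exact dg_one _
  · split_ifs
    · rw [← h4]; exact hw.r_dg 4
    · exact dg_one _

lemma A0_ne (hK : StmtKer6) : A0 ≠ ⊥ := (A0_ApS hK).1

lemma fam_ne (hK : StmtKer6) {A : Subgroup (MulAut (Lam a1))} (h : A ∈ fam) : A ≠ ⊥ := by
  obtain ⟨t, rfl⟩ := h
  exact (H487.cj_ApS (y := t) (A0_ApS hK)).1

/-- a cycle from a case -/
lemma Cs.cy {χ : ↥(OD a1) →* Q4} {Q : Subgroup Q4} {n : ℕ} {w : Fin 6 → V6} {d : Fin 6 → ZMod 5}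
    {κ μ : Fin n → Fin 6} {ρ₁ ρ₂ : ↥(OD a1)} (h : Cs χ Q w d κ μ ∅ ρ₁ ρ₂) (𝕜 : Type v) [Field 𝕜]
    (hK : StmtKer6) (hV : StmtVR) (hχ : Chi χ) (h1 : ∃ i, IsSquare (d (κ i)))
    (h2 : ∃ i, ¬ IsSquare (d (κ i))) {Bm : Subgroup (MulAut (Lam a1))}
    (hB : Bm ≤ Subgroup.closure {Phi a1 ρ₁, Phi a1 ρ₂})
    (hA : ∃ A ∈ fam, A ≤ FV w κ ρ₁ ρ₂) (hQ : ∀ q ∈ Q, ∃ g : ↥(OD a1), Dg w g ∧ χ g = q) :
    Cy 𝕜 χ Q Bm := by
  have hc : ∀ x, RV w κ ρ₁ ρ₂ x ∈ centralizer (Bm : Set (MulAut (Lam a1))) := by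
    intro x
    have h3 : Subgroup.closure {Phi a1 ρ₁, Phi a1 ρ₂} ≤ centralizer {RV w κ ρ₁ ρ₂ x} := by
      rw [Subgroup.closure_le]
      rintro _ (rfl | rfl)
      · rw [SetLike.mem_coe, mem_centralizer_singleton_iff]
        exact (h.rho_comm x (Or.inl rfl)).symm
      · rw [SetLike.mem_coe, mem_centralizer_singleton_iff]
        exact (h.rho_comm x (Or.inr rfl)).symm
    rw [mem_centralizer_iff]
    intro b hb
    have h4 := h3 (hB hb)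
    rw [mem_centralizer_singleton_iff] at h4
    exact h4
  have hF : FV w κ ρ₁ ρ₂ ≤ MQ χ Q ⊓ centralizer (Bm : Set (MulAut (Lam a1))) := by
    refine le_inf (h.FV_le hχ) ?_
    rw [FV, Subgroup.closure_le]
    rintro _ ⟨i, rfl⟩
    exact hc _
  have hD : FV w κ ρ₁ ρ₂ ≤ (DgS w).map (Phi a1) := by
    rw [FV, Subgroup.closure_le]
    rintro _ ⟨i, rfl⟩
    exact ⟨pr2 w (κ i) (μ i), h.fr.pr2_dg _ _, (h.RV_single i).symm⟩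
  refine ⟨FV w κ ρ₁ ρ₂, hF, ⟨?_, h.FV_abel, fun x hx => ?_⟩, hA, ?_, ?_⟩
  · obtain ⟨A, hA1, hA2⟩ := hA
    intro h3
    rw [h3, le_bot_iff] at hA2
    exact fam_ne hK hA1 hA2
  · obtain ⟨g, hg, rfl⟩ := hD hx
    rw [pow_two, ← map_mul, h.fr.dg_sq hg, map_one]
  · refine sup_eq hχ (h.FV_le hχ) fun q hq => ?_
    obtain ⟨g, hg1, hg2⟩ := hQ q hq
    exact ⟨g, h.dg_FV hχ hg1 (by rw [hg2]; exact hq), hg2⟩
  · exact h.lc 𝕜 hK hV hχ rfl h1 h2 (fun x hx => ⟨h.RV_mem hχ hx, hc x⟩) inf_le_left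

/-- the group `A` in the group of a frame with `e_0, e_1, e_2` -/
lemma Cs.A0_le {χ : ↥(OD a1) →* Q4} {Q : Subgroup Q4} {n : ℕ} {w : Fin 6 → V6} {d : Fin 6 → ZMod 5}
    {κ μ : Fin n → Fin 6} {T₀ : Finset (Fin 6 × Fin 6)} {ρ₁ ρ₂ : ↥(OD a1)}
    (h : Cs χ Q w d κ μ T₀ ρ₁ ρ₂) (hχ : Chi χ)
    (hw3 : ∀ i : Fin 6, i.val < 3 → w i = ee i) : A0 ≤ FV w κ ρ₁ ρ₂ := by
  rw [A0, Subgroup.closure_le]
  rintro _ (rfl | rfl)
  · exact h.dg_FV hχ (AB_dg h.fr hw3 AB_x) (by rw [chi_sg hχ (by decide)]; exact one_mem _)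
  · exact h.dg_FV hχ (AB_dg h.fr hw3 AB_y) (by rw [chi_sg hχ (by decide)]; exact one_mem _)

lemma wI3 : ∀ i : Fin 6, i.val < 3 → wI i = ee i := by decide

lemma A0_fam : A0 ∈ fam := ⟨1, by
  show A0 = H487.cj 1 A0
  rw [H487.cj_one]⟩

section
variable {χ : ↥(OD a1) →* Q4} (hχ : Chi χ) (𝕜 : Type v) [Field 𝕜] (hK : StmtKer6) (hV : StmtVR)
include hχ hK hV

lemma cyD : Cy 𝕜 χ ⊤ ⊥ :=
  (csD hχ).cy 𝕜 hK hV hχ ⟨0, by decide⟩ ⟨4, by decide⟩ bot_le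
    ⟨A0, A0_fam, (csD hχ).A0_le hχ wI3⟩
    fun q _ => ⟨sec q, sec_dg frI rfl rfl q, chi_sec hχ q⟩

lemma cyB : Cy 𝕜 χ QB (Subgroup.closure {rl}) :=
  (csB hχ).cy 𝕜 hK hV hχ ⟨0, by decide⟩ ⟨3, by decide⟩
    (Subgroup.closure_mono fun x hx => Or.inl hx)
    ⟨A0, A0_fam, (csB hχ).A0_le hχ wI3⟩
    fun q _ => ⟨sec q, sec_dg frI rfl rfl q, chi_sec hχ q⟩

lemma cyN : Cy 𝕜 χ QN (Subgroup.closure {rl}) :=
  (csN hχ).cy 𝕜 hK hV hχ ⟨0, by decide⟩ ⟨3, by decide⟩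
    (Subgroup.closure_mono fun x hx => Or.inl hx)
    ⟨A0, A0_fam, (csN hχ).A0_le hχ wI3⟩
    fun q _ => ⟨sec q, sec_dg frI rfl rfl q, chi_sec hχ q⟩

end

/-- the image of the group `A` for the frame `w1` -/
lemma A1_le {χ : ↥(OD a1) →* Q4} {Q : Subgroup Q4} {n : ℕ}
    {κ μ : Fin n → Fin 6} {T₀ : Finset (Fin 6 × Fin 6)} {ρ₁ ρ₂ : ↥(OD a1)}
    (h : Cs χ Q w1 d1 κ μ T₀ ρ₁ ρ₂) (hχ : Chi χ) (hT : StmtTau6) :
    ∃ A ∈ fam, A ≤ FV w1 κ ρ₁ ρ₂ := by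
  obtain ⟨τ, hτ⟩ := hT
  set s : ↥(OD a1) := rfl' a1 (ee 2 - ee 5) with hs
  have hB : B a1 (ee 2 - ee 5) (ee 2 - ee 5) ≠ 0 := by decide
  have b0 : B a1 (ee 2 - ee 5) (ee 0) = 0 := by decide
  have b1 : B a1 (ee 2 - ee 5) (ee 1) = 0 := by decide
  have b2 : B a1 (ee 2 - ee 5) (ee 2) = 1 := by decide
  have b3 : B a1 (ee 2 - ee 5) (ee 2 - ee 5) = 2 := by decide
  have h2 : (2 : ZMod 5) ≠ 0 := by decide
  have s0 : act s (ee 0) = ee 0 := by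
    rw [hs, act_rfl' hB, b0, mul_zero, zero_div, zero_smul, sub_zero]
  have s1 : act s (ee 1) = ee 1 := by
    rw [hs, act_rfl' hB, b1, mul_zero, zero_div, zero_smul, sub_zero]
  have s2 : act s (ee 2) = ee 5 := by
    rw [hs, act_rfl' hB, b2, b3, mul_one, div_self h2, one_smul, sub_sub_cancel]
  have c0 : ∀ x : V6, B a1 x x ≠ 0 → ∀ y : V6, act s x = y →
      (τ * Phi a1 s) * Phi a1 (rfl' a1 x) * (τ * Phi a1 s)⁻¹ =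
      Phi a1 (rfl' a1 ![y 0 + y 1, y 0 - y 1, y 2 + y 3, y 2 - y 3, y 4 + y 5, y 4 - y 5]) := by
    intro x hx y hy
    rw [← hτ y (by rw [← hy, act_B]; exact hx), ← hy, ← rfl'_conj, map_mul, map_mul, map_inv,
      _root_.mul_inv_rev]
    group
  have e0 : B a1 (ee 0) (ee 0) ≠ 0 := by decide
  have e1 : B a1 (ee 1) (ee 1) ≠ 0 := by decide
  have e2 : B a1 (ee 2) (ee 2) ≠ 0 := by decide
  have t0 := c0 _ e0 _ s0
  have t1 := c0 _ e1 _ s1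
  have t2 := c0 _ e2 _ s2
  have v0 : (![(ee 0 : V6) 0 + (ee 0 : V6) 1, (ee 0 : V6) 0 - (ee 0 : V6) 1,
      (ee 0 : V6) 2 + (ee 0 : V6) 3, (ee 0 : V6) 2 - (ee 0 : V6) 3, (ee 0 : V6) 4 + (ee 0 : V6) 5,
      (ee 0 : V6) 4 - (ee 0 : V6) 5] : V6) = w1 0 := by decide
  have v1 : (![(ee 1 : V6) 0 + (ee 1 : V6) 1, (ee 1 : V6) 0 - (ee 1 : V6) 1,
      (ee 1 : V6) 2 + (ee 1 : V6) 3, (ee 1 : V6) 2 - (ee 1 : V6) 3, (ee 1 : V6) 4 + (ee 1 : V6) 5,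
      (ee 1 : V6) 4 - (ee 1 : V6) 5] : V6) = w1 1 := by decide
  have v2 : (![(ee 5 : V6) 0 + (ee 5 : V6) 1, (ee 5 : V6) 0 - (ee 5 : V6) 1,
      (ee 5 : V6) 2 + (ee 5 : V6) 3, (ee 5 : V6) 2 - (ee 5 : V6) 3, (ee 5 : V6) 4 + (ee 5 : V6) 5,
      (ee 5 : V6) 4 - (ee 5 : V6) 5] : V6) = w1 5 := by decide
  rw [v0] at t0
  rw [v1] at t1
  rw [v2] at t2
  set y := τ * Phi a1 s with hy
  refine ⟨A0.map (MulAut.conj y).toMonoidHom, ⟨y, rfl⟩, ?_⟩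
  rw [A0, MonoidHom.map_closure, Subgroup.closure_le]
  have q0 : χ (rfl' a1 (w1 0)) = (1, -1) := fr1.chi2 hχ (by decide)
  have q1 : χ (rfl' a1 (w1 1)) = (1, -1) := fr1.chi2 hχ (by decide)
  have q5 : χ (rfl' a1 (w1 5)) = (1, -1) := fr1.chi2 hχ (by decide)
  have qq : ((1, -1) : Q4) * (1, -1) = 1 := by decide
  rintro _ ⟨_, rfl | rfl, rfl⟩
  · show y * Phi a1 (sg a1 {0, 2}) * y⁻¹ ∈ FV w1 κ ρ₁ ρ₂
    have h1 : y * Phi a1 (sg a1 {0, 2}) * y⁻¹ = Phi a1 (rfl' a1 (w1 0) * rfl' a1 (w1 5)) := by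
      rw [sg_eq 0 2 (by decide), map_mul, map_mul, ← t0, ← t2]
      group
    rw [h1]
    exact h.dg_FV hχ ((DgS w1).mul_mem (fr1.r_dg 0) (fr1.r_dg 5)) (by
      rw [map_mul, q0, q5, qq]; exact one_mem _)
  · show y * Phi a1 (sg a1 {1, 2}) * y⁻¹ ∈ FV w1 κ ρ₁ ρ₂
    have h1 : y * Phi a1 (sg a1 {1, 2}) * y⁻¹ = Phi a1 (rfl' a1 (w1 1) * rfl' a1 (w1 5)) := by
      rw [sg_eq 1 2 (by decide), map_mul, map_mul, ← t1, ← t2]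
      group
    rw [h1]
    exact h.dg_FV hχ ((DgS w1).mul_mem (fr1.r_dg 1) (fr1.r_dg 5)) (by
      rw [map_mul, q1, q5, qq]; exact one_mem _)

lemma cyO {χ : ↥(OD a1) →* Q4} (hχ : Chi χ) (𝕜 : Type v) [Field 𝕜] (hK : StmtKer6) (hV : StmtVR)
    (hT : StmtTau6) : Cy 𝕜 χ QO (Subgroup.closure {rm}) :=
  (csO hχ).cy 𝕜 hK hV hχ ⟨2, by decide⟩ ⟨0, by decide⟩
    (Subgroup.closure_mono fun x hx => Or.inr hx) (A1_le (csO hχ) hχ hT)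
    fun q _ => ⟨sec q, sec_dg fr1 rfl rfl q, chi_sec hχ q⟩

lemma cyZ {χ : ↥(OD a1) →* Q4} (hχ : Chi χ) (𝕜 : Type v) [Field 𝕜] (hK : StmtKer6) (hV : StmtVR)
    (hZ : StmtZ 𝕜) : Cy 𝕜 χ ⊥ (Subgroup.closure {rl, rm}) := by
  refine ⟨A0, le_inf ((A0_inn hχ).trans (inn_le hχ _)) ?_, A0_ApS hK, ⟨A0, A0_fam, le_rfl⟩, ?_,
    hZ hK hV χ hχ⟩
  · have h1 : ∀ g : ↥(OD a1), Dg wI g → Phi a1 g ∈
        centralizer ((Subgroup.closure {rl, rm} : Subgroup (MulAut (Lam a1))) :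
          Set (MulAut (Lam a1))) := by
      intro g hg
      have h2 : Subgroup.closure {rl, rm} ≤ centralizer {Phi a1 g} := by
        rw [Subgroup.closure_le]
        rintro _ (rfl | rfl)
        · rw [SetLike.mem_coe, mem_centralizer_singleton_iff, rl, ← map_mul, ← map_mul, ← wI2,
            frI.dg_comm hg (frI.r_dg 2)]
        · rw [SetLike.mem_coe, mem_centralizer_singleton_iff, rm, ← map_mul, ← map_mul, ← wI4,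
            frI.dg_comm hg (frI.r_dg 4)]
      rw [mem_centralizer_iff]
      intro b hb
      have h3 := h2 hb
      rw [mem_centralizer_singleton_iff] at h3
      exact h3
    rw [A0, Subgroup.closure_le]
    rintro _ (rfl | rfl)
    · exact h1 _ (AB_dg frI wI3 AB_x)
    · exact h1 _ (AB_dg frI wI3 AB_y)
  · rw [MQ_bot hχ, sup_eq_left]
    exact A0_inn hχ

/-- **Block P4d**, from its pieces. -/
theorem aut6_of (hS : StmtSem6) (hK : StmtKer6) (hC : StmtChi6) (hF : StmtFrame6) (hT : StmtTau6)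
    (hV : StmtVR) (hZ : ∀ (𝕜 : Type w) [Field 𝕜], StmtZ 𝕜) : StmtAut6.{w} := by
  intro 𝕜 _
  obtain ⟨χ, hχ⟩ := chi_of hC
  exact stmtAsm6 𝕜 hS hK hF χ hχ (cyZ hχ 𝕜 hK hV (hZ 𝕜)) (cyB hχ 𝕜 hK hV) (cyN hχ 𝕜 hK hV)
    (cyO hχ 𝕜 hK hV hT) (cyD hχ 𝕜 hK hV)

end

end Vale.Agent.P240.R2.H458
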