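import Vale.Agent.P240.R2.H458.P10
import Vale.Agent.P240.R2.H306.Sem6
import Vale.Agent.P240.R2.H406.T4
import Vale.Agent.P240.R2.H406.Z
import Vale.Agent.P240.R2.N402.Fr6
import Vale.Agent.P240.R2.H179.Tau6
import Vale.Agent.P240.R2.H506.VR6

/-!
Block P4d: the group `PSL_4(5)` at the prime `2`.
-/

set_option autoImplicit false
set_option linter.all false

namespace Vale.Agent.P240.R2.H458

universe u v w

/-- **The automorphism group of `PΩ_6^+(5) = PSL_4(5)` at the prime `2`.** -/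
theorem stmtAut6 : StmtAut6.{w} :=
  aut6_of H306.stmtSem6 H406.Six.stmtKer6 H406.Six.stmtChi6 N402.stmtFrame6 H179.Tau6.stmtTau6
    H506.stmtVR fun 𝕜 _ => H406.Z.stmtZ 𝕜

end Vale.Agent.P240.R2.H458
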