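import Vale.Agent.P240.R2.H458.P1
import Vale.Agent.P240.R2.H987.L6

/-!
Block P4d: systems of reflections attached to a part of a frame, centralizers.
-/

set_option autoImplicit false
set_option linter.all false

namespace Vale.Agent.P240.R2.H458

open Matrix Vale.Agent.P240.K
open Subgroup hiding closure
open Vale.Agent.P240.R2.H145.EO (B ac OD rf rf_mem B_comm B_add_left B_add_right B_smul_left
  B_smul_right B_sub_left B_sub_right)
open Vale.Agent.P240.R2.H401.D (POD SD0)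
open Vale.Agent.P240.R2.H406
open Vale.Agent.P240.R2.H490 (ip VR)

universe u v w

noncomputable section

/-- the pairs of signs -/
abbrev Q4 : Type := ℤˣ × ℤˣ

/-- the characters -/
structure Chi (χ : ↥(OD a1) →* Q4) : Prop where
  sq : ∀ x : V6, B a1 x x ≠ 0 → IsSquare (B a1 x x) → χ (rfl' a1 x) = (-1, 1)
  ns : ∀ x : V6, B a1 x x ≠ 0 → ¬ IsSquare (B a1 x x) → χ (rfl' a1 x) = (1, -1)
  inn : ∀ g : ↥(OD a1), Phi a1 g ∈ Inn6 ↔ χ g = 1

lemma chi_of (h : StmtChi6) : ∃ χ : ↥(OD a1) →* Q4, Chi χ := by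
  obtain ⟨χ₁, χ₂, h1, h2⟩ := h
  refine ⟨χ₁.prod χ₂, ⟨fun x hx hs => ?_, fun x hx hs => ?_, fun g => ?_⟩⟩
  · obtain ⟨h3, h4⟩ := h1 x hx
    rw [if_pos hs] at h3 h4
    exact Prod.ext h3 h4
  · obtain ⟨h3, h4⟩ := h1 x hx
    rw [if_neg hs] at h3 h4
    exact Prod.ext h3 h4
  · rw [h2, Prod.ext_iff]
    rfl

/-- the subgroups between the group of inner automorphisms and `PO` -/
def MQ (χ : ↥(OD a1) →* Q4) (Q : Subgroup Q4) : Subgroup (MulAut (Lam a1)) :=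
  (Q.comap χ).map (Phi a1)

section
variable {χ : ↥(OD a1) →* Q4}

lemma mem_MQ {Q : Subgroup Q4} {x : MulAut (Lam a1)} :
    x ∈ MQ χ Q ↔ ∃ g : ↥(OD a1), χ g ∈ Q ∧ Phi a1 g = x := Iff.rfl

lemma MQ_mono {Q Q' : Subgroup Q4} (h : Q ≤ Q') : MQ χ Q ≤ MQ χ Q' := by
  rintro x ⟨g, hg, rfl⟩
  exact ⟨g, h hg, rfl⟩

lemma inn_le (hχ : Chi χ) (Q : Subgroup Q4) : Inn6 ≤ MQ χ Q := by
  rintro x hx
  obtain ⟨l, rfl⟩ := id hx
  obtain ⟨g, hg, rfl⟩ := exists_pi l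
  rw [← Phi_conj hg] at hx ⊢
  refine ⟨g, ?_, rfl⟩
  show χ g ∈ Q
  rw [(hχ.inn g).1 hx]
  exact one_mem _

lemma MQ_bot (hχ : Chi χ) : MQ χ ⊥ = Inn6 := by
  refine le_antisymm ?_ (inn_le hχ ⊥)
  rintro x ⟨g, hg, rfl⟩
  exact (hχ.inn g).2 (mem_bot.1 hg)

/-- `MQ` from a subgroup with enough classes -/
lemma sup_eq (hχ : Chi χ) {Q : Subgroup Q4} {F : Subgroup (MulAut (Lam a1))} (h1 : F ≤ MQ χ Q)
    (h2 : ∀ q ∈ Q, ∃ g : ↥(OD a1), Phi a1 g ∈ F ∧ χ g = q) : Inn6 ⊔ F = MQ χ Q := by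
  refine le_antisymm (sup_le (inn_le hχ Q) h1) ?_
  rintro x ⟨g, hg, rfl⟩
  obtain ⟨g', h3, h4⟩ := h2 _ hg
  have h5 : Phi a1 (g * g'⁻¹) ∈ Inn6 := (hχ.inn _).2 (by rw [map_mul, map_inv, h4, mul_inv_cancel])
  have h6 : Phi a1 g = Phi a1 (g * g'⁻¹) * Phi a1 g' := by
    rw [← map_mul, inv_mul_cancel_right]
  rw [h6]
  exact mul_mem (mem_sup_left h5) (mem_sup_right h3)

end

/-! ### diagonal isometries -/

section
variable {w : Fin 6 → V6} {d : Fin 6 → ZMod 5}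

lemma dg_sgn {g : ↥(OD a1)} (h : Dg w g) (i : Fin 6) : ∃ c : ZMod 5, act g (w i) = c • w i := by
  rcases h i with h | h
  · exact ⟨1, by rw [h, one_smul]⟩
  · exact ⟨-1, by rw [h, neg_one_smul]⟩

/-- the group of diagonal isometries -/
def DgS (w : Fin 6 → V6) : Subgroup ↥(OD a1) where
  carrier := {g | Dg w g}
  mul_mem' := by
    intro g h hg hh i
    rw [H406.act_mul]
    rcases hh i with h1 | h1
    · rw [h1]
      exact hg i
    · rw [h1, ← neg_one_smul (ZMod 5) (w i), act_smul, neg_one_smul, neg_one_smul]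
      rcases hg i with h2 | h2
      · right; rw [h2]
      · left; rw [h2, neg_neg]
  one_mem' := fun i => Or.inl (H406.act_one _)
  inv_mem' := by
    intro g hg i
    rcases hg i with h1 | h1
    · left
      conv_lhs => rw [← h1]
      exact act_inv _ _
    · right
      have h2 : act g (-w i) = w i := by
        rw [← neg_one_smul (ZMod 5) (w i), act_smul, h1, neg_one_smul, neg_neg]
      conv_lhs => rw [← h2]
      exact act_inv _ _

lemma mem_DgS {g : ↥(OD a1)} : g ∈ DgS w ↔ Dg w g := Iff.rfl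

lemma Fr.dg_comm (hw : Fr w d) {g h : ↥(OD a1)} (hg : Dg w g) (hh : Dg w h) : g * h = h * g := by
  refine hw.act_ext fun i => ?_
  obtain ⟨c, hc⟩ := dg_sgn hg i
  obtain ⟨e, he⟩ := dg_sgn hh i
  rw [H406.act_mul, H406.act_mul, he, hc, act_smul, act_smul, hc, he, smul_smul, smul_smul,
    mul_comm]

lemma Fr.r_dg (hw : Fr w d) (i : Fin 6) : Dg w (rfl' a1 (w i)) := by
  intro k
  rw [hw.act_r]
  split_ifs
  · right; rw [neg_one_smul]
  · left; rw [one_smul]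

lemma Fr.pr2_dg (hw : Fr w d) (i j : Fin 6) : Dg w (pr2 w i j) := by
  intro k
  rw [hw.act_pr2]
  split_ifs
  · right; rw [neg_one_smul]
  · left; rw [one_smul]

end

/-! ### the closure of two commuting involutions -/

lemma mem_cl2 {G : Type*} [Group G] {x y : G} (hx : x * x = 1) (hy : y * y = 1)
    (hxy : x * y = y * x) {z : G} (hz : z ∈ Subgroup.closure {x, y}) :
    z = 1 ∨ z = x ∨ z = y ∨ z = x * y := by
  let S : Subgroup G :=
    { carrier := {z | z = 1 ∨ z = x ∨ z = y ∨ z = x * y}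
      mul_mem' := by
        rintro a b (rfl | rfl | rfl | rfl) (rfl | rfl | rfl | rfl) <;>
          simp only [one_mul, mul_one, Set.mem_setOf_eq, hx, hy, true_or, or_true]
        · right; right; left
          rw [← mul_assoc, hx, one_mul]
        · right; right; right
          rw [hxy]
        · right; left
          rw [hxy, ← mul_assoc, hy, one_mul]
        · right; right; left
          rw [mul_assoc, ← hxy, ← mul_assoc, hx, one_mul]
        · right; left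
          rw [mul_assoc, hy, mul_one]
        · left
          rw [mul_assoc, ← mul_assoc y, ← hxy, mul_assoc x y y, hy, mul_one, hx]
      one_mem' := Or.inl rfl
      inv_mem' := by
        have h1 : x⁻¹ = x := inv_eq_of_mul_eq_one_left hx
        have h2 : y⁻¹ = y := inv_eq_of_mul_eq_one_left hy
        rintro a (rfl | rfl | rfl | rfl)
        · left; exact inv_one
        · right; left; exact h1
        · right; right; left; exact h2
        · right; right; right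
          rw [_root_.mul_inv_rev, h1, h2, hxy] }
  have h1 : Subgroup.closure {x, y} ≤ S := by
    rw [Subgroup.closure_le]
    rintro z (rfl | rfl)
    · exact Or.inr (Or.inl rfl)
    · exact Or.inr (Or.inr (Or.inl rfl))
  exact h1 hz

/-! ### embeddings -/

section
variable {n : ℕ}

/-- the space spanned by a part of a frame -/
def emb (w : Fin 6 → V6) (κ : Fin n → Fin 6) : (Fin n → ZMod 5) →ₗ[ZMod 5] V6 where
  toFun x := ∑ i, x i • w (κ i)
  map_add' x y := by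
    rw [← Finset.sum_add_distrib]
    exact Finset.sum_congr rfl fun i _ => by rw [Pi.add_apply, add_smul]
  map_smul' c x := by
    rw [RingHom.id_apply, Finset.smul_sum]
    exact Finset.sum_congr rfl fun i _ => by rw [Pi.smul_apply, smul_eq_mul, smul_smul]

lemma emb_apply (w : Fin 6 → V6) (κ : Fin n → Fin 6) (x : Fin n → ZMod 5) :
    emb w κ x = ∑ i, x i • w (κ i) := rfl

lemma emb_single (w : Fin 6 → V6) (κ : Fin n → Fin 6) (i : Fin n) :
    emb w κ (Pi.single i 1) = w (κ i) := by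
  rw [emb_apply, Finset.sum_eq_single i]
  · rw [Pi.single_eq_same, one_smul]
  · intro j _ hj
    rw [Pi.single_eq_of_ne hj, zero_smul]
  · intro h
    exact absurd (Finset.mem_univ _) h

lemma B_sum_left {ι : Type*} (s : Finset ι) (f : ι → V6) (y : V6) :
    B a1 (∑ i ∈ s, f i) y = ∑ i ∈ s, B a1 (f i) y := by
  have := map_sum (H490.ipL a1 y) f s
  exact this

lemma B_sum_right {ι : Type*} (s : Finset ι) (f : ι → V6) (y : V6) :
    B a1 y (∑ i ∈ s, f i) = ∑ i ∈ s, B a1 y (f i) := by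
  rw [B_comm, B_sum_left]
  exact Finset.sum_congr rfl fun i _ => B_comm _ _

lemma act_sum {ι : Type*} (g : ↥(OD a1)) (s : Finset ι) (f : ι → V6) :
    act g (∑ i ∈ s, f i) = ∑ i ∈ s, act g (f i) := by
  have := map_sum (Matrix.mulVecLin g.1.1) f s
  exact this

variable {w : Fin 6 → V6} {d : Fin 6 → ZMod 5}

lemma Fr.B_emb (hw : Fr w d) {κ : Fin n → Fin 6} (hκ : Function.Injective κ)
    (x y : Fin n → ZMod 5) : B a1 (emb w κ x) (emb w κ y) = ip (d ∘ κ) x y := by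
  rw [emb_apply, emb_apply, B_sum_left, ip]
  refine Finset.sum_congr rfl fun i _ => ?_
  rw [B_sum_right, Finset.sum_eq_single i]
  · rw [B_smul_left, B_smul_right, hw.self]
    show x i * (y i * d (κ i)) = d (κ i) * x i * y i
    ring
  · intro j _ hj
    rw [B_smul_left, B_smul_right, hw.orth fun h => hj (hκ h).symm, mul_zero, mul_zero]
  · intro h
    exact absurd (Finset.mem_univ _) h

end

/-! ### the cases -/

/-- a part `κ` of a frame `w` with corrections `ρ₁`, `ρ₂` -/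
structure Cs (χ : ↥(OD a1) →* Q4) (Q : Subgroup Q4) {n : ℕ} (w : Fin 6 → V6) (d : Fin 6 → ZMod 5)
    (κ μ : Fin n → Fin 6) (T₀ : Finset (Fin 6 × Fin 6)) (ρ₁ ρ₂ : ↥(OD a1)) : Prop where
  fr : Fr w d
  t0 : ∀ p ∈ T₀, pr2 w p.1 p.2 = ρ₁ ∨ pr2 w p.1 p.2 = ρ₂
  inj : Function.Injective κ
  n3 : 3 ≤ n
  r1 : ρ₁ * ρ₁ = 1
  r2 : ρ₂ * ρ₂ = 1
  g1 : Dg w ρ₁
  g2 : Dg w ρ₂
  f1 : ∀ i, act ρ₁ (w (κ i)) = w (κ i)
  f2 : ∀ i, act ρ₂ (w (κ i)) = w (κ i)
  hat : ∀ i, rfl' a1 (w (κ i)) * cor ρ₁ ρ₂ (w (κ i)) = pr2 w (κ i) (μ i)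
  sgn : ∀ k, (List.ofFn fun i : Fin n => (if k = κ i ∨ k = μ i then -1 else 1 : ZMod 5)).prod = -1
  sep : ∀ i j : Fin 6, i ≠ j → (∃ t : Fin n, ¬ ((i = κ t ∨ i = μ t) ↔ (j = κ t ∨ j = μ t))) ∨
    ∃ p ∈ T₀, ¬ ((i = p.1 ∨ i = p.2) ↔ (j = p.1 ∨ j = p.2))
  q1 : ((-1, 1) : Q4) * χ ρ₁ ∈ Q
  q2 : ((1, -1) : Q4) * χ ρ₂ ∈ Q
  cov : ∀ i, (∃ t, κ t = i) ∨ rfl' a1 (w i) = ρ₁ ∨ rfl' a1 (w i) = ρ₂
  ij1 : χ ρ₁ ∈ Q → ρ₁ = 1
  ij2 : χ ρ₂ ∈ Q → ρ₂ = 1
  ij3 : χ (ρ₁ * ρ₂) ∈ Q → ρ₁ * ρ₂ = 1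

/-- the system of reflections -/
def RV {n : ℕ} (w : Fin 6 → V6) (κ : Fin n → Fin 6) (ρ₁ ρ₂ : ↥(OD a1)) (x : Fin n → ZMod 5) :
    MulAut (Lam a1) := Phi a1 (rfl' a1 (emb w κ x) * cor ρ₁ ρ₂ (emb w κ x))

/-- the group of the standard frame -/
def FV {n : ℕ} (w : Fin 6 → V6) (κ : Fin n → Fin 6) (ρ₁ ρ₂ : ↥(OD a1)) :
    Subgroup (MulAut (Lam a1)) :=
  Subgroup.closure (Set.range fun i : Fin n => RV w κ ρ₁ ρ₂ (Pi.single i 1))

namespace Cs
variable {χ : ↥(OD a1) →* Q4} {Q : Subgroup Q4} {n : ℕ} {w : Fin 6 → V6} {d : Fin 6 → ZMod 5}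
    {κ μ : Fin n → Fin 6} {T₀ : Finset (Fin 6 × Fin 6)} {ρ₁ ρ₂ : ↥(OD a1)}
    (h : Cs χ Q w d κ μ T₀ ρ₁ ρ₂)
include h

lemma comm : ρ₁ * ρ₂ = ρ₂ * ρ₁ := h.fr.dg_comm h.g1 h.g2

lemma fix1 (x : Fin n → ZMod 5) : act ρ₁ (emb w κ x) = emb w κ x := by
  rw [emb_apply, act_sum]
  exact Finset.sum_congr rfl fun i _ => by rw [act_smul, h.f1]

lemma fix2 (x : Fin n → ZMod 5) : act ρ₂ (emb w κ x) = emb w κ x := by
  rw [emb_apply, act_sum]
  exact Finset.sum_congr rfl fun i _ => by rw [act_smul, h.f2]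

lemma vr (hK : StmtKer6) (hV : StmtVR) : VR (d ∘ κ) (RV w κ ρ₁ ρ₂) :=
  hV 6 a1 (fun _ => one_ne_zero) hK n (d ∘ κ) (fun i => h.fr.ne _) h.n3 (emb w κ)
    (fun x y => h.fr.B_emb h.inj x y) ρ₁ ρ₂ h.r1 h.r2 h.comm h.fix1 h.fix2

lemma RV_single (i : Fin n) : RV w κ ρ₁ ρ₂ (Pi.single i 1) = Phi a1 (pr2 w (κ i) (μ i)) := by
  rw [RV, emb_single, h.hat]

lemma ip_ne {x : Fin n → ZMod 5} (hx : ip (d ∘ κ) x x ≠ 0) :
    B a1 (emb w κ x) (emb w κ x) ≠ 0 := by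
  rwa [h.fr.B_emb h.inj]

/-- the classes -/
lemma chi_mem (hχ : Chi χ) {x : V6} (hx : B a1 x x ≠ 0) : χ (rfl' a1 x * cor ρ₁ ρ₂ x) ∈ Q := by
  rw [cor, map_mul]
  split_ifs with h1
  · rw [hχ.sq x hx h1]
    exact h.q1
  · rw [hχ.ns x hx h1]
    exact h.q2

lemma RV_mem (hχ : Chi χ) {x : Fin n → ZMod 5} (hx : ip (d ∘ κ) x x ≠ 0) :
    RV w κ ρ₁ ρ₂ x ∈ MQ χ Q := ⟨_, h.chi_mem hχ (h.ip_ne hx), rfl⟩

lemma ip_single (i : Fin n) : ip (d ∘ κ) (Pi.single i 1) (Pi.single i 1) ≠ 0 := by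
  rw [H490.ip_single_right, Pi.single_eq_same, mul_one]
  exact h.fr.ne _

lemma FV_le (hχ : Chi χ) : FV w κ ρ₁ ρ₂ ≤ MQ χ Q := by
  rw [FV, Subgroup.closure_le]
  rintro _ ⟨i, rfl⟩
  exact h.RV_mem hχ (h.ip_single i)

/-- diagonal isometries with class in `Q` -/
lemma dg_FV (hχ : Chi χ) {g : ↥(OD a1)} (hg : Dg w g) (hq : χ g ∈ Q) :
    Phi a1 g ∈ FV w κ ρ₁ ρ₂ := by
  set K : Subgroup ↥(OD a1) := Subgroup.closure (Set.range fun i : Fin n => pr2 w (κ i) (μ i))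
    with hKd
  set P : Subgroup ↥(OD a1) := Subgroup.closure {ρ₁, ρ₂} with hPd
  have hKle : K ≤ DgS w := by
    rw [hKd, Subgroup.closure_le]
    rintro _ ⟨i, rfl⟩
    exact h.fr.pr2_dg _ _
  have hPle : P ≤ DgS w := by
    rw [hPd, Subgroup.closure_le]
    rintro _ (rfl | rfl)
    · exact h.g1
    · exact h.g2
  have h1 : g ∈ K ⊔ P := by
    have h2 : Subgroup.closure (Set.range fun i => rfl' a1 (w i)) ≤ K ⊔ P := by
      rw [Subgroup.closure_le]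
      rintro _ ⟨i, rfl⟩
      rcases h.cov i with ⟨t, rfl⟩ | h3 | h3
      · have h4 := h.hat t
        have h5 : rfl' a1 (w (κ t)) = pr2 w (κ t) (μ t) * (cor ρ₁ ρ₂ (w (κ t)))⁻¹ := by
          rw [← h4, mul_inv_cancel_right]
        show rfl' a1 (w (κ t)) ∈ K ⊔ P
        rw [h5]
        refine mul_mem (mem_sup_left (Subgroup.subset_closure ⟨t, rfl⟩)) (mem_sup_right (inv_mem ?_))
        rw [cor]
        split_ifs
        · exact Subgroup.subset_closure (Or.inl rfl)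
        · exact Subgroup.subset_closure (Or.inr rfl)
      · show rfl' a1 (w i) ∈ K ⊔ P
        rw [h3]
        exact mem_sup_right (Subgroup.subset_closure (Or.inl rfl))
      · show rfl' a1 (w i) ∈ K ⊔ P
        rw [h3]
        exact mem_sup_right (Subgroup.subset_closure (Or.inr rfl))
    exact h2 (h.fr.dg_mem hg)
  obtain ⟨k, hk, r, hr, rfl⟩ := H487.mem_sup_norm (fun b hb a ha => by
    rw [h.fr.dg_comm (hPle hb) (hKle ha), mul_inv_cancel_right]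
    exact ha) h1
  have hkQ : χ k ∈ Q := by
    have h2 : K ≤ Q.comap χ := by
      rw [hKd, Subgroup.closure_le]
      rintro _ ⟨i, rfl⟩
      show χ (pr2 w (κ i) (μ i)) ∈ Q
      rw [← h.hat]
      exact h.chi_mem hχ (h.fr.ne' _)
    exact h2 hk
  have hrQ : χ r ∈ Q := by
    rw [map_mul] at hq
    exact (Subgroup.mul_mem_cancel_left _ hkQ).1 hq
  have hr1 : r = 1 := by
    rcases mem_cl2 h.r1 h.r2 h.comm hr with h2 | h2 | h2 | h2
    · exact h2
    · rw [h2] at hrQ ⊢; exact h.ij1 hrQ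
    · rw [h2] at hrQ ⊢; exact h.ij2 hrQ
    · rw [h2] at hrQ ⊢; exact h.ij3 hrQ
  rw [hr1, mul_one]
  have h2 : K ≤ (FV w κ ρ₁ ρ₂).comap (Phi a1) := by
    rw [hKd, Subgroup.closure_le]
    rintro _ ⟨i, rfl⟩
    show Phi a1 (pr2 w (κ i) (μ i)) ∈ FV w κ ρ₁ ρ₂
    rw [← h.RV_single]
    exact Subgroup.subset_closure ⟨i, rfl⟩
  exact h2 hk

/-- **The centralizer of the standard frame.** -/
lemma cent (hK : StmtKer6) (hχ : Chi χ) {x : MulAut (Lam a1)} (hx : x ∈ MQ χ Q)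
    (hc : ∀ i : Fin n, x * RV w κ ρ₁ ρ₂ (Pi.single i 1) = RV w κ ρ₁ ρ₂ (Pi.single i 1) * x)
    (hc0 : ∀ p ∈ T₀, x * Phi a1 (pr2 w p.1 p.2) = Phi a1 (pr2 w p.1 p.2) * x) :
    x ∈ FV w κ ρ₁ ρ₂ := by
  obtain ⟨g, hg, rfl⟩ := hx
  refine h.dg_FV hχ ?_ hg
  refine h.fr.dg_of_comm hK ((Finset.univ.image fun t : Fin n => (κ t, μ t)) ∪ T₀) ?_ ?_
  · intro i j hij
    rcases h.sep i j hij with ⟨t, ht⟩ | ⟨p, hp, hpq⟩
    · exact ⟨_, Finset.mem_union_left _ (Finset.mem_image_of_mem _ (Finset.mem_univ t)), ht⟩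
    · exact ⟨p, Finset.mem_union_right _ hp, hpq⟩
  · intro p hp
    rcases Finset.mem_union.1 hp with hp | hp
    · obtain ⟨t, -, rfl⟩ := Finset.mem_image.1 hp
      show Phi a1 g * Phi a1 (pr2 w (κ t) (μ t)) = Phi a1 (pr2 w (κ t) (μ t)) * Phi a1 g
      rw [← h.RV_single]
      exact hc t
    · exact hc0 p hp

/-- the corrections commute with the reflections -/
lemma rho_comm (x : Fin n → ZMod 5) {ρ : ↥(OD a1)} (hρ : ρ = ρ₁ ∨ ρ = ρ₂) :
    RV w κ ρ₁ ρ₂ x * Phi a1 ρ = Phi a1 ρ * RV w κ ρ₁ ρ₂ x := by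
  have h1 : act ρ (emb w κ x) = emb w κ x := by
    rcases hρ with rfl | rfl
    · exact h.fix1 x
    · exact h.fix2 x
  have h2 : Dg w ρ := by
    rcases hρ with rfl | rfl
    · exact h.g1
    · exact h.g2
  have h3 : Dg w (cor ρ₁ ρ₂ (emb w κ x)) := by
    rw [cor]
    split_ifs
    · exact h.g1
    · exact h.g2
  have h4 : ρ * rfl' a1 (emb w κ x) = rfl' a1 (emb w κ x) * ρ := by
    have h5 := rfl'_conj (a := a1) ρ (emb w κ x)
    rw [h1] at h5
    exact mul_inv_eq_iff_eq_mul.1 h5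
  have h6 : rfl' a1 (emb w κ x) * cor ρ₁ ρ₂ (emb w κ x) * ρ =
      ρ * (rfl' a1 (emb w κ x) * cor ρ₁ ρ₂ (emb w κ x)) := by
    rw [mul_assoc, h.fr.dg_comm h3 h2, ← mul_assoc, ← h4, mul_assoc]
  rw [RV, ← map_mul, ← map_mul, h6]

/-- the product of the standard frame -/
lemma std (hK : StmtKer6) :
    (List.ofFn fun i : Fin n => RV w κ ρ₁ ρ₂ (Pi.single i 1)).prod = 1 := by
  have h0 : (fun i : Fin n => RV w κ ρ₁ ρ₂ (Pi.single i 1)) =
      (⇑(Phi a1)) ∘ (fun i : Fin n => pr2 w (κ i) (μ i)) := funext fun i => h.RV_single i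
  have h1 : (List.ofFn fun i : Fin n => RV w κ ρ₁ ρ₂ (Pi.single i 1)).prod =
      Phi a1 (List.ofFn fun i : Fin n => pr2 w (κ i) (μ i)).prod := by
    rw [h0, ← List.map_ofFn, ← map_list_prod]
  rw [h1]
  refine (hK _).2 (Or.inr ?_)
  refine h.fr.act_ext fun k => ?_
  rw [sgu_act]
  have h2 : ∀ l : List (Fin n), act ((l.map fun i => pr2 w (κ i) (μ i)).prod) (w k) =
      ((l.map fun i => (if k = κ i ∨ k = μ i then -1 else 1 : ZMod 5)).prod) • w k := by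
    intro l
    induction l with
    | nil =>
      rw [List.map_nil, List.map_nil, List.prod_nil, List.prod_nil, one_smul]
      exact H406.act_one _
    | cons i l ih =>
      rw [List.map_cons, List.map_cons, List.prod_cons, List.prod_cons, H406.act_mul, ih, act_smul,
        h.fr.act_pr2, smul_smul, mul_comm]
  have h3 := h2 (List.finRange n)
  rw [← List.ofFn_eq_map, ← List.ofFn_eq_map, h.sgn, neg_one_smul] at h3
  exact h3

end Cs

end

end Vale.Agent.P240.R2.H458
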