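import Vale.Agent.P240.R2.H458.P2

/-!
Block P4d: full products, top cycles.
-/

set_option autoImplicit false
set_option linter.all false

namespace Vale.Agent.P240.R2.H458

open Matrix Vale.Agent.P240.K
open Subgroup hiding closure
open Vale.Agent.P240.R2.H145.EO (B ac OD rf rf_mem B_comm B_add_left B_add_right B_smul_left
  B_smul_right B_sub_left B_sub_right)
open Vale.Agent.P240.R2.H401.D (POD SD0)
open Vale.Agent.P240.R2.H406
open Vale.Agent.P240.R2.H490 (ip VR Lt FrD Ew)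

universe u v w

noncomputable section

section
variable {w : Fin 6 → V6} {d : Fin 6 → ZMod 5}

/-- diagonal isometries are products of the reflections in the vectors that they change -/
lemma Fr.dg_mem' (hw : Fr w d) (p : Fin 6 → Prop) {g : ↥(OD a1)} (hg : Dg w g)
    (hp : ∀ i, ¬ p i → act g (w i) = w i) :
    g ∈ Subgroup.closure {r | ∃ i, p i ∧ r = rfl' a1 (w i)} := by
  have key : ∀ m : ℕ, ∀ g : ↥(OD a1), Dg w g → (∀ i, ¬ p i → act g (w i) = w i) →
      (∀ i : Fin 6, m ≤ i.val → act g (w i) = w i) →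
      g ∈ Subgroup.closure {r | ∃ i, p i ∧ r = rfl' a1 (w i)} := by
    intro m
    induction m with
    | zero =>
      intro g hg _ h
      have h1 : g = 1 := hw.act_ext fun i => by rw [h i (Nat.zero_le _)]; exact (H406.act_one _).symm
      rw [h1]
      exact one_mem _
    | succ m ih =>
      intro g hg hp h
      by_cases hm : m < 6
      · rcases hg ⟨m, hm⟩ with h1 | h1
        · refine ih g hg hp fun i hi => ?_
          rcases Nat.eq_or_lt_of_le hi with h2 | h2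
          · have : i = ⟨m, hm⟩ := Fin.ext h2.symm
            rw [this, h1]
          · exact h i h2
        · have hpm : p ⟨m, hm⟩ := by
            by_contra hcon
            rw [hp _ hcon] at h1
            exact neg_ne hw h1.symm
          have h3 : rfl' a1 (w ⟨m, hm⟩) * g ∈
              Subgroup.closure {r | ∃ i, p i ∧ r = rfl' a1 (w i)} := by
            refine ih _ (fun i => ?_) (fun i hi => ?_) fun i hi => ?_
            · exact (DgS w).mul_mem (hw.r_dg _) hg i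
            · have h4 : i ≠ ⟨m, hm⟩ := by
                rintro rfl
                exact hi hpm
              rw [H406.act_mul, hp i hi, hw.act_r, if_neg h4, one_smul]
            · rw [H406.act_mul]
              rcases Nat.eq_or_lt_of_le hi with h2 | h2
              · have h4 : i = ⟨m, hm⟩ := Fin.ext h2.symm
                rw [h4, h1, ← neg_one_smul (ZMod 5) (w ⟨m, hm⟩), act_smul, hw.act_r, if_pos rfl,
                  smul_smul, neg_mul_neg, one_mul, one_smul]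
              · have h4 : i ≠ ⟨m, hm⟩ := by
                  rintro rfl
                  exact absurd h2 (by simp)
                rw [h i h2, hw.act_r, if_neg h4, one_smul]
          have h4 : rfl' a1 (w ⟨m, hm⟩) ∈ Subgroup.closure {r | ∃ i, p i ∧ r = rfl' a1 (w i)} :=
            Subgroup.subset_closure ⟨_, hpm, rfl⟩
          have h5 := mul_mem h4 h3
          rwa [← mul_assoc, rfl'_mul_self, one_mul] at h5
      · exact ih g hg hp fun i hi => by have := i.2; omega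
  exact key 6 g hg hp fun i hi => by have := i.2; omega

/-- two reflections with the same class -/
lemma rfl'_par (hK : StmtKer6) {x y : V6} (hx : B a1 x x ≠ 0) (hy : B a1 y y ≠ 0)
    (h : Phi a1 (rfl' a1 x) = Phi a1 (rfl' a1 y)) : ∃ c : ZMod 5, x = c • y := by
  have h1 : Phi a1 (rfl' a1 x * (rfl' a1 y)⁻¹) = 1 := by
    rw [map_mul, map_inv, h, mul_inv_cancel]
  have h2 : rfl' a1 x = rfl' a1 y := by
    rcases (hK _).1 h1 with h2 | h2
    · exact mul_inv_eq_one.1 h2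
    · exfalso
      rw [mul_inv_eq_iff_eq_mul] at h2
      have h3 := congrArg (fun x : ↥(OD a1) => x.1.1.trace) h2
      simp only [coe_mul', sgu_mat, neg_mul, one_mul, trace_neg, tr_one hx, tr_one hy] at h3
      exact absurd h3 (by decide)
  have h3 : act (rfl' a1 x) x = -x := by
    rw [act_rfl' hx, mul_div_assoc, div_self hx, mul_one, two_smul]
    abel
  rw [h2, act_rfl' hy] at h3
  have h4 : (2 : ZMod 5) • x = (2 * B a1 y x / B a1 y y) • y := by
    have h5 : (2 : ZMod 5) • x = x - (x - (2 * B a1 y x / B a1 y y) • y) +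
        (x - (2 * B a1 y x / B a1 y y) • y) + x := by
      rw [two_smul]; abel
    rw [h5]
    nth_rw 2 [h3]
    abel
  refine ⟨3 * (2 * B a1 y x / B a1 y y), ?_⟩
  rw [← smul_smul, ← h4, smul_smul]
  have h5 : (3 : ZMod 5) * 2 = 1 := by decide
  rw [h5, one_smul]

end

namespace Cs
variable {χ : ↥(OD a1) →* Q4} {Q : Subgroup Q4} {n : ℕ} {w : Fin 6 → V6} {d : Fin 6 → ZMod 5}
    {κ μ : Fin n → Fin 6} {T₀ : Finset (Fin 6 × Fin 6)} {ρ₁ ρ₂ : ↥(OD a1)}
    (h : Cs χ Q w d κ μ T₀ ρ₁ ρ₂)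
include h

lemma cor_dg (x : V6) : Dg w (cor ρ₁ ρ₂ x) := by
  rw [cor]
  split_ifs
  · exact h.g1
  · exact h.g2

/-- an element of `F` that commutes with all reflections is trivial -/
lemma cfree (hK : StmtKer6) (hχ : Chi χ) {x : MulAut (Lam a1)} (hx : x ∈ FV w κ ρ₁ ρ₂)
    (hc : ∀ y, ip (d ∘ κ) y y ≠ 0 → x * RV w κ ρ₁ ρ₂ y = RV w κ ρ₁ ρ₂ y * x) : x = 1 := by
  -- a representative
  obtain ⟨g, ⟨hgd, hgq⟩, rfl⟩ : ∃ g : ↥(OD a1), (Dg w g ∧ χ g ∈ Q) ∧ Phi a1 g = x := by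
    have h1 : FV w κ ρ₁ ρ₂ ≤ (DgS w ⊓ Q.comap χ).map (Phi a1) := by
      rw [FV, Subgroup.closure_le]
      rintro _ ⟨i, rfl⟩
      refine ⟨pr2 w (κ i) (μ i), ⟨h.fr.pr2_dg _ _, ?_⟩, (h.RV_single i).symm⟩
      show χ (pr2 w (κ i) (μ i)) ∈ Q
      rw [← h.hat]
      exact h.chi_mem hχ (h.fr.ne' _)
    exact h1 hx
  have hcc : ∀ i, act g (w i) = w i ∨ act g (w i) = -w i := hgd
  -- common signs
  have key : ∀ i j : Fin n, i ≠ j → ∀ c e : ZMod 5, act g (w (κ i)) = c • w (κ i) →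
      act g (w (κ j)) = e • w (κ j) → c = e := by
    intro i j hij c e hci hej
    obtain ⟨t, ht0, ht⟩ : ∃ t : ZMod 5, t ≠ 0 ∧ d (κ i) + t * t * d (κ j) ≠ 0 := by
      have h1 := h.fr.ne (κ i)
      have h2 := h.fr.ne (κ j)
      revert h1 h2
      generalize d (κ i) = a
      generalize d (κ j) = b
      revert a b
      decide
    set y : Fin n → ZMod 5 := Pi.single i 1 + t • Pi.single j 1 with hy
    have hemb : emb w κ y = w (κ i) + t • w (κ j) := by
      rw [hy, map_add, map_smul, emb_single, emb_single]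
    have hij' : κ i ≠ κ j := fun h' => hij (h.inj h')
    have hBy : B a1 (emb w κ y) (emb w κ y) = d (κ i) + t * t * d (κ j) := by
      rw [hemb]
      simp only [B_add_left, B_add_right, B_smul_left, B_smul_right, h.fr.self, h.fr.orth hij',
        h.fr.orth hij'.symm]
      ring
    have hB0 : B a1 (emb w κ y) (emb w κ y) ≠ 0 := by rw [hBy]; exact ht
    have hy0 : ip (d ∘ κ) y y ≠ 0 := by
      rw [← h.fr.B_emb h.inj]
      exact hB0
    have h1 := hc y hy0
    rw [RV, ← map_mul, ← map_mul] at h1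
    set s := cor ρ₁ ρ₂ (emb w κ y) with hs
    have hsg : g * s = s * g := h.fr.dg_comm hgd (h.cor_dg _)
    have h2 : Phi a1 (rfl' a1 (act g (emb w κ y))) = Phi a1 (rfl' a1 (emb w κ y)) := by
      have h3 : rfl' a1 (act g (emb w κ y)) * s * g = g * (rfl' a1 (emb w κ y) * s) := by
        rw [← rfl'_conj, mul_assoc, ← hsg, mul_assoc, mul_assoc, inv_mul_cancel_left]
      have h4 : Phi a1 (rfl' a1 (act g (emb w κ y)) * s * g) =
          Phi a1 (rfl' a1 (emb w κ y) * s * g) := by rw [h3, h1]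
      rw [map_mul, map_mul, map_mul, map_mul] at h4
      exact mul_right_cancel (mul_right_cancel h4)
    obtain ⟨f, hf⟩ := rfl'_par hK (by rw [act_B]; exact hB0) hB0 h2
    rw [hemb, act_add, act_smul, hci, hej] at hf
    have e1 := congrArg (fun z => B a1 z (w (κ i))) hf
    have e2 := congrArg (fun z => B a1 z (w (κ j))) hf
    simp only [B_add_left, B_smul_left, h.fr.self, h.fr.orth hij', h.fr.orth hij'.symm, mul_zero,
      add_zero, zero_add] at e1 e2
    have e3 : c = f := mul_right_cancel₀ (h.fr.ne _) e1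
    have e4 : e = f := by
      have e5 : t * d (κ j) ≠ 0 := mul_ne_zero ht0 (h.fr.ne _)
      exact mul_right_cancel₀ e5 (by rw [← e2]; ring)
    rw [e3, e4]
  -- the case of the sign `1`
  have fin1 : ∀ g' : ↥(OD a1), Dg w g' → χ g' ∈ Q → (∀ i, act g' (w (κ i)) = w (κ i)) →
      Phi a1 g' = 1 := by
    intro g' h1 h2 h3
    have h4 := h.fr.dg_mem' (fun i => ¬ ∃ t, κ t = i) h1 (fun i hi => by
      obtain ⟨t, rfl⟩ := not_not.1 hi
      exact h3 t)
    have h5 : Subgroup.closure {r | ∃ i, (¬ ∃ t, κ t = i) ∧ r = rfl' a1 (w i)} ≤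
        Subgroup.closure {ρ₁, ρ₂} := by
      rw [Subgroup.closure_le]
      rintro _ ⟨i, hi, rfl⟩
      rcases h.cov i with h6 | h6 | h6
      · exact absurd h6 hi
      · rw [h6]; exact Subgroup.subset_closure (Or.inl rfl)
      · rw [h6]; exact Subgroup.subset_closure (Or.inr rfl)
    have h6 : g' = 1 := by
      rcases mem_cl2 h.r1 h.r2 h.comm (h5 h4) with h7 | h7 | h7 | h7
      · exact h7
      · rw [h7] at h2 ⊢; exact h.ij1 h2
      · rw [h7] at h2 ⊢; exact h.ij2 h2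
      · rw [h7] at h2 ⊢; exact h.ij3 h2
    rw [h6, map_one]
  obtain ⟨i₀⟩ : Nonempty (Fin n) := ⟨⟨0, by have := h.n3; omega⟩⟩
  rcases hcc (κ i₀) with h1 | h1
  · refine fin1 g hgd hgq fun i => ?_
    by_cases hi : i = i₀
    · rw [hi, h1]
    · obtain ⟨c, hc⟩ := dg_sgn hgd (κ i)
      have h2 := key i i₀ hi c 1 hc (by rw [h1, one_smul])
      rw [hc, h2, one_smul]
  · have h2 : Phi a1 (sg a1 Finset.univ) = 1 := (hK _).2 (Or.inr rfl)
    have h3 : Phi a1 g = Phi a1 (sg a1 Finset.univ * g) := by rw [map_mul, h2, one_mul]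
    have hu : Dg w (sg a1 Finset.univ) := fun i => Or.inr (sgu_act _)
    rw [h3]
    refine fin1 _ ((DgS w).mul_mem hu hgd) ?_ fun i => ?_
    · rw [map_mul, (hχ.inn _).1 (by rw [h2]; exact one_mem _), one_mul]
      exact hgq
    · have h4 : act g (w (κ i)) = -w (κ i) := by
        by_cases hi : i = i₀
        · rw [hi, h1]
        · obtain ⟨c, hc⟩ := dg_sgn hgd (κ i)
          have h2 := key i i₀ hi c (-1) hc (by rw [h1, neg_one_smul])
          rw [hc, h2, neg_one_smul]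
      rw [H406.act_mul, h4, sgu_act, neg_neg]

/-- **Full products.** -/
lemma full (hK : StmtKer6) (hV : StmtVR) (hχ : Chi χ) :
    ∀ l ∈ FrD (d ∘ κ), Ew (fun P : Lt (d ∘ κ) => RV w κ ρ₁ ρ₂ P.x) l = 1 := by
  intro l hl
  have hvr := h.vr hK hV
  have h1 : ∀ l : List (Lt (d ∘ κ)), Ew (fun P : Lt (d ∘ κ) => RV w κ ρ₁ ρ₂ P.x) l ∈ MQ χ Q := by
    intro l
    induction l with
    | nil => exact one_mem _
    | cons a l ih =>
      rw [H490.Ew_cons]
      exact mul_mem (h.RV_mem hχ a.hx) ih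
  refine h.cfree hK hχ (h.cent hK hχ (h1 l) (fun i => hvr.Ew_full_comm hl (h.ip_single i))
    fun p hp => ?_) fun y hy => hvr.Ew_full_comm hl hy
  have h2 : ∀ l : List (Lt (d ∘ κ)), Ew (fun P : Lt (d ∘ κ) => RV w κ ρ₁ ρ₂ P.x) l *
      Phi a1 (pr2 w p.1 p.2) =
      Phi a1 (pr2 w p.1 p.2) * Ew (fun P : Lt (d ∘ κ) => RV w κ ρ₁ ρ₂ P.x) l := by
    intro l
    induction l with
    | nil => rw [H490.Ew_nil, one_mul, mul_one]
    | cons a l ih =>
      rw [H490.Ew_cons, mul_assoc, ih, ← mul_assoc, h.rho_comm a.x (h.t0 p hp), mul_assoc]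
  exact h2 l

lemma FV_abel : ∀ x ∈ FV w κ ρ₁ ρ₂, ∀ y ∈ FV w κ ρ₁ ρ₂, x * y = y * x := by
  have h1 : FV w κ ρ₁ ρ₂ ≤ (DgS w).map (Phi a1) := by
    rw [FV, Subgroup.closure_le]
    rintro _ ⟨i, rfl⟩
    exact ⟨pr2 w (κ i) (μ i), h.fr.pr2_dg _ _, (h.RV_single i).symm⟩
  intro x hx y hy
  obtain ⟨g, hg, rfl⟩ := h1 hx
  obtain ⟨g', hg', rfl⟩ := h1 hy
  rw [← map_mul, ← map_mul, h.fr.dg_comm hg hg']

/-- nothing above `F` -/
lemma maxl (hK : StmtKer6) (hχ : Chi χ) (hT0 : T₀ = ∅) : ∀ T ∈ Ain 2 (MQ χ Q), FV w κ ρ₁ ρ₂ < T → False := by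
  intro T hT hlt
  refine not_le_of_gt hlt fun t ht => ?_
  refine h.cent hK hχ (hT.2 ht) (fun i => ?_) fun p hp => ?_
  · exact hT.1.2.1 t ht _ (hlt.le (Subgroup.subset_closure ⟨i, rfl⟩))
  · rw [hT0] at hp
    exact absurd hp (Finset.notMem_empty p)

end Cs

/-- a cycle with members in `M₀` whose slice is not a boundary in `M` -/
structure LC (𝕜 : Type v) [Field 𝕜] {G : Type u} [Group G] (M₀ M F : Subgroup G) : Prop where
  ex : ∃ (α : Ch 𝕜 (Subgroup G)) (φ : List (Subgroup G)), α ∈ Sp 𝕜 (st (Ain 2 M₀)) ∧ bd α = 0 ∧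
    (∃ φ', φ = F :: φ') ∧ Nat.card F = 2 ^ φ.length ∧
    ∀ c ∈ Sp 𝕜 (st {T | T ∈ Ain 2 M ∧ F < T}), bd c ≠ cf φ α

lemma LC.link {𝕜 : Type v} [Field 𝕜] {G : Type u} [Group G] {M₀ M F : Subgroup G}
    (h : LC 𝕜 M₀ M F) {H : Subgroup G} (h1 : M₀ ≤ H) (h2 : H ≤ M) :
    ∃ (α : Ch 𝕜 (Subgroup G)) (φ : List (Subgroup G)), LinkCycle 𝕜 2 H F α φ := by
  obtain ⟨α, φ, h3, h4, h5, h6, h7⟩ := h.ex
  have e1 : Ain 2 M₀ ⊆ Ain 2 H := fun T hT => ⟨hT.1, hT.2.trans h1⟩
  have e2 : {T | T ∈ Ain 2 H ∧ F < T} ⊆ {T | T ∈ Ain 2 M ∧ F < T} := fun T hT =>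
    ⟨⟨hT.1.1, hT.1.2.trans h2⟩, hT.2⟩
  exact ⟨α, φ, Sp_mono (fun l hl => st_mono e1 l hl) h3, h4, Or.inr h5, h6,
    fun c hc => h7 c (Sp_mono (fun l hl => st_mono e2 l hl) hc)⟩

instance finL : Finite (Lam a1) := by
  have h1 : Finite (Matrix (Fin 6) (Fin 6) (ZMod 5)) := inferInstance
  have h2 : Finite (GL (Fin 6) (ZMod 5)) := inferInstance
  have h3 : Finite ↥(OD a1) := inferInstance
  infer_instance

instance finA : Finite (MulAut (Lam a1)) :=
  Finite.of_injective (fun f : MulAut (Lam a1) => (f : Lam a1 → Lam a1)) DFunLike.coe_injective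

namespace Cs
variable {χ : ↥(OD a1) →* Q4} {Q : Subgroup Q4} {n : ℕ} {w : Fin 6 → V6} {d : Fin 6 → ZMod 5}
    {κ μ : Fin n → Fin 6} {T₀ : Finset (Fin 6 × Fin 6)} {ρ₁ ρ₂ : ↥(OD a1)}
    (h : Cs χ Q w d κ μ T₀ ρ₁ ρ₂)
include h

/-- **The maximal cycles.** -/
theorem lc (𝕜 : Type v) [Field 𝕜] (hK : StmtKer6) (hV : StmtVR) (hχ : Chi χ) (hT0 : T₀ = ∅)
    (h1 : ∃ i, IsSquare (d (κ i))) (h2 : ∃ i, ¬ IsSquare (d (κ i)))
    {M₀ : Subgroup (MulAut (Lam a1))}
    (hM : ∀ x, ip (d ∘ κ) x x ≠ 0 → RV w κ ρ₁ ρ₂ x ∈ M₀) (hM₀ : M₀ ≤ MQ χ Q) :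
    LC 𝕜 M₀ (MQ χ Q) (FV w κ ρ₁ ρ₂) := by
  obtain ⟨α, φ, hT⟩ := H987.top_std (RingEquiv.refl (ZMod 5)) (by have := h.n3; omega)
    (fun i => h.fr.ne (κ i)) (h.vr hK hV) (h.full hK hV hχ) M₀ hM h1 h2 𝕜
  have hT' : TopCycle 𝕜 2 M₀ (FV w κ ρ₁ ρ₂) α φ := hT
  have hL := linkCycle_of_top hT' fun T hT hlt => h.maxl hK hχ hT0 T ⟨hT.1, hT.2.trans hM₀⟩ hlt
  refine ⟨α, φ, hL.mem, hL.cyc, ?_, hL.card, ?_⟩
  · rcases hL.top with ⟨h3, h4⟩ | h3
    · exfalso
      have h5 : RV w κ ρ₁ ρ₂ (Pi.single (⟨0, by have := h.n3; omega⟩ : Fin n) 1) = 1 := by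
        rw [← Subgroup.mem_bot, ← h4]
        exact Subgroup.subset_closure ⟨_, rfl⟩
      have h6 := (h.vr hK hV).inj (Pi.single (⟨0, by have := h.n3; omega⟩ : Fin n) 1)
        (Pi.single (⟨1, by have := h.n3; omega⟩ : Fin n) 1) (h.ip_single _) (h.ip_single _) (by
          have h7 : RV w κ ρ₁ ρ₂ (Pi.single (⟨1, by have := h.n3; omega⟩ : Fin n) 1) = 1 := by
            rw [← Subgroup.mem_bot, ← h4]
            exact Subgroup.subset_closure ⟨_, rfl⟩
          rw [h5, h7])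
      obtain ⟨c, hc⟩ := h6
      have h8 := congrFun hc (⟨1, by have := h.n3; omega⟩ : Fin n)
      rw [Pi.single_eq_same, Pi.smul_apply, Pi.single_eq_of_ne (by simp), smul_zero] at h8
      exact one_ne_zero h8
    · exact h3
  · intro c hc
    have h3 : bd c = 0 := by
      have h4 : c ∈ Sp 𝕜 (fun l : List (Subgroup (MulAut (Lam a1))) => l = []) := by
        refine Sp_mono (fun l hl => ?_) hc
        rcases l with _ | ⟨a, l⟩
        · rfl
        · have h3 := hl.2 a (by simp)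
          exact absurd h3.2 fun h4 => h.maxl hK hχ hT0 a h3.1 h4
      have h5 := eq_of_Sp (𝕜 := 𝕜) (P := fun l : List (Subgroup (MulAut (Lam a1))) => l = [])
        (F := bd) (G := 0) (fun l hl => by
          have : l = [] := hl
          subst this
          rw [bd_single_nil, LinearMap.zero_apply]) h4
      rw [h5, LinearMap.zero_apply]
    intro h4
    exact hL.slice_ne (by rw [← h4, h3])

end Cs

end

end Vale.Agent.P240.R2.H458
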