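import Vale.Agent.P240.R2.H458.P3
import Vale.Agent.P240.R2.H506.Pent

/-!
Block P4d: slices of top cycles of length three that are not boundaries.
-/

set_option autoImplicit false
set_option linter.all false

namespace Vale.Agent.P240.R2.H458

open Matrix Vale.Agent.P240.K
open Subgroup hiding closure

universe u v w

noncomputable section

section
variable {𝕜 : Type v} [Field 𝕜] {Λ : Type*} [PartialOrder Λ]

open Classical in
/-- the functional of a union of components -/
def psi (C : Λ → Prop) : Ch 𝕜 Λ →ₗ[𝕜] 𝕜 :=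
  Finsupp.linearCombination 𝕜 fun l : List Λ => if ∃ a, l = [a] ∧ C a then (1 : 𝕜) else 0

open Classical in
lemma psi_single (C : Λ → Prop) (l : List Λ) :
    psi (𝕜 := 𝕜) C (Finsupp.single l 1) = if ∃ a, l = [a] ∧ C a then (1 : 𝕜) else 0 := by
  rw [psi, Finsupp.linearCombination_single, one_smul]

lemma psi_zero (C : Λ → Prop) {l : List Λ} (h : l.length ≠ 1) :
    psi (𝕜 := 𝕜) C (Finsupp.single l 1) = 0 := by
  classical
  rw [psi_single, if_neg]
  rintro ⟨a, rfl, -⟩
  exact h rfl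

lemma psi_bd {S : Set Λ} {C : Λ → Prop} (hC : ∀ a ∈ S, ∀ b ∈ S, a < b → (C a ↔ C b))
    {c : Ch 𝕜 Λ} (hc : c ∈ Sp 𝕜 (st S)) : psi C (bd c) = 0 := by
  classical
  have h1 := eq_of_Sp (𝕜 := 𝕜) (P := st S) (F := (psi C).comp bd) (G := 0) (fun l hl => by
    rw [LinearMap.comp_apply, LinearMap.zero_apply]
    by_cases hlen : l.length = 2
    · obtain ⟨b, a, rfl⟩ := List.length_eq_two.1 hlen
      have h2 : a < b := (List.pairwise_cons.1 hl.1).1 a (by simp)
      have h3 := hC a (hl.2 a (by simp)) b (hl.2 b (by simp)) h2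
      rw [bd_single_cons, bd_single_cons, bd_single_nil, map_zero, sub_zero, cons_single, map_sub,
        psi_single, psi_single]
      have h4 : (∃ x, [a] = [x] ∧ C x) ↔ (∃ x, [b] = [x] ∧ C x) := by
        constructor
        · rintro ⟨x, hx, hx'⟩
          have : a = x := by simpa using hx
          subst this
          exact ⟨b, rfl, h3.1 hx'⟩
        · rintro ⟨x, hx, hx'⟩
          have : b = x := by simpa using hx
          subst this
          exact ⟨a, rfl, h3.2 hx'⟩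
      by_cases h5 : ∃ x, [a] = [x] ∧ C x
      · rw [if_pos h5, if_pos (h4.1 h5), sub_self]
      · rw [if_neg h5, if_neg fun h6 => h5 (h4.2 h6), sub_self]
    · rw [bd_single, one_smul, map_sum]
      refine Finset.sum_eq_zero fun i hi => ?_
      rw [map_smul, psi_zero, smul_zero]
      rw [List.length_eraseIdx, if_pos (Finset.mem_range.1 hi)]
      omega) hc
  exact h1

end

/-- **Slices.** -/
theorem slice_lc {𝕜 : Type v} [Field 𝕜] {G : Type u} [Group G] [Finite G] {M₀ M F₃ F₂ F₁ : Subgroup G}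
    {α : Ch 𝕜 (Subgroup G)} (hT : TopCycle 𝕜 2 M₀ F₃ α [F₃, F₂, F₁]) (C : Subgroup G → Prop)
    (hC : ∀ T T' : Subgroup G, T ∈ Ain 2 M → T' ∈ Ain 2 M → F₂ < T → T < T' → (C T ↔ C T'))
    (hC3 : C F₃) (hcard : Nat.card F₂ = 4)
    (huniq : ∀ T ∈ Ain 2 M₀, F₂ < T → 8 ≤ Nat.card T → C T → T = F₃) : LC 𝕜 M₀ M F₂ := by
  classical
  have hφ := mem_Sp.1 hT.mem _ (Finsupp.mem_support_iff.2 hT.ne)
  refine ⟨α, [F₂, F₁], Sp_mono (fun l hl => hl.1) hT.mem, hT.cyc, ⟨[F₁], rfl⟩, by
    rw [hcard]; rfl, fun c hc hcb => hT.ne ?_⟩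
  have h1 : psi C (bd c) = 0 := by
    refine psi_bd (S := {T | T ∈ Ain 2 M ∧ F₂ < T}) ?_ hc
    rintro a ⟨ha, ha'⟩ b ⟨hb, hb'⟩ hab
    exact hC a b ha hb ha' hab
  rw [hcb] at h1
  -- the support of the slice
  have hsupp : ∀ l, cf [F₂, F₁] α l ≠ 0 → ∃ T, l = [T] ∧ T ∈ Ain 2 M₀ ∧ F₂ < T ∧
      8 ≤ Nat.card T := by
    intro l hl
    rw [cf_apply] at hl
    obtain ⟨⟨h2, h3⟩, h4⟩ := mem_Sp.1 hT.mem _ (Finsupp.mem_support_iff.2 hl)
    have h5 : l.length = 1 := by
      rw [List.length_append] at h4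
      simp only [List.length_cons, List.length_nil] at h4
      omega
    obtain ⟨T, rfl⟩ := List.length_eq_one_iff.1 h5
    have h6 : F₂ < T := (List.pairwise_cons.1 h2).1 F₂ (by simp)
    refine ⟨T, rfl, h3 T (by simp), h6, ?_⟩
    have h7 : Nat.card F₂ ∣ Nat.card T := Subgroup.card_dvd_of_le h6.le
    have h8 : Nat.card F₂ ≠ Nat.card T := by
      intro h9
      exact h6.ne (Subgroup.eq_of_le_of_card_ge h6.le h9.ge)
    rw [hcard] at h7 h8
    obtain ⟨k, hk⟩ := h7
    have h9 : 0 < Nat.card T := Nat.card_pos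
    rcases k with _ | _ | k
    · omega
    · omega
    · omega
  rw [psi, Finsupp.linearCombination_apply, Finsupp.sum, Finset.sum_eq_single [F₃]] at h1
  · rw [if_pos ⟨F₃, rfl, hC3⟩, smul_eq_mul, mul_one, cf_apply] at h1
    exact h1
  · intro l hl hne
    obtain ⟨T, rfl, h2, h3, h4⟩ := hsupp l (Finsupp.mem_support_iff.1 hl)
    rw [if_neg, smul_zero]
    rintro ⟨T', hT', hC'⟩
    have : T = T' := by simpa using hT'
    subst this
    exact hne (by rw [huniq T h2 h3 h4 hC'])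
  · intro h2
    rw [Finsupp.notMem_support_iff.1 h2, zero_smul]

end

end Vale.Agent.P240.R2.H458
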