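import Vale.Agent.P240.R2.H458.P4

/-!
Block P4d: the five cases.
-/

set_option autoImplicit false
set_option linter.all false

namespace Vale.Agent.P240.R2.H458

open Matrix Vale.Agent.P240.K
open Subgroup hiding closure
open Vale.Agent.P240.R2.H145.EO (B ac OD rf rf_mem B_comm B_add_left B_add_right B_smul_left
  B_smul_right B_sub_left B_sub_right)
open Vale.Agent.P240.R2.H401.D (POD SD0)
open Vale.Agent.P240.R2.H406
open Vale.Agent.P240.R2.H490 (ip VR Lt FrD Ew)

universe u v w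

noncomputable section

/-- a frame of type `(1, 1, 1, 1, 2, 2)` -/
def wI : Fin 6 → V6 := ![ee 0, ee 1, ee 2, ee 3, ee 4 + ee 5, ee 4 - ee 5]

/-- its norms -/
def dI : Fin 6 → ZMod 5 := ![1, 1, 1, 1, 2, 2]

/-- a frame of type `(2, 2, 1, 1, 2, 2)` -/
def w1 : Fin 6 → V6 := ![ee 0 + ee 1, ee 0 - ee 1, ee 2, ee 3, ee 4 + ee 5, ee 4 - ee 5]

/-- its norms -/
def d1 : Fin 6 → ZMod 5 := ![2, 2, 1, 1, 2, 2]

lemma frI : Fr wI dI := ⟨by decide, by decide +kernel⟩

lemma fr1 : Fr w1 d1 := ⟨by decide, by decide +kernel⟩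

lemma frS : Fr ee (fun _ => 1) := ⟨by decide, by decide +kernel⟩

/-- the classes of `1` and `r_1 r_2` -/
def QB : Subgroup Q4 := (MonoidHom.fst ℤˣ ℤˣ).eqLocus (MonoidHom.snd ℤˣ ℤˣ)

/-- the classes of `1` and `r_2` -/
def QN : Subgroup Q4 := (MonoidHom.fst ℤˣ ℤˣ).ker

/-- the classes of `1` and `r_1` -/
def QO : Subgroup Q4 := (MonoidHom.snd ℤˣ ℤˣ).ker

lemma mem_QB {q : Q4} : q ∈ QB ↔ q.1 = q.2 := Iff.rfl

lemma mem_QN {q : Q4} : q ∈ QN ↔ q.1 = 1 := Iff.rfl

lemma mem_QO {q : Q4} : q ∈ QO ↔ q.2 = 1 := Iff.rfl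

section
variable {w : Fin 6 → V6} {d : Fin 6 → ZMod 5} (hw : Fr w d) {ρ₁ ρ₂ : ↥(OD a1)}
include hw

lemma Fr.cor1 {j : Fin 6} (h : IsSquare (d j)) : cor ρ₁ ρ₂ (w j) = ρ₁ := by
  rw [cor, if_pos]
  rwa [hw.self]

lemma Fr.cor2 {j : Fin 6} (h : ¬ IsSquare (d j)) : cor ρ₁ ρ₂ (w j) = ρ₂ := by
  rw [cor, if_neg]
  rwa [hw.self]

lemma Fr.chi1 {χ : ↥(OD a1) →* Q4} (hχ : Chi χ) {j : Fin 6} (h : IsSquare (d j)) :
    χ (rfl' a1 (w j)) = (-1, 1) := hχ.sq _ (hw.ne' j) (by rwa [hw.self])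

lemma Fr.chi2 {χ : ↥(OD a1) →* Q4} (hχ : Chi χ) {j : Fin 6} (h : ¬ IsSquare (d j)) :
    χ (rfl' a1 (w j)) = (1, -1) := hχ.ns _ (hw.ne' j) (by rwa [hw.self])

lemma Fr.fixr {i k : Fin 6} (h : k ≠ i) : act (rfl' a1 (w i)) (w k) = w k := by
  rw [hw.act_r, if_neg h, one_smul]

end

lemma cor_same {ρ : ↥(OD a1)} (x : V6) : cor ρ ρ x = ρ := by
  rw [cor]
  split_ifs <;> rfl

lemma pr2_same (w : Fin 6 → V6) (i : Fin 6) : pr2 w i i = rfl' a1 (w i) := by
  rw [pr2, if_pos rfl]

lemma pr2_ne (w : Fin 6 → V6) {i j : Fin 6} (h : i ≠ j) :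
    pr2 w i j = rfl' a1 (w i) * rfl' a1 (w j) := by
  rw [pr2, if_neg h]

lemma dg_one (w : Fin 6 → V6) : Dg w 1 := (DgS w).one_mem

section
variable {χ : ↥(OD a1) →* Q4} (hχ : Chi χ)
include hχ

/-- all classes -/
lemma csD : Cs χ ⊤ wI dI (id : Fin 6 → Fin 6) id ∅ 1 1 where
  fr := frI
  t0 := by simp
  inj := Function.injective_id
  n3 := by norm_num
  r1 := one_mul 1
  r2 := one_mul 1
  g1 := dg_one _
  g2 := dg_one _
  f1 i := H406.act_one _
  f2 i := H406.act_one _
  hat i := by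
    rw [cor_same, mul_one]
    exact (pr2_same _ _).symm
  sgn := by decide
  sep := by decide
  q1 := Subgroup.mem_top _
  q2 := Subgroup.mem_top _
  cov i := Or.inl ⟨i, rfl⟩
  ij1 _ := rfl
  ij2 _ := rfl
  ij3 _ := one_mul 1

/-- the part of the frame -/
def κB : Fin 5 → Fin 6 := ![0, 1, 3, 4, 5]

/-- determinant one -/
lemma csB : Cs χ QB wI dI κB (fun _ => 2) ∅ (rfl' a1 (wI 2)) (rfl' a1 (wI 2)) where
  fr := frI
  t0 := by simp
  inj := by decide
  n3 := by norm_num
  r1 := rfl'_mul_self _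
  r2 := rfl'_mul_self _
  g1 := frI.r_dg 2
  g2 := frI.r_dg 2
  f1 i := frI.fixr (by revert i; decide)
  f2 i := frI.fixr (by revert i; decide)
  hat i := by
    rw [cor_same, pr2_ne]
    revert i
    decide
  sgn := by decide
  sep := by decide
  q1 := by
    rw [frI.chi1 hχ (by decide), mem_QB]
    decide
  q2 := by
    rw [frI.chi1 hχ (by decide), mem_QB]
    decide
  cov i := by
    by_cases h : i = 2
    · right; left; rw [h]
    · left
      revert i
      decide
  ij1 h := by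
    rw [frI.chi1 hχ (by decide), mem_QB] at h
    exact absurd h (by decide)
  ij2 h := by
    rw [frI.chi1 hχ (by decide), mem_QB] at h
    exact absurd h (by decide)
  ij3 _ := rfl'_mul_self _

/-- the class of `r_2` -/
lemma csN : Cs χ QN wI dI κB (![2, 2, 2, 4, 5] : Fin 5 → Fin 6) ∅ (rfl' a1 (wI 2)) 1 where
  fr := frI
  t0 := by simp
  inj := by decide
  n3 := by norm_num
  r1 := rfl'_mul_self _
  r2 := one_mul 1
  g1 := frI.r_dg 2
  g2 := dg_one _
  f1 i := frI.fixr (by revert i; decide)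
  f2 i := H406.act_one _
  hat i := by
    by_cases h : IsSquare (dI (κB i))
    · rw [frI.cor1 h]
      have h1 : (![2, 2, 2, 4, 5] : Fin 5 → Fin 6) i = 2 ∧ κB i ≠ 2 := by
        revert i
        decide
      rw [h1.1, pr2_ne _ h1.2]
    · rw [frI.cor2 h, mul_one]
      have h1 : (![2, 2, 2, 4, 5] : Fin 5 → Fin 6) i = κB i := by
        revert i
        decide
      rw [h1, pr2_same]
  sgn := by decide
  sep := by decide
  q1 := by
    rw [frI.chi1 hχ (by decide), mem_QN]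
    decide
  q2 := by
    rw [map_one, mem_QN]
    decide
  cov i := by
    by_cases h : i = 2
    · right; left; rw [h]
    · left
      revert i
      decide
  ij1 h := by
    rw [frI.chi1 hχ (by decide), mem_QN] at h
    exact absurd h (by decide)
  ij2 _ := rfl
  ij3 h := by
    rw [mul_one, frI.chi1 hχ (by decide), mem_QN] at h
    exact absurd h (by decide)

/-- the class of `r_1` -/
lemma csO : Cs χ QO w1 d1 (![0, 1, 2, 3, 5] : Fin 5 → Fin 6) (![4, 4, 2, 3, 4] : Fin 5 → Fin 6) ∅ 1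
    (rfl' a1 (w1 4)) where
  fr := fr1
  t0 := by simp
  inj := by decide
  n3 := by norm_num
  r1 := one_mul 1
  r2 := rfl'_mul_self _
  g1 := dg_one _
  g2 := fr1.r_dg 4
  f1 i := H406.act_one _
  f2 i := fr1.fixr (by revert i; decide)
  hat i := by
    by_cases h : IsSquare (d1 ((![0, 1, 2, 3, 5] : Fin 5 → Fin 6) i))
    · rw [fr1.cor1 h, mul_one]
      have h1 : (![4, 4, 2, 3, 4] : Fin 5 → Fin 6) i = (![0, 1, 2, 3, 5] : Fin 5 → Fin 6) i := by
        revert i
        decide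
      rw [h1, pr2_same]
    · rw [fr1.cor2 h]
      have h1 : (![4, 4, 2, 3, 4] : Fin 5 → Fin 6) i = 4 ∧
          (![0, 1, 2, 3, 5] : Fin 5 → Fin 6) i ≠ 4 := by
        revert i
        decide
      rw [h1.1, pr2_ne _ h1.2]
  sgn := by decide
  sep := by decide
  q1 := by
    rw [map_one, mem_QO]
    decide
  q2 := by
    rw [fr1.chi2 hχ (by decide), mem_QO]
    decide
  cov i := by
    by_cases h : i = 4
    · right; right; rw [h]
    · left
      revert i
      decide
  ij1 _ := rfl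
  ij2 h := by
    rw [fr1.chi2 hχ (by decide), mem_QO] at h
    exact absurd h (by decide)
  ij3 h := by
    rw [one_mul, fr1.chi2 hχ (by decide), mem_QO] at h
    exact absurd h (by decide)

/-- the part of the frame -/
def κZ : Fin 4 → Fin 6 := ![0, 1, 3, 5]

/-- the trivial class -/
lemma csZ : Cs χ ⊥ wI dI κZ (![2, 2, 2, 4] : Fin 4 → Fin 6) {(4, 4)} (rfl' a1 (wI 2))
    (rfl' a1 (wI 4)) where
  fr := frI
  t0 p hp := by
    rw [Finset.mem_singleton] at hp
    rw [hp]
    exact Or.inr (pr2_same _ _)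
  inj := by decide
  n3 := by norm_num
  r1 := rfl'_mul_self _
  r2 := rfl'_mul_self _
  g1 := frI.r_dg 2
  g2 := frI.r_dg 4
  f1 i := frI.fixr (by revert i; decide)
  f2 i := frI.fixr (by revert i; decide)
  hat i := by
    by_cases h : IsSquare (dI (κZ i))
    · rw [frI.cor1 h]
      have h1 : (![2, 2, 2, 4] : Fin 4 → Fin 6) i = 2 ∧ κZ i ≠ 2 := by
        revert i
        decide
      rw [h1.1, pr2_ne _ h1.2]
    · rw [frI.cor2 h]
      have h1 : (![2, 2, 2, 4] : Fin 4 → Fin 6) i = 4 ∧ κZ i ≠ 4 := by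
        revert i
        decide
      rw [h1.1, pr2_ne _ h1.2]
  sgn := by decide
  sep := by decide
  q1 := by
    rw [frI.chi1 hχ (by decide), mem_bot]
    decide
  q2 := by
    rw [frI.chi2 hχ (by decide), mem_bot]
    decide
  cov i := by
    by_cases h : i = 2
    · right; left; rw [h]
    · by_cases h' : i = 4
      · right; right; rw [h']
      · left
        revert i
        decide
  ij1 h := by
    rw [frI.chi1 hχ (by decide), mem_bot] at h
    exact absurd h (by decide)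
  ij2 h := by
    rw [frI.chi2 hχ (by decide), mem_bot] at h
    exact absurd h (by decide)
  ij3 h := by
    rw [map_mul, frI.chi1 hχ (by decide), frI.chi2 hχ (by decide), mem_bot] at h
    exact absurd h (by decide)

end

end

end Vale.Agent.P240.R2.H458
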