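import Vale.Agent.P240.R2.H458.P5

/-!
Block P4d: the statements of the last two steps.
-/

set_option autoImplicit false
set_option linter.all false

namespace Vale.Agent.P240.R2.H458

open Matrix Vale.Agent.P240.K
open Subgroup hiding closure
open Vale.Agent.P240.R2.H145.EO (B OD)
open Vale.Agent.P240.R2.H406

universe u v w

noncomputable section

/-- the group `A` -/
def A0 : Subgroup (MulAut (Lam a1)) :=
  Subgroup.closure {Phi a1 (sg a1 {0, 2}), Phi a1 (sg a1 {1, 2})}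

/-- the conjugates of `A` -/
def fam : Set (Subgroup (MulAut (Lam a1))) :=
  {A | ∃ t : MulAut (Lam a1), A = A0.map (MulAut.conj t).toMonoidHom}

/-- the reflection in `e_2` -/
def rl : MulAut (Lam a1) := Phi a1 (rfl' a1 (ee 2))

/-- the reflection in `e_4 + e_5` -/
def rm : MulAut (Lam a1) := Phi a1 (rfl' a1 (ee 4 + ee 5))

/-- (S8) a cycle for the class group `Q` that commutes with `Bm` -/
def Cy (𝕜 : Type v) [Field 𝕜] (χ : ↥(OD a1) →* Q4) (Q : Subgroup Q4)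
    (Bm : Subgroup (MulAut (Lam a1))) : Prop :=
  ∃ F ≤ MQ χ Q ⊓ centralizer (Bm : Set (MulAut (Lam a1))), F ∈ ApS 2 (MulAut (Lam a1)) ∧
    (∃ A ∈ fam, A ≤ F) ∧ Inn6 ⊔ F = MQ χ Q ∧
    LC 𝕜 (MQ χ Q ⊓ centralizer (Bm : Set (MulAut (Lam a1)))) (MQ χ Q) F

/-- (Z) the cycle for the group of inner automorphisms -/
def StmtZ (𝕜 : Type v) [Field 𝕜] : Prop := StmtKer6 → StmtVR → ∀ χ : ↥(OD a1) →* Q4, Chi χ →
  LC 𝕜 (MQ χ ⊥ ⊓ centralizer ((Subgroup.closure {rl, rm} : Subgroup (MulAut (Lam a1))) :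
    Set (MulAut (Lam a1)))) (MQ χ ⊥) A0

/-- (S9) the assembly -/
def StmtAsm6 (𝕜 : Type v) [Field 𝕜] : Prop := StmtSem6 → StmtKer6 → StmtFrame6 →
  ∀ χ : ↥(OD a1) →* Q4, Chi χ →
  Cy 𝕜 χ ⊥ (Subgroup.closure {rl, rm}) → Cy 𝕜 χ QB (Subgroup.closure {rl}) →
  Cy 𝕜 χ QN (Subgroup.closure {rl}) → Cy 𝕜 χ QO (Subgroup.closure {rm}) → Cy 𝕜 χ ⊤ ⊥ →
  AutG 𝕜 (Lam a1)

end

end Vale.Agent.P240.R2.H458
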