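import Vale.Agent.P240.R2.H458.P6D

/-!
Block P4d: the assembly, elementary abelian groups of diagonal automorphisms.
-/

set_option autoImplicit false
set_option linter.all false

namespace Vale.Agent.P240.R2.H458

open Matrix Vale.Agent.P240.K
open Subgroup hiding closure
open Vale.Agent.P240.R2.H145.EO (B OD)
open Vale.Agent.P240.R2.H406

universe u v w

noncomputable section

/-- the conclusion for `E₁ ≤ E` -/
def Goal (𝕜 : Type v) [Field 𝕜] (E E₁ : Subgroup (MulAut (Lam a1))) : Prop :=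
  ∃ Bc ≤ E, E₁ ⊔ Bc = E ∧ E₁ ⊓ Bc = ⊥ ∧
    ∃ F ≤ (Inn6 ⊔ E₁) ⊓ centralizer (Bc : Set (MulAut (Lam a1))),
      F ∈ ApS 2 (MulAut (Lam a1)) ∧ (∃ A ∈ fam, A ≤ F) ∧ Inn6 ⊔ F = Inn6 ⊔ E₁ ∧
      ∃ (α : Ch 𝕜 (Subgroup (MulAut (Lam a1)))) (φ : List (Subgroup (MulAut (Lam a1)))),
        LinkCycle 𝕜 2 ((Inn6 ⊔ E₁) ⊓ centralizer (Bc : Set (MulAut (Lam a1)))) F α φ

/-- the inner automorphisms form a normal subgroup -/
lemma inn_normal : (Inn6).Normal := by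
  constructor
  rintro _ ⟨l, rfl⟩ f
  refine ⟨f l, ?_⟩
  refine MulEquiv.ext fun x => ?_
  rw [MulAut.conj_apply, MulAut.mul_apply, MulAut.mul_apply, MulAut.conj_apply, map_mul, map_mul,
    map_inv, MulAut.apply_inv_self]

lemma cj_inn (t : MulAut (Lam a1)) : H487.cj t Inn6 = Inn6 := H487.cj_normal inn_normal t

lemma fam_cj {A : Subgroup (MulAut (Lam a1))} (h : A ∈ fam) (t : MulAut (Lam a1)) :
    H487.cj t A ∈ fam := by
  obtain ⟨s, rfl⟩ := h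
  refine ⟨t * s, ?_⟩
  show H487.cj t (H487.cj s A0) = H487.cj (t * s) A0
  rw [H487.cj_mul]

/-- conjugation -/
lemma goal_cj {𝕜 : Type v} [Field 𝕜] {E E₁ : Subgroup (MulAut (Lam a1))} (t : MulAut (Lam a1))
    (h : Goal 𝕜 (H487.cj t E) (H487.cj t E₁)) : Goal 𝕜 E E₁ := by
  obtain ⟨Bc, h1, h2, h3, F, h4, h5, ⟨A, h6, h7⟩, h8, α, φ, h9⟩ := h
  have key : ∀ X : Subgroup (MulAut (Lam a1)), H487.cj t⁻¹ (H487.cj t X) = X :=
    fun X => H487.cj_inv t X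
  have hM : H487.cj t⁻¹ ((Inn6 ⊔ H487.cj t E₁) ⊓ centralizer (Bc : Set (MulAut (Lam a1)))) =
      (Inn6 ⊔ E₁) ⊓ centralizer ((H487.cj t⁻¹ Bc : Subgroup (MulAut (Lam a1))) :
        Set (MulAut (Lam a1))) := by
    rw [(H487.cj t⁻¹).map_inf, (H487.cj t⁻¹).map_sup, key, cj_inn, H487.cj_centralizer]
  refine ⟨H487.cj t⁻¹ Bc, ?_, ?_, ?_, H487.cj t⁻¹ F, ?_, H487.cj_ApS h5,
    ⟨H487.cj t⁻¹ A, fam_cj h6 _, H487.cj_mono h7⟩, ?_, ?_⟩
  · rw [← key E]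
    exact H487.cj_mono h1
  · rw [← key E, ← h2, (H487.cj t⁻¹).map_sup, key]
  · rw [← H487.cj_bot t⁻¹, ← h3, (H487.cj t⁻¹).map_inf, key]
  · rw [← hM]
    exact H487.cj_mono h4
  · have h10 := congrArg (H487.cj t⁻¹) h8
    rwa [(H487.cj t⁻¹).map_sup, (H487.cj t⁻¹).map_sup, key, cj_inn] at h10
  · rw [← hM]
    exact linkCycle_cj h9 h4 t⁻¹

/-! ### the section -/

/-- the elements of the group generated by the two reflections -/
def sec (q : Q4) : ↥(OD a1) :=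
  (if q.1 = -1 then rfl' a1 (ee 2) else 1) * (if q.2 = -1 then rfl' a1 (ee 4 + ee 5) else 1)

lemma wI2 : wI 2 = ee 2 := rfl

lemma wI4 : wI 4 = ee 4 + ee 5 := rfl

lemma rr_comm : rfl' a1 (ee 2) * rfl' a1 (ee 4 + ee 5) =
    rfl' a1 (ee 4 + ee 5) * rfl' a1 (ee 2) := frI.dg_comm (frI.r_dg 2) (frI.r_dg 4)

lemma chi_sec {χ : ↥(OD a1) →* Q4} (hχ : Chi χ) (q : Q4) : χ (sec q) = q := by
  have h1 : χ (rfl' a1 (ee 2)) = (-1, 1) := frI.chi1 hχ (j := 2) (by decide)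
  have h2 : χ (rfl' a1 (ee 4 + ee 5)) = (1, -1) := frI.chi2 hχ (j := 4) (by decide)
  obtain ⟨a, b⟩ := q
  rw [sec, map_mul]
  have hne : (1 : ℤˣ) ≠ -1 := by decide
  rcases Int.units_eq_one_or a with rfl | rfl <;> rcases Int.units_eq_one_or b with rfl | rfl <;>
    simp only [if_true, if_neg hne, h1, h2, map_one, one_mul, mul_one, Prod.mk_mul_mk]
  rfl

lemma sec_one : sec 1 = 1 := by simp [sec]

/-- the complements -/
def BC (C : Subgroup Q4) : Subgroup (MulAut (Lam a1)) where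
  carrier := {x | ∃ q ∈ C, x = Phi a1 (sec q)}
  mul_mem' := by
    rintro _ _ ⟨q, hq, rfl⟩ ⟨q', hq', rfl⟩
    refine ⟨q * q', mul_mem hq hq', ?_⟩
    rw [← map_mul]
    have h : sec q * sec q' = sec (q * q') := by
      have e1 := rfl'_mul_self (a := a1) (ee 2)
      have e2 := rfl'_mul_self (a := a1) (ee 4 + ee 5)
      have e3 := rr_comm
      obtain ⟨a, b⟩ := q
      obtain ⟨a', b'⟩ := q'
      have hne : (1 : ℤˣ) ≠ -1 := by decide
      rcases Int.units_eq_one_or a with rfl | rfl <;> rcases Int.units_eq_one_or b with rfl | rfl <;>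
        rcases Int.units_eq_one_or a' with rfl | rfl <;>
        rcases Int.units_eq_one_or b' with rfl | rfl <;>
        simp only [sec, Prod.mk_mul_mk, one_mul, mul_one, if_true, if_neg hne, neg_mul_neg, e1, e2]
      · rw [e3]
      · rw [← mul_assoc, ← e3, mul_assoc, e2, mul_one]
      · rw [← mul_assoc, e1, one_mul]
      · rw [mul_assoc, e2, mul_one]
      · rw [mul_assoc, ← e3, ← mul_assoc, e1, one_mul]
      · rw [mul_assoc, ← mul_assoc (rfl' a1 (ee 4 + ee 5)), ← e3, mul_assoc (rfl' a1 (ee 2)), e2,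
          mul_one, e1]
    rw [h]
  one_mem' := ⟨1, one_mem _, by rw [sec_one, map_one]⟩
  inv_mem' := by
    rintro _ ⟨q, hq, rfl⟩
    refine ⟨q, hq, ?_⟩
    rw [← map_inv]
    have h : (sec q)⁻¹ = sec q := by
      have e1 := rfl'_mul_self (a := a1) (ee 2)
      have e2 := rfl'_mul_self (a := a1) (ee 4 + ee 5)
      have e3 := rr_comm
      apply inv_eq_of_mul_eq_one_left
      obtain ⟨a, b⟩ := q
      have hne : (1 : ℤˣ) ≠ -1 := by decide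
      rcases Int.units_eq_one_or a with rfl | rfl <;> rcases Int.units_eq_one_or b with rfl | rfl <;>
        simp only [sec, one_mul, mul_one, if_true, if_neg hne, e1, e2]
      rw [mul_assoc, ← mul_assoc (rfl' a1 (ee 4 + ee 5)), ← e3, mul_assoc (rfl' a1 (ee 2)), e2,
        mul_one, e1]
    rw [h]

lemma mem_BC {C : Subgroup Q4} {x : MulAut (Lam a1)} :
    x ∈ BC C ↔ ∃ q ∈ C, x = Phi a1 (sec q) := Iff.rfl

lemma BC_mono {C C' : Subgroup Q4} (h : C ≤ C') : BC C ≤ BC C' := by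
  rintro x ⟨q, hq, rfl⟩
  exact ⟨q, h hq, rfl⟩

lemma BC_top : BC ⊤ ≤ Subgroup.closure {rl, rm} := by
  rintro x ⟨q, -, rfl⟩
  rw [sec, map_mul]
  refine mul_mem ?_ ?_
  · split_ifs
    · exact Subgroup.subset_closure (Or.inl rfl)
    · rw [map_one]; exact one_mem _
  · split_ifs
    · exact Subgroup.subset_closure (Or.inr rfl)
    · rw [map_one]; exact one_mem _

lemma BC_QO : BC QO ≤ Subgroup.closure {rl} := by
  rintro x ⟨q, hq, rfl⟩
  rw [mem_QO] at hq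
  have h2 : (if q.2 = -1 then rfl' a1 (ee 4 + ee 5) else 1) = 1 :=
    if_neg (by rw [hq]; decide)
  rw [sec, h2, mul_one]
  split_ifs
  · exact Subgroup.subset_closure rfl
  · rw [map_one]; exact one_mem _

lemma BC_QN : BC QN ≤ Subgroup.closure {rm} := by
  rintro x ⟨q, hq, rfl⟩
  rw [mem_QN] at hq
  have h2 : (if q.1 = -1 then rfl' a1 (ee 2) else 1) = 1 := if_neg (by rw [hq]; decide)
  rw [sec, h2, one_mul]
  split_ifs
  · exact Subgroup.subset_closure rfl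
  · rw [map_one]; exact one_mem _

lemma BC_bot : BC ⊥ ≤ ⊥ := by
  rintro x ⟨q, hq, rfl⟩
  rw [mem_bot] at hq
  rw [hq, sec_one, map_one]
  exact one_mem _

/-- the subgroups of `Q4` -/
lemma Q4_cases (D : Subgroup Q4) : D = ⊥ ∨ D = QB ∨ D = QN ∨ D = QO ∨ D = ⊤ := by
  have hall : ∀ q : Q4, q = 1 ∨ q = (-1, 1) ∨ q = (1, -1) ∨ q = (-1, -1) := by decide
  have hext : ∀ D' : Subgroup Q4, (((-1, 1) : Q4) ∈ D ↔ ((-1, 1) : Q4) ∈ D') →
      (((1, -1) : Q4) ∈ D ↔ ((1, -1) : Q4) ∈ D') →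
      (((-1, -1) : Q4) ∈ D ↔ ((-1, -1) : Q4) ∈ D') → D = D' := by
    intro D' h1 h2 h3
    ext q
    rcases hall q with rfl | rfl | rfl | rfl
    · exact ⟨fun _ => one_mem _, fun _ => one_mem _⟩
    · exact h1
    · exact h2
    · exact h3
  have m1 : ((-1, 1) : Q4) * (1, -1) = (-1, -1) := by decide
  have m2 : ((-1, 1) : Q4) * (-1, -1) = (1, -1) := by decide
  have m3 : ((1, -1) : Q4) * (-1, -1) = (-1, 1) := by decide
  have b1 : ((-1, 1) : Q4) ∉ QB := by rw [mem_QB]; decide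
  have b2 : ((1, -1) : Q4) ∉ QB := by rw [mem_QB]; decide
  have b3 : ((-1, -1) : Q4) ∈ QB := by rw [mem_QB]
  have n1 : ((-1, 1) : Q4) ∉ QN := by rw [mem_QN]; decide
  have n2 : ((1, -1) : Q4) ∈ QN := by rw [mem_QN]
  have n3 : ((-1, -1) : Q4) ∉ QN := by rw [mem_QN]; decide
  have o1 : ((-1, 1) : Q4) ∈ QO := by rw [mem_QO]
  have o2 : ((1, -1) : Q4) ∉ QO := by rw [mem_QO]; decide
  have o3 : ((-1, -1) : Q4) ∉ QO := by rw [mem_QO]; decide
  have z1 : ((-1, 1) : Q4) ∉ (⊥ : Subgroup Q4) := by rw [mem_bot]; decide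
  have z2 : ((1, -1) : Q4) ∉ (⊥ : Subgroup Q4) := by rw [mem_bot]; decide
  have z3 : ((-1, -1) : Q4) ∉ (⊥ : Subgroup Q4) := by rw [mem_bot]; decide
  by_cases h1 : ((-1, 1) : Q4) ∈ D <;> by_cases h2 : ((1, -1) : Q4) ∈ D <;>
    by_cases h3 : ((-1, -1) : Q4) ∈ D
  · exact Or.inr (Or.inr (Or.inr (Or.inr (hext ⊤ (by simp [h1]) (by simp [h2]) (by simp [h3])))))
  · exact absurd (m1 ▸ mul_mem h1 h2) h3
  · exact absurd (m2 ▸ mul_mem h1 h3) h2
  · exact Or.inr (Or.inr (Or.inr (Or.inl (hext QO (iff_of_true h1 o1) (iff_of_false h2 o2)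
      (iff_of_false h3 o3)))))
  · exact absurd (m3 ▸ mul_mem h2 h3) h1
  · exact Or.inr (Or.inr (Or.inl (hext QN (iff_of_false h1 n1) (iff_of_true h2 n2)
      (iff_of_false h3 n3))))
  · exact Or.inr (Or.inl (hext QB (iff_of_false h1 b1) (iff_of_false h2 b2)
      (iff_of_true h3 b3)))
  · exact Or.inl (hext ⊥ (iff_of_false h1 z1) (iff_of_false h2 z2) (iff_of_false h3 z3))

/-- complements in `Q4` -/
lemma Q4_compl {D C : Subgroup Q4} (h1 : ∀ q ∈ D, q ∈ C → q = 1)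
    (h2 : ∀ q : Q4, ∃ a ∈ D, ∃ b ∈ C, a * b = q) : D ⊓ C = ⊥ ∧ ∀ q : Q4, ∃ a ∈ D, ∃ b ∈ C, a * b = q := by
  refine ⟨?_, h2⟩
  rw [eq_bot_iff]
  intro q hq
  exact mem_bot.2 (h1 q hq.1 hq.2)

/-- the final step -/
lemma goal_of {𝕜 : Type v} [Field 𝕜] {χ : ↥(OD a1) →* Q4} (hχ : Chi χ) {w : Fin 6 → V6}
    {d : Fin 6 → ZMod 5} (hw : Fr w d) {E E₁ : Subgroup (MulAut (Lam a1))}
    (hE2 : ∀ x ∈ E, x ^ 2 = 1)
    (hEw : ∀ x ∈ E, ∃ g : ↥(OD a1), Dg w g ∧ Phi a1 g = x)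
    (hmax : ∀ y ∈ Inn6, y ^ 2 = 1 → (∀ e ∈ E, e * y = y * e) → y ∈ E)
    (hE₁ : E₁ ≤ E) (hEL : E ⊓ Inn6 ≤ E₁)
    (hsec : ∀ g : ↥(OD a1), Dg w g → Phi a1 g ∈ E → Dg w (sec (χ g)))
    {C : Subgroup Q4} {Bm : Subgroup (MulAut (Lam a1))} (hB : BC C ≤ Bm)
    (hC1 : (E₁.comap (Phi a1)).map χ ⊓ C = ⊥)
    (hC2 : ∀ q : Q4, ∃ a ∈ (E₁.comap (Phi a1)).map χ, ∃ b ∈ C, a * b = q)
    (hcy : Cy 𝕜 χ ((E₁.comap (Phi a1)).map χ) Bm) : Goal 𝕜 E E₁ := by
  set D₁ := (E₁.comap (Phi a1)).map χ with hD₁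
  set D := (E.comap (Phi a1)).map χ with hD
  -- the kernel
  have hker : ∀ g g' : ↥(OD a1), Phi a1 g = Phi a1 g' → χ g = χ g' := by
    intro g g' h
    have h1 : Phi a1 (g * g'⁻¹) ∈ Inn6 := by
      rw [map_mul, map_inv, h, mul_inv_cancel]
      exact one_mem _
    have h2 := (hχ.inn _).1 h1
    rw [map_mul, map_inv, mul_inv_eq_one] at h2
    exact h2
  have hDle : D₁ ≤ D := Subgroup.map_mono (Subgroup.comap_mono hE₁)
  -- membership
  have hmem1 : ∀ g : ↥(OD a1), Dg w g → χ g = 1 → Phi a1 g ∈ E₁ := by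
    intro g hg hg1
    have h1 : Phi a1 g ∈ Inn6 := (hχ.inn g).2 hg1
    refine hEL (mem_inf.2 ⟨hmax _ h1 ?_ ?_, h1⟩)
    · rw [pow_two, ← map_mul]
      have h2 : g * g = 1 := hw.act_ext fun i => by
        rw [H406.act_mul]
        rcases hg i with h3 | h3
        · rw [h3, h3]
          exact (H406.act_one _).symm
        · rw [h3, ← neg_one_smul (ZMod 5) (w i), act_smul, h3, neg_one_smul, neg_neg]
          exact (H406.act_one _).symm
      rw [h2, map_one]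
    · intro e he
      obtain ⟨g', hg', rfl⟩ := hEw e he
      rw [← map_mul, ← map_mul, hw.dg_comm hg' hg]
  have hmem : ∀ E' : Subgroup (MulAut (Lam a1)), E₁ ≤ E' → E' ≤ E → ∀ g : ↥(OD a1), Dg w g →
      χ g ∈ (E'.comap (Phi a1)).map χ → Phi a1 g ∈ E' := by
    intro E' h1 h2 g hg hq
    obtain ⟨g', hg', hgq⟩ := hq
    obtain ⟨g'', hg'', h3⟩ := hEw _ (h2 hg')
    have h4 : Phi a1 (g * g''⁻¹) ∈ E₁ := by
      refine hmem1 _ ((DgS w).mul_mem hg ((DgS w).inv_mem hg'')) ?_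
      rw [map_mul, map_inv, hker _ _ h3, hgq, mul_inv_cancel]
    have h5 : Phi a1 g = Phi a1 (g * g''⁻¹) * Phi a1 g' := by
      rw [← h3, ← map_mul, inv_mul_cancel_right]
    rw [h5]
    exact mul_mem (h1 h4) hg'
  -- `Inn ⊔ E₁`
  have hInn : Inn6 ⊔ E₁ = MQ χ D₁ := by
    refine sup_eq hχ ?_ ?_
    · intro x hx
      obtain ⟨g, hg, rfl⟩ := hEw x (hE₁ hx)
      exact ⟨g, ⟨g, hx, rfl⟩, rfl⟩
    · rintro q ⟨g, hg, rfl⟩
      exact ⟨g, hg, rfl⟩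
  have hsecE : ∀ q ∈ D, Dg w (sec q) ∧ Phi a1 (sec q) ∈ E := by
    rintro q ⟨g, hg, rfl⟩
    obtain ⟨g', hg', h3⟩ := hEw _ hg
    have h4 : Dg w (sec (χ g')) := hsec g' hg' (by rw [h3]; exact hg)
    rw [hker _ _ h3] at h4
    refine ⟨h4, hmem E hE₁ le_rfl _ h4 ?_⟩
    rw [chi_sec hχ]
    exact ⟨g, hg, rfl⟩
  have hBB : BC (D ⊓ C) ≤ Bm := (BC_mono inf_le_right).trans hB
  obtain ⟨F, hF1, hF2, hF3, hF4, hF5⟩ := hcy
  have hcl : centralizer (Bm : Set (MulAut (Lam a1))) ≤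
      centralizer ((BC (D ⊓ C) : Subgroup (MulAut (Lam a1))) : Set (MulAut (Lam a1))) :=
    centralizer_le hBB
  refine ⟨BC (D ⊓ C), ?_, ?_, ?_, F, ?_, hF2, hF3, ?_, ?_⟩
  · rintro x ⟨q, hq, rfl⟩
    exact (hsecE q hq.1).2
  · refine le_antisymm (sup_le hE₁ ?_) ?_
    · rintro x ⟨q, hq, rfl⟩
      exact (hsecE q hq.1).2
    · intro x hx
      obtain ⟨g, hg, rfl⟩ := hEw x hx
      obtain ⟨a, ha, b, hb, hab⟩ := hC2 (χ g)
      have hbD : b ∈ D := by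
        have h1 : b = a⁻¹ * χ g := by rw [← hab, inv_mul_cancel_left]
        rw [h1]
        exact mul_mem (inv_mem (hDle ha)) ⟨g, hx, rfl⟩
      have h1 : Phi a1 (g * (sec b)⁻¹) ∈ E₁ := by
        refine hmem E₁ le_rfl hE₁ _ ((DgS w).mul_mem hg ((DgS w).inv_mem (hsecE b hbD).1)) ?_
        rw [map_mul, map_inv, chi_sec hχ, ← hab, mul_inv_cancel_right]
        exact ha
      have h2 : Phi a1 g = Phi a1 (g * (sec b)⁻¹) * Phi a1 (sec b) := by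
        rw [← map_mul, inv_mul_cancel_right]
      rw [h2]
      exact mul_mem (mem_sup_left h1) (mem_sup_right ⟨b, ⟨hbD, hb⟩, rfl⟩)
  · rw [eq_bot_iff]
    rintro x ⟨hx1, q, hq, rfl⟩
    have h1 : q ∈ D₁ ⊓ C := ⟨⟨sec q, hx1, chi_sec hχ q⟩, hq.2⟩
    rw [hC1, mem_bot] at h1
    rw [h1, sec_one, map_one]
    exact one_mem _
  · rw [hInn]
    exact hF1.trans (inf_le_inf_left _ hcl)
  · rw [hInn, hF4]
  · rw [hInn]
    exact hF5.link (inf_le_inf_left _ hcl) inf_le_left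

end

end Vale.Agent.P240.R2.H458
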