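import Vale.Agent.P240.R2.H458.P7

/-!
Block P4d: the assembly.
-/

set_option autoImplicit false
set_option linter.all false

namespace Vale.Agent.P240.R2.H458

open Matrix Vale.Agent.P240.K
open Subgroup hiding closure
open Vale.Agent.P240.R2.H145.EO (B OD)
open Vale.Agent.P240.R2.H406

universe u v w

noncomputable section

/-- the hypotheses on `E₁ ≤ E` -/
structure Hy (E E₁ : Subgroup (MulAut (Lam a1))) : Prop where
  comm : ∀ x ∈ E, ∀ y ∈ E, x * y = y * x
  exp : ∀ x ∈ E, x ^ 2 = 1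
  max : ∀ y ∈ Inn6, y ^ 2 = 1 → (∀ e ∈ E, e * y = y * e) → y ∈ E
  le : E₁ ≤ E
  inn : E ⊓ Inn6 ≤ E₁

lemma Hy.cj {E E₁ : Subgroup (MulAut (Lam a1))} (h : Hy E E₁) (t : MulAut (Lam a1)) :
    Hy (H487.cj t E) (H487.cj t E₁) := by
  refine ⟨fun x hx y hy => ?_, fun x hx => ?_, fun y hy hy2 hyc => ?_, H487.cj_mono h.le, ?_⟩
  · rw [H487.mem_cj] at hx hy
    have h1 := h.comm _ hx _ hy
    have h2 : t * ((t⁻¹ * x * t) * (t⁻¹ * y * t)) * t⁻¹ = x * y := by group
    have h3 : t * ((t⁻¹ * y * t) * (t⁻¹ * x * t)) * t⁻¹ = y * x := by group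
    rw [← h2, ← h3, h1]
  · rw [H487.mem_cj] at hx
    have h1 := h.exp _ hx
    have h2 : x ^ 2 = t * (t⁻¹ * x * t) ^ 2 * t⁻¹ := by rw [pow_two, pow_two]; group
    rw [h2, h1, mul_one, mul_inv_cancel]
  · rw [H487.mem_cj]
    refine h.max _ ?_ ?_ fun e he => ?_
    · have h1 := inn_normal.conj_mem y hy t⁻¹
      rwa [inv_inv] at h1
    · have h2 : (t⁻¹ * y * t) ^ 2 = t⁻¹ * y ^ 2 * t := by rw [pow_two, pow_two]; group
      rw [h2, hy2, mul_one, inv_mul_cancel]
    · have h1 : t * e * t⁻¹ ∈ H487.cj t E := by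
        rw [H487.mem_cj]
        have h2 : t⁻¹ * (t * e * t⁻¹) * t = e := by group
        rwa [h2]
      have h2 := hyc _ h1
      have h3 : e * (t⁻¹ * y * t) = t⁻¹ * ((t * e * t⁻¹) * y) * t := by group
      have h4 : t⁻¹ * y * t * e = t⁻¹ * (y * (t * e * t⁻¹)) * t := by group
      rw [h3, h4, h2]
  · have h1 := H487.cj_mono (y := t) h.inn
    rwa [(H487.cj t).map_inf, cj_inn] at h1

/-! ### the group `A` -/

lemma sg_eq (i j : Fin 6) (h : i ≠ j) : sg a1 {i, j} = rfl' a1 (ee i) * rfl' a1 (ee j) := by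
  rw [rfl'_e one_ne_zero, rfl'_e one_ne_zero, sg_mul]
  congr 1
  ext k
  simp only [Finset.mem_insert, Finset.mem_singleton, Finset.mem_symmDiff]
  by_cases h1 : k = i
  · subst h1; simp [h]
  · simp [h1]

lemma chi_ee {χ : ↥(OD a1) →* Q4} (hχ : Chi χ) (i : Fin 6) : χ (rfl' a1 (ee i)) = (-1, 1) :=
  frS.chi1 hχ (j := i) (by decide)

lemma chi_sg {χ : ↥(OD a1) →* Q4} (hχ : Chi χ) {i j : Fin 6} (h : i ≠ j) :
    χ (sg a1 {i, j}) = 1 := by
  rw [sg_eq i j h, map_mul, chi_ee hχ, chi_ee hχ]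
  decide

/-- the isometries `1, -1` times the preimage of `A` -/
def AB : Subgroup ↥(OD a1) := Subgroup.closure {sg a1 {0, 2}, sg a1 {1, 2}, sg a1 Finset.univ}

lemma AB_x : sg a1 {0, 2} ∈ AB := Subgroup.subset_closure (Or.inl rfl)

lemma AB_y : sg a1 {1, 2} ∈ AB := Subgroup.subset_closure (Or.inr (Or.inl rfl))

lemma AB_z : sg a1 Finset.univ ∈ AB := Subgroup.subset_closure (Or.inr (Or.inr rfl))

lemma AB_A0 (hK : StmtKer6) {a : ↥(OD a1)} (ha : a ∈ AB) : Phi a1 a ∈ A0 := by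
  have h1 : AB ≤ A0.comap (Phi a1) := by
    rw [AB, Subgroup.closure_le]
    rintro _ (rfl | rfl | rfl)
    · exact Subgroup.subset_closure (Or.inl rfl)
    · exact Subgroup.subset_closure (Or.inr rfl)
    · show Phi a1 (sg a1 Finset.univ) ∈ A0
      rw [(hK _).2 (Or.inr rfl)]
      exact one_mem _
  exact h1 ha

lemma sgu_comm (u : ↥(OD a1)) : u * sg a1 Finset.univ = sg a1 Finset.univ * u := by
  refine H406.act_ext fun x => ?_
  rw [H406.act_mul, H406.act_mul, sgu_act, sgu_act, ← neg_one_smul (ZMod 5) x, act_smul,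
    neg_one_smul]

/-- an isometry that fixes `e_0, e_1, e_2` -/
def F3 (u : ↥(OD a1)) : Prop := ∀ i : Fin 6, i.val < 3 → act u (ee i) = ee i

lemma F3.r {u : ↥(OD a1)} (h : F3 u) {i : Fin 6} (hi : i.val < 3) :
    u * rfl' a1 (ee i) = rfl' a1 (ee i) * u := by
  have h1 := rfl'_conj (a := a1) u (ee i)
  rw [h i hi] at h1
  exact mul_inv_eq_iff_eq_mul.1 h1

lemma F3.comm {u : ↥(OD a1)} (h : F3 u) {a : ↥(OD a1)} (ha : a ∈ AB) : u * a = a * u := by
  have h1 : AB ≤ centralizer {u} := by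
    rw [AB, Subgroup.closure_le]
    rintro _ (rfl | rfl | rfl)
    · rw [SetLike.mem_coe, mem_centralizer_singleton_iff, sg_eq 0 2 (by decide), mul_assoc,
        ← h.r (i := 2) (by decide), ← mul_assoc, ← h.r (i := 0) (by decide), mul_assoc]
    · rw [SetLike.mem_coe, mem_centralizer_singleton_iff, sg_eq 1 2 (by decide), mul_assoc,
        ← h.r (i := 2) (by decide), ← mul_assoc, ← h.r (i := 1) (by decide), mul_assoc]
    · rw [SetLike.mem_coe, mem_centralizer_singleton_iff, sgu_comm]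
  have h2 := h1 ha
  rw [mem_centralizer_singleton_iff] at h2
  exact h2.symm

lemma AB_dg {w : Fin 6 → V6} {d : Fin 6 → ZMod 5} (hw : Fr w d)
    (hw3 : ∀ i : Fin 6, i.val < 3 → w i = ee i) {a : ↥(OD a1)} (ha : a ∈ AB) : Dg w a := by
  have h1 : AB ≤ DgS w := by
    rw [AB, Subgroup.closure_le]
    rintro _ (rfl | rfl | rfl)
    · rw [sg_eq 0 2 (by decide), ← hw3 0 (by decide), ← hw3 2 (by decide)]
      exact (DgS w).mul_mem (hw.r_dg _) (hw.r_dg _)
    · rw [sg_eq 1 2 (by decide), ← hw3 1 (by decide), ← hw3 2 (by decide)]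
      exact (DgS w).mul_mem (hw.r_dg _) (hw.r_dg _)
    · exact fun i => Or.inr (sgu_act _)
  exact h1 ha

lemma sg_e (J : Finset (Fin 6)) (i : Fin 6) :
    act (sg a1 J) (ee i) = if i ∈ J then -ee i else ee i := by
  rw [act_sg]
  funext k
  by_cases hk : k = i
  · subst hk
    by_cases h : k ∈ J <;> simp [h]
  · by_cases h : k ∈ J <;> by_cases h' : i ∈ J <;> simp [h, h', hk]

/-- correction of the signs -/
lemma exists_AB {g : ↥(OD a1)}
    (h : ∀ i : Fin 6, i.val < 3 → act g (ee i) = ee i ∨ act g (ee i) = -ee i) :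
    ∃ a ∈ AB, ∀ i : Fin 6, i.val < 3 → act a (ee i) = act g (ee i) := by
  have hx := AB_x
  have hy := AB_y
  have hz := AB_z
  have key : ∀ a : ↥(OD a1), act a (ee 0) = act g (ee 0) → act a (ee 1) = act g (ee 1) →
      act a (ee 2) = act g (ee 2) → ∀ i : Fin 6, i.val < 3 → act a (ee i) = act g (ee i) := by
    intro a h0 h1 h2 i hi
    have : i = 0 ∨ i = 1 ∨ i = 2 := by
      revert i
      decide
    rcases this with rfl | rfl | rfl
    · exact h0
    · exact h1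
    · exact h2
  have neg_ee : ∀ (a : ↥(OD a1)) (x : V6), act a (-x) = -act a x := fun a x => by
    rw [← neg_one_smul (ZMod 5) x, act_smul, neg_one_smul]
  have m0 : (0 : Fin 6) ∈ ({0, 2} : Finset (Fin 6)) := by decide
  have m1 : (1 : Fin 6) ∉ ({0, 2} : Finset (Fin 6)) := by decide
  have m2 : (2 : Fin 6) ∈ ({0, 2} : Finset (Fin 6)) := by decide
  have n0 : (0 : Fin 6) ∉ ({1, 2} : Finset (Fin 6)) := by decide
  have n1 : (1 : Fin 6) ∈ ({1, 2} : Finset (Fin 6)) := by decide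
  have n2 : (2 : Fin 6) ∈ ({1, 2} : Finset (Fin 6)) := by decide
  rcases h 0 (by decide) with h0 | h0 <;> rcases h 1 (by decide) with h1 | h1 <;>
    rcases h 2 (by decide) with h2 | h2
  · refine ⟨1, one_mem _, key 1 ?_ ?_ ?_⟩ <;>
      simp only [h0, h1, h2] <;> exact H406.act_one _
  · refine ⟨sg a1 Finset.univ * (sg a1 {0, 2} * sg a1 {1, 2}), mul_mem hz (mul_mem hx hy),
      key _ ?_ ?_ ?_⟩ <;>
      simp only [H406.act_mul, sg_e, m0, m1, m2, n0, n1, n2, Finset.mem_univ, if_true, if_false, neg_ee, h0, h1, h2,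
        sgu_act, neg_neg]
  · refine ⟨sg a1 Finset.univ * sg a1 {0, 2}, mul_mem hz hx, key _ ?_ ?_ ?_⟩ <;>
      simp only [H406.act_mul, sg_e, m0, m1, m2, n0, n1, n2, Finset.mem_univ, if_true, if_false, neg_ee, h0, h1, h2,
        sgu_act, neg_neg]
  · refine ⟨sg a1 {1, 2}, hy, key _ ?_ ?_ ?_⟩ <;>
      simp only [H406.act_mul, sg_e, m0, m1, m2, n0, n1, n2, Finset.mem_univ, if_true, if_false, neg_ee, h0, h1, h2,
        sgu_act, neg_neg]
  · refine ⟨sg a1 Finset.univ * sg a1 {1, 2}, mul_mem hz hy, key _ ?_ ?_ ?_⟩ <;>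
      simp only [H406.act_mul, sg_e, m0, m1, m2, n0, n1, n2, Finset.mem_univ, if_true, if_false, neg_ee, h0, h1, h2,
        sgu_act, neg_neg]
  · refine ⟨sg a1 {0, 2}, hx, key _ ?_ ?_ ?_⟩ <;>
      simp only [H406.act_mul, sg_e, m0, m1, m2, n0, n1, n2, Finset.mem_univ, if_true, if_false, neg_ee, h0, h1, h2,
        sgu_act, neg_neg]
  · refine ⟨sg a1 {0, 2} * sg a1 {1, 2}, mul_mem hx hy, key _ ?_ ?_ ?_⟩ <;>
      simp only [H406.act_mul, sg_e, m0, m1, m2, n0, n1, n2, Finset.mem_univ, if_true, if_false, neg_ee, h0, h1, h2,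
        sgu_act, neg_neg]
  · refine ⟨sg a1 Finset.univ, hz, key _ ?_ ?_ ?_⟩ <;>
      simp only [H406.act_mul, sg_e, m0, m1, m2, n0, n1, n2, Finset.mem_univ, if_true, if_false, neg_ee, h0, h1, h2,
        sgu_act, neg_neg]

/-- elements commuting with `A` preserve the lines of `e_0, e_1, e_2` -/
lemma lines (hK : StmtKer6) {g : ↥(OD a1)}
    (h1 : Phi a1 g * Phi a1 (sg a1 {0, 2}) = Phi a1 (sg a1 {0, 2}) * Phi a1 g)
    (h2 : Phi a1 g * Phi a1 (sg a1 {1, 2}) = Phi a1 (sg a1 {1, 2}) * Phi a1 g) :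
    ∀ i : Fin 6, i.val < 3 → act g (ee i) = ee i ∨ act g (ee i) = -ee i := by
  have e1 : sg a1 {0, 2} = pr2 ee 0 2 := by rw [pr2_ne _ (by decide), sg_eq 0 2 (by decide)]
  have e2 : sg a1 {1, 2} = pr2 ee 1 2 := by rw [pr2_ne _ (by decide), sg_eq 1 2 (by decide)]
  rw [e1] at h1
  rw [e2] at h2
  have c1 := comm_of_tr hK (frS.tr_pr2 0 2) h1
  have c2 := comm_of_tr hK (frS.tr_pr2 1 2) h2
  have key : ∀ i : Fin 6, i.val < 3 → ∀ j : Fin 6, i ≠ j →
      B a1 (act g (ee i)) (ee j) = 0 := by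
    intro i hi j hij
    have h3 : ¬ ((i = 0 ∨ i = 2) ↔ (j = 0 ∨ j = 2)) ∨ ¬ ((i = 1 ∨ i = 2) ↔ (j = 1 ∨ j = 2)) := by
      revert i j
      decide
    rcases h3 with h3 | h3
    · refine B_zero_of_comm c1 (frS.act_pr2 _ _ i) (frS.act_pr2 _ _ j) ?_
      by_cases h4 : i = 0 ∨ i = 2 <;> by_cases h5 : j = 0 ∨ j = 2 <;>
        simp only [h4, h5, if_true, if_false, iff_self, not_true_eq_false, iff_false, iff_true]
          at h3 ⊢ <;> decide
    · refine B_zero_of_comm c2 (frS.act_pr2 _ _ i) (frS.act_pr2 _ _ j) ?_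
      by_cases h4 : i = 1 ∨ i = 2 <;> by_cases h5 : j = 1 ∨ j = 2 <;>
        simp only [h4, h5, if_true, if_false, iff_self, not_true_eq_false, iff_false, iff_true]
          at h3 ⊢ <;> decide
  intro i hi
  set c := B a1 (act g (ee i)) (ee i) with hc
  have h3 : act g (ee i) = c • ee i := by
    refine frS.ext fun j => ?_
    by_cases hij : i = j
    · subst hij
      rw [H145.EO.B_smul_left, frS.self, mul_one, hc]
    · rw [key i hi j hij, H145.EO.B_smul_left, frS.orth hij, mul_zero]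
  have h4 : c * c = 1 := by
    have h5 : B a1 (act g (ee i)) (act g (ee i)) = 1 := by rw [act_B, frS.self]
    rw [h3, H145.EO.B_smul_left, H145.EO.B_smul_right, frS.self, mul_one] at h5
    exact h5
  rcases mul_self_eq_one_iff.1 h4 with h5 | h5
  · left; rw [h3, h5, one_smul]
  · right; rw [h3, h5, neg_one_smul]

end

end Vale.Agent.P240.R2.H458
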